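import Vale.Agent.P150.Weak.Hess.Core
import Vale.Agent.P150.Weak.Found.Deriv
import Vale.Agent.P150.Weak.GaussDiv
import Vale.Agent.P150.Gap.Goe

/-!
Entrywise calculus for matrix paths, the derivatives of `N` and of `r² N^(q+1)`, the derivative of
the magnetisation in a coupling, and polynomial growth of matrix functions of Gaussians.
-/

open Finset
open scoped Matrix

namespace Vale.Agent.P150.Weak.Hess

open Gap

variable {m : ℕ}

/-- Entrywise derivative of a path of matrices. -/
def MD (A : ℝ → MM m) (A' : MM m) (t : ℝ) : Prop :=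
  ∀ i j, HasDerivAt (fun s => A s i j) (A' i j) t

namespace MD

variable {A B : ℝ → MM m} {A' B' : MM m} {t : ℝ}

lemma const (M : MM m) (t : ℝ) : MD (fun _ => M) 0 t := fun i j => hasDerivAt_const t (M i j)

lemma add (hA : MD A A' t) (hB : MD B B' t) : MD (fun s => A s + B s) (A' + B') t :=
  fun i j => (hA i j).add (hB i j)

lemma mul (hA : MD A A' t) (hB : MD B B' t) :
    MD (fun s => A s * B s) (A' * B t + A t * B') t := by
  intro i j
  simp only [Matrix.mul_apply, Matrix.add_apply, ← sum_add_distrib]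
  exact HasDerivAt.fun_sum fun k _ => (hA i k).mul (hB k j)

lemma smul {f : ℝ → ℝ} {f' : ℝ} (hf : HasDerivAt f f' t) (hA : MD A A' t) :
    MD (fun s => f s • A s) (f' • A t + f t • A') t :=
  fun i j => hf.mul (hA i j)

lemma pow_succ (hA : MD A A' t) : ∀ k : ℕ,
    MD (fun s => A s ^ (k + 1)) (∑ l ∈ range (k + 1), A t ^ l * A' * A t ^ (k - l)) t
  | 0 => by simpa using hA
  | k + 1 => by
    have h := (pow_succ hA k).mul hA
    intro i j
    refine ((h i j).congr_of_eventuallyEq ?_).congr_deriv ?_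
    · exact Filter.Eventually.of_forall fun s => by simp only [_root_.pow_succ (A s) (k + 1)]
    · have e : (∑ l ∈ range (k + 1), A t ^ l * A' * A t ^ (k - l)) * A t =
          ∑ l ∈ range (k + 1), A t ^ l * A' * A t ^ (k + 1 - l) := by
        rw [sum_mul]
        refine sum_congr rfl fun l hl => ?_
        rw [mem_range] at hl
        rw [Nat.succ_sub (by omega : l ≤ k), _root_.pow_succ, mul_assoc]
      rw [e, sum_range_succ _ (k + 1), Nat.sub_self, pow_zero, mul_one]

lemma trace (hA : MD A A' t) : HasDerivAt (fun s => (A s).trace) A'.trace t :=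
  HasDerivAt.fun_sum fun i _ => hA i i

lemma trace_pow (hA : MD A A' t) (k : ℕ) :
    HasDerivAt (fun s => (A s ^ (k + 1)).trace) (((k:ℝ) + 1) * (A t ^ k * A').trace) t := by
  refine (hA.pow_succ k).trace.congr_deriv ?_
  have e : ∀ l ∈ range (k + 1),
      (A t ^ l * A' * A t ^ (k - l)).trace = (A t ^ k * A').trace := fun l hl => by
    rw [mem_range] at hl
    rw [Matrix.trace_mul_cycle, ← pow_add, Nat.sub_add_cancel (by omega : l ≤ k)]
  rw [Matrix.trace_sum, sum_congr rfl e, sum_const, card_range, nsmul_eq_mul]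
  push_cast
  ring

end MD

section path

variable {b η L : ℝ} {n : ℕ} {μ : ℝ → Vec m} {δ : Vec m} {W : ℝ → MM m} {W' : MM m} {t : ℝ}

lemma sq_le_one' {x : ℝ} (h : |x| ≤ 1) : x ^ 2 ≤ 1 := (sq_le_one_iff_abs_le_one x).2 h

lemma hasDerivAt_rr (hμ : ∀ k, HasDerivAt (fun s => μ s k) (δ k) t) :
    HasDerivAt (fun s => rr n (μ s)) (2 * (μ t ⬝ᵥ δ) / n) t := by
  refine ((HasDerivAt.fun_sum fun k _ => (hμ k).pow 2).div_const (n:ℝ)).congr_deriv ?_
  simp only [dotProduct, mul_sum]
  congr 1
  exact sum_congr rfl fun k _ => by push_cast; ring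

lemma md_qm (hμ : ∀ k, HasDerivAt (fun s => μ s k) (δ k) t) :
    MD (fun s => qm n (μ s)) (dqm n (μ t) δ) t := by
  intro i j
  simp only [qm, dqm, Matrix.sub_apply, Matrix.smul_apply, Matrix.add_apply, Matrix.vecMulVec_apply,
    smul_eq_mul]
  refine (((hasDerivAt_rr hμ).mul_const _).sub (((hμ i).mul (hμ j)).const_mul _)).congr_deriv ?_
  ring

lemma md_zm (hη : 0 < η) (hb : ∀ k, |μ t k| ≤ 1)
    (hμ : ∀ k, HasDerivAt (fun s => μ s k) (δ k) t) (hW : MD W W' t) :
    MD (fun s => zm b η n L (μ s) (W s)) (Matrix.diagonal (dzd b η n (μ t) δ) + W') t := by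
  refine MD.add (fun i j => ?_) hW
  by_cases h : i = j
  · subst h
    simp only [Matrix.diagonal_apply_eq, zd, dzd]
    have hden : (1 - μ t i ^ 2 + η) ≠ 0 := by nlinarith [sq_le_one' (hb i)]
    have hs := HasDerivAt.fun_sum (u := univ) fun k _ => ((hμ k).pow 2).const_sub (1:ℝ)
    refine (((hasDerivAt_const t L).sub
      ((hasDerivAt_const t (1:ℝ)).div ((((hμ i).pow 2).const_sub 1).add_const η) hden)).sub
      ((hs.const_mul (b ^ 2)).div_const (n:ℝ))).congr_deriv ?_
    have hsum : ∑ k, -(((2:ℕ):ℝ) * μ t k ^ (2 - 1) * δ k) = -(2 * (μ t ⬝ᵥ δ)) := by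
      rw [sum_neg_distrib]
      simp only [dotProduct, mul_sum]
      congr 1
      exact sum_congr rfl fun k _ => by push_cast; ring
    rw [hsum]
    push_cast
    simp only [Pi.pow_apply]
    simp only [zero_mul, one_mul, zero_sub, pow_one]
    ring
  · simp only [Matrix.diagonal_apply_ne _ h]
    exact hasDerivAt_const t 0

lemma md_nm (hη : 0 < η) (hb : ∀ k, |μ t k| ≤ 1)
    (hμ : ∀ k, HasDerivAt (fun s => μ s k) (δ k) t) (hW : MD W W' t) :
    MD (fun s => nm b η n L (μ s) (W s))
      (dnm b η n L (μ t) δ (W t) + qm n (μ t) * W' * qm n (μ t)) t := by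
  intro i j
  refine ((((md_qm hμ).mul (md_zm hη hb hμ hW)).mul (md_qm hμ)) i j).congr_deriv ?_
  simp only [dnm, add_mul, mul_add, Matrix.add_apply]
  ring

lemma md_h (hη : 0 < η) (hb : ∀ k, |μ t k| ≤ 1)
    (hμ : ∀ k, HasDerivAt (fun s => μ s k) (δ k) t) (hW : MD W W' t) (q : ℕ) :
    MD (fun s => rr n (μ s) ^ 2 • nm b η n L (μ s) (W s) ^ (q + 1))
      (dh b η n L (μ t) δ (W t) q + rr n (μ t) ^ 2 • ∑ l ∈ range (q + 1),
        nm b η n L (μ t) (W t) ^ l * (qm n (μ t) * W' * qm n (μ t)) *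
          nm b η n L (μ t) (W t) ^ (q - l)) t := by
  intro i j
  refine ((MD.smul ((hasDerivAt_rr hμ).pow 2) ((md_nm hη hb hμ hW).pow_succ q)) i j).congr_deriv ?_
  simp only [dh, mul_add, add_mul, sum_add_distrib, smul_add, Matrix.add_apply, Matrix.smul_apply,
    smul_eq_mul, Pi.pow_apply]
  push_cast
  ring

end path

section linear

variable {b η L : ℝ} {n : ℕ} {μ δ : Vec m} {W : MM m} (c : ℝ)

lemma dqm_smul : dqm n μ (c • δ) = c • dqm n μ δ := by
  ext i j
  simp only [dqm, dotProduct_smul, Matrix.sub_apply, Matrix.smul_apply, Matrix.add_apply,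
    Matrix.vecMulVec_apply, Pi.smul_apply, smul_eq_mul]
  ring

lemma dzd_smul : dzd b η n μ (c • δ) = c • dzd b η n μ δ := by
  funext i
  simp only [dzd, dotProduct_smul, Pi.smul_apply, smul_eq_mul]
  ring

lemma dh_smul (q : ℕ) : dh b η n L μ (c • δ) W q = c • dh b η n L μ δ W q := by
  have e : dnm b η n L μ (c • δ) W = c • dnm b η n L μ δ W := by
    simp only [dnm, dqm_smul, dzd_smul, Matrix.diagonal_smul, Matrix.smul_mul, Matrix.mul_smul,
      smul_add]
  rw [dh, dh, e, dotProduct_smul, smul_eq_mul]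
  simp only [Matrix.smul_mul, Matrix.mul_smul, ← smul_sum, smul_add, smul_smul]
  congr 2 <;> ring

lemma dh_zero (q : ℕ) : dh b η n L μ 0 W q = 0 := by
  simpa using dh_smul (b := b) (η := η) (L := L) (n := n) (μ := μ) (δ := (0 : Vec m)) (W := W)
    (0 : ℝ) q

lemma transpose_dh (hW : Wᵀ = W) (q : ℕ) : (dh b η n L μ δ W q)ᵀ = dh b η n L μ δ W q := by
  simp only [dh, Matrix.transpose_add, Matrix.transpose_smul, Matrix.transpose_pow, transpose_nm hW,
    Matrix.transpose_sum, Matrix.transpose_mul, transpose_dnm hW]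
  congr 2
  refine (sum_flip _).symm.trans (sum_congr rfl fun l hl => ?_)
  rw [mem_range] at hl
  rw [Nat.sub_sub_self (by omega : l ≤ q), mul_assoc]

lemma qm_nm_pow_qm (hW : Wᵀ = W) {k : ℕ} (hk : k ≠ 0) :
    qm n μ * nm b η n L μ W ^ k * qm n μ = rr n μ ^ 2 • nm b η n L μ W ^ k := by
  rw [qm_eq, Matrix.smul_mul, Matrix.smul_mul, Matrix.mul_smul, smul_smul, ← sq,
    proj_mul_of (vecMul_nm_pow_self hW hk), mul_proj_of (nm_pow_mulVec_self hk)]

end linear

/-- The derivative of `m_k` in the coupling of `i` and `j`. -/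
noncomputable def delt (J : Mat m) (u : Vec m) (i j : Fin m) : Vec m :=
  fun k => cm3 J u k i j + cm2 J u k i * mg J u j + cm2 J u k j * mg J u i

lemma delt_eq (J : Mat m) (u : Vec m) (i j k : Fin m) :
    delt J u i j k = ev J u (fun x => spin x k * spin x i * spin x j) -
      mg J u k * ev J u (fun x => spin x i * spin x j) := by
  simp only [delt, cm3_eq, cm2_eq]; ring

lemma delt_self (J : Mat m) (u : Vec m) (i : Fin m) : delt J u i i = 0 := by
  funext k
  simp [delt_eq, mul_assoc, ← sq, spin_sq', mg, ev_const]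

lemma delt_comm (J : Mat m) (u : Vec m) (i j : Fin m) : delt J u i j = delt J u j i := by
  funext k
  simp only [delt, cm3_swap23 J u k i j]; ring

lemma sym_add (a c : Edge m → ℝ) (i j : Fin m) :
    sym (fun e => a e + c e) i j = sym a i j + sym c i j := by
  unfold sym; split_ifs <;> simp

lemma sym_smul (x : ℝ) (a : Edge m → ℝ) (i j : Fin m) :
    sym (fun e => x * a e) i j = x * sym a i j := by
  unfold sym; split_ifs <;> simp

lemma hasDerivAt_sym {a : ℝ → Edge m → ℝ} {a' : Edge m → ℝ} {t : ℝ}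
    (h : ∀ e, HasDerivAt (fun s => a s e) (a' e) t) (i j : Fin m) :
    HasDerivAt (fun s => sym (a s) i j) (sym a' i j) t := by
  unfold sym
  split_ifs with h1 h2
  · exact h _
  · exact h _
  · exact hasDerivAt_const t 0

/-- Planted couplings as a function of the Gaussians of the pairs. -/
noncomputable def cpl (v : ℝ) (a : Edge m → ℝ) : MM m :=
  fun i j => if i = j then 0 else v + √v * sym a i j

/-- The derivative of `cpl` in the direction `a`. -/
noncomputable def wd (v : ℝ) (a : Edge m → ℝ) : MM m := fun i j => √v * sym a i j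

lemma plJ_eq (v : ℝ) (g : Idx m → ℝ) : plJ v g = cpl v fun e => g (.inl e) := rfl

lemma transpose_cpl (v : ℝ) (a : Edge m → ℝ) : (cpl v a)ᵀ = cpl v a := by
  ext i j
  simp only [Matrix.transpose_apply, cpl, eq_comm (a := i) (b := j), sym_comm a i j]

lemma md_cpl (v : ℝ) {a : ℝ → Edge m → ℝ} {a' : Edge m → ℝ} {t : ℝ}
    (h : ∀ e, HasDerivAt (fun s => a s e) (a' e) t) : MD (fun s => cpl v (a s)) (wd v a') t := by
  intro i j
  simp only [cpl, wd]
  split_ifs with hij
  · subst hij; rw [sym_self, mul_zero]; exact hasDerivAt_const t 0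
  · exact ((hasDerivAt_sym h i j).const_mul _).const_add v

lemma hasDerivAt_mg_edge (v τ : ℝ) (g : Idx m → ℝ) (e : Edge m) (k : Fin m) (t : ℝ) :
    HasDerivAt (fun s => mg (plJ v (Function.update g (.inl e) s))
        (plU τ (Function.update g (.inl e) s)) k)
      (√v * delt (plJ v (Function.update g (.inl e) t)) (plU τ (Function.update g (.inl e) t))
        e.1.1 e.1.2 k) t := by
  have hu : ∀ s, plU τ (Function.update g (.inl e) s) = plU τ g := fun s => by
    funext i; simp [plU]
  simp only [hu]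
  have hsp : ∀ e' : Edge m, HasDerivAt (fun s => Function.update g (.inl e) s (.inl e'))
      (if e' = e then (1:ℝ) else 0) t := fun e' => by
    by_cases h : e' = e
    · subst h; simp only [Function.update_self, if_true]; exact hasDerivAt_id' t
    · rw [if_neg h]
      simpa [h] using hasDerivAt_const t (g (.inl e'))
  refine (hasDerivAt_ev (J := fun s => plJ v (Function.update g (.inl e) s))
    (u := fun _ => plU τ g) (e := fun x => √v * (spin x e.1.1 * spin x e.1.2)) (fun x => ?_)
    fun x => spin x k).congr_deriv ?_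
  · have hJ := fun i j => md_cpl v hsp i j
    refine ((((HasDerivAt.fun_sum (u := univ) fun i _ => HasDerivAt.fun_sum (u := univ) fun j _ =>
      ((hJ i j).mul_const (spin x i)).mul_const (spin x j))).div_const 2).add_const
        (∑ i, plU τ g i * spin x i)).congr_deriv ?_
    have he : ∀ i j, wd v (fun e' => if e' = e then (1:ℝ) else 0) i j * spin x i * spin x j =
        √v * (sym (fun e' => if e' = e then (1:ℝ) else 0) i j * spin x i * spin x j) :=
      fun i j => by simp only [wd]; ring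
    simp only [he, ← mul_sum, quad_eq]
    simp only [ite_mul, one_mul, zero_mul, sum_ite_eq', mem_univ, if_true]
    ring
  · rw [delt_eq]
    have e1 : (fun x : Conf m => spin x k * (√v * (spin x e.1.1 * spin x e.1.2))) =
        fun x => √v * (spin x k * spin x e.1.1 * spin x e.1.2) := funext fun x => by ring
    rw [e1, ev_smul, ev_smul, mg]
    ring

section tame

variable {ι : Type*} [Fintype ι]

lemma continuous_sym (i j : Fin m) : Continuous fun a : Edge m → ℝ => sym a i j := by
  unfold sym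
  split_ifs
  · exact continuous_apply _
  · exact continuous_apply _
  · exact continuous_const

lemma continuous_plJ (v : ℝ) : Continuous fun g : Idx m → ℝ => plJ v g := by
  refine continuous_pi fun i => continuous_pi fun j => ?_
  have h : Continuous fun g : Idx m → ℝ => fun e : Edge m => g (.inl e) :=
    continuous_pi fun e => continuous_apply _
  simp only [plJ]
  split_ifs
  · exact continuous_const
  · exact continuous_const.add (continuous_const.mul ((continuous_sym i j).comp h))

omit [Fintype ι] in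
lemma continuous_pl (v τ : ℝ) {f : (ι → ℝ) → Idx m → ℝ} (hf : Continuous f) :
    Continuous fun g => (plJ v (f g), plU τ (f g)) :=
  ((continuous_plJ v).comp hf).prodMk (by unfold plU; fun_prop)

/-- Entrywise polynomial growth. -/
def MT (A : (ι → ℝ) → MM m) : Prop := ∀ i j, Tame fun g => A g i j

namespace MT

variable {A B : (ι → ℝ) → MM m}

lemma add (hA : MT A) (hB : MT B) : MT fun g => A g + B g := fun i j => (hA i j).add (hB i j)

lemma mul (hA : MT A) (hB : MT B) : MT fun g => A g * B g := fun i j => by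
  simp only [Matrix.mul_apply]
  exact Tame.sum fun k _ => (hA i k).mul (hB k j)

lemma smul {f : (ι → ℝ) → ℝ} (hf : Tame f) (hA : MT A) : MT fun g => f g • A g :=
  fun i j => hf.mul (hA i j)

lemma pow (hA : MT A) : ∀ k : ℕ, MT fun g => A g ^ k
  | 0 => fun i j => by simpa using Tame.const ((1 : MM m) i j)
  | k + 1 => by simpa only [pow_succ] using (hA.pow k).mul hA

lemma msum {α : Type*} {s : Finset α} {F : α → (ι → ℝ) → MM m} (h : ∀ a ∈ s, MT (F a)) :
    MT fun g => ∑ a ∈ s, F a g := fun i j => by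
  simp only [Matrix.sum_apply]
  exact Tame.sum fun a ha => h a ha i j

lemma trace (hA : MT A) : Tame fun g => (A g).trace := Tame.sum fun i _ => hA i i

end MT

variable {b η L : ℝ} {n : ℕ} {μ δ : (ι → ℝ) → Vec m} {W : (ι → ℝ) → MM m}

lemma tame_of_eq_mul {f : (ι → ℝ) → ℝ} (c : ℝ) (h : Tame f) : Tame fun g => c * f g :=
  (Tame.const c).mul h

lemma tame_rr (hμ : ∀ k, Tame fun g => μ g k) : Tame fun g => rr n (μ g) := by
  simp only [rr, sq1, div_eq_mul_inv]
  exact (Tame.sum fun k _ => (hμ k).pow 2).mul (Tame.const _)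

lemma tame_dot (hμ : ∀ k, Tame fun g => μ g k) (hδ : ∀ k, Tame fun g => δ g k) :
    Tame fun g => μ g ⬝ᵥ δ g := Tame.sum fun k _ => (hμ k).mul (hδ k)

lemma tame_inv (hη : 0 < η) (hμ : ∀ k, Tame fun g => μ g k) (hb : ∀ g k, |μ g k| ≤ 1)
    (i : Fin m) : Tame fun g => 1 / (1 - μ g i ^ 2 + η) := by
  have hp : ∀ g, η ≤ 1 - μ g i ^ 2 + η := fun g => by linarith [sq_le_one' (hb g i)]
  refine Tame.of_bounded (B := 1 / η) ?_ fun g => ?_
  · exact continuous_const.div₀ ((continuous_const.sub ((hμ i).pow 2).1).add continuous_const)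
      fun g => (hη.trans_le (hp g)).ne'
  · rw [abs_of_nonneg (one_div_nonneg.2 (hη.le.trans (hp g)))]
    exact one_div_le_one_div_of_le hη (hp g)

lemma mt_qm (hμ : ∀ k, Tame fun g => μ g k) : MT fun g => qm n (μ g) := fun i j => by
  simp only [qm, Matrix.sub_apply, Matrix.smul_apply, Matrix.vecMulVec_apply, smul_eq_mul]
  exact ((tame_rr hμ).mul (Tame.const _)).sub (tame_of_eq_mul _ ((hμ i).mul (hμ j)))

lemma mt_diag {d : (ι → ℝ) → Vec m} (h : ∀ i, Tame fun g => d g i) :
    MT fun g => Matrix.diagonal (d g) := fun i j => by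
  by_cases e : i = j
  · subst e; simpa only [Matrix.diagonal_apply_eq] using h i
  · simpa only [Matrix.diagonal_apply_ne _ e] using Tame.const (ι := ι) 0

lemma tame_zd (hη : 0 < η) (hμ : ∀ k, Tame fun g => μ g k) (hb : ∀ g k, |μ g k| ≤ 1) (i : Fin m) :
    Tame fun g => zd b η n L (μ g) i := by
  simp only [zd, div_eq_mul_inv (b ^ 2 * _)]
  exact ((Tame.const L).sub (tame_inv hη hμ hb i)).sub
    ((tame_of_eq_mul _ (Tame.sum fun k _ => (Tame.const 1).sub ((hμ k).pow 2))).mul (Tame.const _))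

lemma mt_nm (hη : 0 < η) (hμ : ∀ k, Tame fun g => μ g k) (hb : ∀ g k, |μ g k| ≤ 1) (hW : MT W) :
    MT fun g => nm b η n L (μ g) (W g) :=
  ((mt_qm hμ).mul ((mt_diag (tame_zd hη hμ hb)).add hW)).mul (mt_qm hμ)

lemma mt_dnm (hη : 0 < η) (hμ : ∀ k, Tame fun g => μ g k) (hδ : ∀ k, Tame fun g => δ g k)
    (hb : ∀ g k, |μ g k| ≤ 1) (hW : MT W) : MT fun g => dnm b η n L (μ g) (δ g) (W g) := by
  have hq : MT fun g => dqm n (μ g) (δ g) := fun i j => by
    simp only [dqm, Matrix.sub_apply, Matrix.smul_apply, Matrix.add_apply, Matrix.vecMulVec_apply,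
      smul_eq_mul, div_eq_mul_inv (2 * _ : ℝ)]
    exact (((tame_of_eq_mul 2 (tame_dot hμ hδ)).mul (Tame.const _)).mul (Tame.const _)).sub
      (tame_of_eq_mul _ (((hδ i).mul (hμ j)).add ((hμ i).mul (hδ j))))
  have hd : ∀ i, Tame fun g => dzd b η n (μ g) (δ g) i := fun i => by
    have e : ∀ g, dzd b η n (μ g) (δ g) i =
        (-2) * (μ g i * δ g i * (1 / (1 - μ g i ^ 2 + η)) ^ 2) +
          (2 * b ^ 2 / n) * (μ g ⬝ᵥ δ g) := fun g => by rw [dzd, div_pow, one_pow]; ring
    simp only [e]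
    exact (tame_of_eq_mul _ (((hμ i).mul (hδ i)).mul ((tame_inv hη hμ hb i).pow 2))).add
      (tame_of_eq_mul _ (tame_dot hμ hδ))
  have hz : MT fun g => zm b η n L (μ g) (W g) := (mt_diag (tame_zd hη hμ hb)).add hW
  exact (((hq.mul hz).mul (mt_qm hμ)).add (((mt_qm hμ).mul (mt_diag hd)).mul (mt_qm hμ))).add
    (((mt_qm hμ).mul hz).mul hq)

lemma mt_dh (hη : 0 < η) (hμ : ∀ k, Tame fun g => μ g k) (hδ : ∀ k, Tame fun g => δ g k)
    (hb : ∀ g k, |μ g k| ≤ 1) (hW : MT W) (q : ℕ) :
    MT fun g => dh b η n L (μ g) (δ g) (W g) q := by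
  have hr : Tame fun g => 2 * rr n (μ g) * (2 * (μ g ⬝ᵥ δ g) / n) := by
    simp only [div_eq_mul_inv]
    exact (tame_of_eq_mul 2 (tame_rr hμ)).mul
      ((tame_of_eq_mul 2 (tame_dot hμ hδ)).mul (Tame.const _))
  exact (MT.smul hr ((mt_nm hη hμ hb hW).pow (q + 1))).add
    (MT.smul ((tame_rr hμ).pow 2) (MT.msum fun l _ =>
      (((mt_nm hη hμ hb hW).pow l).mul (mt_dnm hη hμ hδ hb hW)).mul
        ((mt_nm hη hμ hb hW).pow (q - l))))

lemma mt_cpl (v : ℝ) {a : (ι → ℝ) → Edge m → ℝ} (ha : ∀ e, Tame fun g => a g e) :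
    MT fun g => cpl v (a g) := fun i j => by
  simp only [cpl]
  split_ifs
  · exact Tame.const 0
  · refine (Tame.const v).add (tame_of_eq_mul _ ?_)
    unfold sym
    split_ifs
    · exact ha _
    · exact ha _
    · exact Tame.const 0

end tame

end Vale.Agent.P150.Weak.Hess
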