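import Vale.Agent.P150.Weak.Hess.Form

/-!
The deterministic bound on the contracted derivative of `r² N^(q+1)`: the covariance terms of the
derivative of the magnetisation are killed by the projection, so only `‖T‖ + ‖C‖` survives.
-/

open Finset
open scoped Matrix

namespace Vale.Agent.P150.Weak.Hess

variable {m : ℕ} {b η L : ℝ} {n : ℕ} {μ : Vec m} {W : MM m}

lemma sq2_nonneg (A : Mat m) : 0 ≤ sq2 A := sum_nonneg fun _ _ => sum_nonneg fun _ _ => sq_nonneg _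

lemma abs_sum_mul_le2 (A B : Mat m) :
    |∑ i, ∑ j, A i j * B i j| ≤ √(sq2 A) * √(sq2 B) := by
  have := abs_sum_mul_le (univ : Finset (Fin m × Fin m)) (fun p => A p.1 p.2) fun p => B p.1 p.2
  simpa [Fintype.sum_prod_type, sq2] using this

lemma sq2_mul_le {Ω : ℝ} (A B : MM m) (hA : ∀ x, sq1 (A *ᵥ x) ≤ Ω ^ 2 * sq1 x) :
    sq2 (A * B) ≤ Ω ^ 2 * sq2 B := by
  simp only [sq2]
  rw [sum_comm, sum_comm (f := fun i j => B i j ^ 2), mul_sum]
  refine sum_le_sum fun j _ => ?_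
  simpa [sq1, Matrix.mulVec, dotProduct, Matrix.mul_apply] using hA fun i => B i j

lemma mul_proj_of {A : MM m} (hA : A *ᵥ μ = 0) : A * proj μ = A := by
  have : A * Matrix.vecMulVec μ μ = 0 := by
    rw [Matrix.mul_vecMulVec, hA, Matrix.zero_vecMulVec]
  rw [proj, mul_sub, mul_one, Matrix.mul_smul, this, smul_zero, sub_zero]

lemma proj_mul_of {A : MM m} (hA : μ ᵥ* A = 0) : proj μ * A = A := by
  have : Matrix.vecMulVec μ μ * A = 0 := by
    rw [Matrix.vecMulVec_mul, hA, Matrix.vecMulVec_zero]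
  rw [proj, sub_mul, one_mul, Matrix.smul_mul, this, smul_zero, sub_zero]

lemma proj_mul_proj : proj μ * proj μ = proj μ := mul_proj_of (proj_self μ)

/-- `B = P Z Q N^q`. -/
noncomputable def bdm (b η : ℝ) (n : ℕ) (L : ℝ) (μ : Vec m) (W : MM m) (q : ℕ) : MM m :=
  proj μ * zm b η n L μ W * qm n μ * nm b η n L μ W ^ q

/-- The part of the derivative outside `μ⊥`. -/
lemma boundary_eq (hW : Wᵀ = W) (δ : Vec m) (q : ℕ) :
    (1 - proj μ) * dnm b η n L μ δ W * nm b η n L μ W ^ q =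
      -((1 / (n:ℝ)) • Matrix.vecMulVec μ (δ ᵥ* bdm b η n L μ W q)) := by
  rw [proj, sub_sub_cancel, Matrix.smul_mul, Matrix.smul_mul, Matrix.vecMulVec_mul,
    vecMul_dnm hW, Matrix.vecMulVec_mul, Matrix.neg_vecMul, Matrix.vecMul_vecMul]
  have e : nm b η n L μ W * nm b η n L μ W ^ q = rr n μ • bdm b η n L μ W q := by
    conv_lhs => arg 1; rw [nm, qm_eq]
    simp only [Matrix.smul_mul, Matrix.mul_smul, bdm, qm_eq, mul_assoc]
  rw [e, Matrix.vecMul_smul, Matrix.vecMulVec_neg, smul_neg, Matrix.vecMulVec_smul, smul_smul]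
  congr 1
  by_cases h : sq1 μ = 0
  · simp [eq_zero_of_sq1 h]
  · congr 1
    rw [rr]; field_simp

/-- Every product in the derivative of the power, split along `μ⊥`. -/
lemma pow_deriv_split (hW : Wᵀ = W) (X : MM m) {q : ℕ} (hq : q ≠ 0) :
    ∑ l ∈ range (q + 1), nm b η n L μ W ^ l * X * nm b η n L μ W ^ (q - l) =
      ∑ l ∈ range (q + 1), proj μ * nm b η n L μ W ^ l * proj μ * X *
        (proj μ * nm b η n L μ W ^ (q - l) * proj μ)
      + ((1 - proj μ) * X * nm b η n L μ W ^ q + nm b η n L μ W ^ q * X * (1 - proj μ)) := by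
  set N := nm b η n L μ W
  have hP : ∀ l, l ≠ 0 → proj μ * N ^ l * proj μ = N ^ l := fun l hl => by
    rw [proj_mul_of (vecMul_nm_pow_self hW hl), mul_proj_of (nm_pow_mulVec_self hl)]
  have e : ∀ l ∈ range (q + 1), N ^ l * X * N ^ (q - l) =
      proj μ * N ^ l * proj μ * X * (proj μ * N ^ (q - l) * proj μ) +
        ((if l = 0 then (1 - proj μ) * X * N ^ q else 0) +
          (if l = q then N ^ q * X * (1 - proj μ) else 0)) := by
    intro l hl
    rw [mem_range] at hl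
    rcases eq_or_ne l 0 with rfl | h0
    · rw [if_pos rfl, if_neg (Ne.symm hq), Nat.sub_zero, hP q hq, pow_zero, one_mul, mul_one,
        proj_mul_proj, add_zero, sub_mul, sub_mul, one_mul, mul_assoc (proj μ)]
      abel
    · rw [if_neg h0]
      rcases eq_or_ne l q with rfl | hlq
      · rw [if_pos rfl, Nat.sub_self, hP l h0, pow_zero, mul_one, mul_one, proj_mul_proj, zero_add,
          mul_sub, mul_one]
        abel
      · rw [if_neg hlq, hP l h0, hP (q - l) (by omega), add_zero, add_zero]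
  rw [sum_congr rfl e, sum_add_distrib, sum_add_distrib]
  simp

lemma proj_pow_proj_apply {l : Fin m → ℝ} {φ : Fin m → Vec m} {N : MM m}
    (hN : ∀ (k : ℕ) (i j : Fin m), (N ^ k) i j = ∑ a, l a ^ k * (φ a i * φ a j)) (k : ℕ)
    (i j : Fin m) :
    (proj μ * N ^ k * proj μ) i j =
      ∑ a, l a ^ k * ((proj μ *ᵥ φ a) i * (proj μ *ᵥ φ a) j) := by
  have hsym : ∀ s, proj μ s j = proj μ j s := fun s => by
    have := congrFun (congrFun (transpose_proj μ) j) s
    simpa using this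
  simp only [Matrix.mul_apply, Matrix.mulVec, dotProduct, hN, sum_mul, mul_sum, hsym]
  rw [sum_comm]
  refine (sum_congr rfl fun r _ => sum_comm).trans (sum_comm.trans (sum_congr rfl fun a _ => ?_))
  rw [sum_comm]
  exact sum_congr rfl fun s _ => sum_congr rfl fun r _ => by ring

/-- Eigen-expansion of a contracted product. -/
lemma contracted_eq {l : Fin m → ℝ} {ψ : Fin m → Vec m} {A B : MM m} {k r : ℕ}
    (hA : ∀ i j, A i j = ∑ a, l a ^ k * (ψ a i * ψ a j))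
    (hB : ∀ i j, B i j = ∑ a, l a ^ r * (ψ a i * ψ a j)) (X : Fin m → Fin m → MM m) :
    ∑ i, ∑ j, (A * X i j * B) i j =
      ∑ a, ∑ c, l a ^ k * l c ^ r *
        ∑ i, ∑ j, ψ a i * ψ c j * (ψ a ⬝ᵥ (X i j *ᵥ ψ c)) := by
  have e : ∀ i j, (A * X i j * B) i j =
      ∑ a, ∑ c, l a ^ k * l c ^ r * (ψ a i * ψ c j * (ψ a ⬝ᵥ (X i j *ᵥ ψ c))) := by
    intro i j
    simp only [Matrix.mul_apply, hA, hB, dotProduct, Matrix.mulVec, sum_mul, mul_sum]
    rw [sum_comm]
    refine (sum_congr rfl fun c _ => ?_).trans sum_comm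
    rw [sum_comm]
    refine (sum_congr rfl fun s _ => sum_comm).trans (sum_comm.trans (sum_congr rfl fun a _ => ?_))
    exact sum_congr rfl fun s _ => sum_congr rfl fun t _ => by ring
  simp only [e]
  rw [sum_comm]
  simp only [mul_sum]
  refine (sum_congr rfl fun j _ => sum_comm).trans (sum_comm.trans (sum_congr rfl fun a _ => ?_))
  refine (sum_congr rfl fun j _ => sum_comm).trans (sum_comm.trans (sum_congr rfl fun c _ => ?_))
  exact sum_comm

variable {T : Fin m → Mat m} {C : Mat m} {δ : Fin m → Fin m → Vec m} {Ω : ℝ}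

lemma tauv_of_delta (hδ : ∀ i j k, δ i j k = T k i j + C k i * μ j + C k j * μ i)
    {x y : Vec m} (hx : μ ⬝ᵥ x = 0) (hy : μ ⬝ᵥ y = 0) (k : Fin m) :
    ∑ i, ∑ j, x i * y j * δ i j k = tauv T x y k := by
  have e : ∀ i j, x i * y j * δ i j k = x i * (T k i j * y j) +
      (C k i * x i) * (μ j * y j) + (μ i * x i) * (C k j * y j) := fun i j => by rw [hδ]; ring
  simp only [e, sum_add_distrib, ← mul_sum, ← sum_mul]
  change _ + _ * (μ ⬝ᵥ y) + (μ ⬝ᵥ x) * _ = _
  rw [hx, hy, mul_zero, zero_mul, add_zero, add_zero]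
  rfl

lemma tauv_swap (hT : ∀ k i j, T k i j = T k j i) (x y : Vec m) : tauv T x y = tauv T y x := by
  funext k
  simp only [tauv, dotProduct, Matrix.mulVec, Matrix.of_apply, mul_sum]
  rw [sum_comm]
  exact sum_congr rfl fun i _ => sum_congr rfl fun j _ => by rw [hT k j i]; ring

lemma gam_swap (hW : Wᵀ = W) (x y : Vec m) :
    gam b η n L μ W x y = gam b η n L μ W y x := by
  funext k
  simp only [gam, dot_zm_comm hW x y, dotProduct_comm x y]
  ring

/-- The middle terms. -/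
lemma middle_le (hμ : ∀ i, |μ i| ≤ 1) (hmn : m ≤ n) (hn : 0 < n) (hη : 0 < η) (hb : |b| ≤ 1)
    (hΩ : 0 ≤ Ω) (hW : Wᵀ = W) (hZ : ∀ x, sq1 (zm b η n L μ W *ᵥ x) ≤ Ω ^ 2 * sq1 x)
    (hT : ∀ k i j, T k i j = T k j i)
    (hδ : ∀ i j k, δ i j k = T k i j + C k i * μ j + C k j * μ i)
    {q l : ℕ} (hqe : Even q) (hl : l ≤ q) :
    |∑ i, ∑ j, (proj μ * nm b η n L μ W ^ l * proj μ * dnm b η n L μ (δ i j) W *
        (proj μ * nm b η n L μ W ^ (q - l) * proj μ)) i j| ≤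
      2 * ((6 * Ω + 2 + 2 / η ^ 2) * √(sq3 T)) * (nm b η n L μ W ^ q).trace := by
  obtain ⟨ev, φ, hN, ho⟩ := exists_eigen (isHermitian_nm (b := b) (η := η) (n := n) (L := L) (μ := μ) hW)
  set ψ : Fin m → Vec m := fun a => proj μ *ᵥ φ a with hψd
  have hψ : IsFrame ψ := by
    refine ⟨fun x => ?_, fun a => (sq1_proj_le μ _).trans ((isFrame_orth ho).norm_le a)⟩
    have e : ∀ a, ∑ i, ψ a i * x i = ∑ i, φ a i * (proj μ *ᵥ x) i := fun a => by
      change ψ a ⬝ᵥ x = φ a ⬝ᵥ (proj μ *ᵥ x)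
      rw [Matrix.dotProduct_mulVec, ← Matrix.mulVec_transpose, transpose_proj]
    simp only [e, parseval ho]
    exact sq1_proj_le μ x
  have horth : ∀ a, μ ⬝ᵥ ψ a = 0 := fun a => dot_proj μ (φ a)
  rw [contracted_eq (ψ := ψ) (proj_pow_proj_apply hN l) (proj_pow_proj_apply hN (q - l))
    fun i j => dnm b η n L μ (δ i j) W]
  have e : ∀ a c, ∑ i, ∑ j, ψ a i * ψ c j * (ψ a ⬝ᵥ (dnm b η n L μ (δ i j) W *ᵥ ψ c)) =
      gam b η n L μ W (ψ a) (ψ c) ⬝ᵥ tauv T (ψ a) (ψ c) := by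
    intro a c
    simp only [dot_dnm hW (horth a) (horth c)]
    generalize gam b η n L μ W (ψ a) (ψ c) = γ
    simp only [dotProduct, ← tauv_of_delta hδ (horth a) (horth c), mul_sum]
    refine (sum_congr rfl fun i _ => sum_comm).trans (sum_comm.trans ?_)
    exact sum_congr rfl fun k _ => sum_congr rfl fun i _ => sum_congr rfl fun j _ => by ring
  simp only [e]
  have hrow := row_le hμ hmn hn hη hb hΩ hW hZ hT hψ
  refine (eigen_sum_le hrow (fun c => ?_) l (q - l)).trans_eq ?_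
  · refine le_of_eq_of_le (sum_congr rfl fun a _ => ?_) (hrow c)
    rw [gam_swap hW, tauv_swap hT]
  · rw [Nat.add_sub_cancel' hl, trace_pow hN ho q]
    simp only [hqe.pow_abs]

/-- The main deterministic bound. -/
theorem core_le (hμ : ∀ i, |μ i| ≤ 1) (hmn : m ≤ n) (hn : 0 < n) (hη : 0 < η) (hb : |b| ≤ 1)
    (hΩ : 0 ≤ Ω) (hW : Wᵀ = W) (hZ : ∀ x, sq1 (zm b η n L μ W *ᵥ x) ≤ Ω ^ 2 * sq1 x)
    (hT : ∀ k i j, T k i j = T k j i) (hTfull : ∀ i j k, T i j k = T j i k)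
    (hδ : ∀ i j k, δ i j k = T k i j + C k i * μ j + C k j * μ i)
    {q : ℕ} (hq : q ≠ 0) (hqe : Even q) :
    |∑ i, ∑ j, dh b η n L μ (δ i j) W q i j| ≤
      2 * ((q:ℝ) + 1) * (9 * Ω + 2 + 2 / η ^ 2) * (√(sq3 T) + √(sq2 C)) *
        (nm b η n L μ W ^ q).trace := by
  set N := nm b η n L μ W with hNd
  have hnr : (0:ℝ) < n := by exact_mod_cast hn
  obtain ⟨hr0, hr1⟩ := rr_mem hμ hmn
  have hr2 : rr n μ ^ 2 ≤ 1 := pow_le_one₀ hr0 hr1
  obtain ⟨ev, φ, hN, ho⟩ := exists_eigen (isHermitian_nm (b := b) (η := η) (n := n) (L := L) (μ := μ) hW)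
  have htr : (N ^ q).trace = ∑ a, ev a ^ q := trace_pow hN ho q
  have htr0 : 0 ≤ (N ^ q).trace := by
    rw [htr]; exact sum_nonneg fun a _ => hqe.pow_nonneg _
  have hNq : √(sq2 (N ^ q)) ≤ (N ^ q).trace := by
    refine Real.sqrt_le_iff.2 ⟨htr0, ?_⟩
    have e : sq2 (N ^ q) = (N ^ (q + q)).trace := by
      simp only [Matrix.trace, Matrix.diag, pow_add, Matrix.mul_apply, sq2]
      refine sum_congr rfl fun i _ => sum_congr rfl fun j _ => ?_
      have := congrFun (congrFun ((Matrix.transpose_pow N q).trans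
        (congrArg (· ^ q) (transpose_nm hW))) i) j
      rw [Matrix.transpose_apply] at this
      rw [this, sq]
    rw [e, trace_pow hN ho, htr]
    simp only [pow_add, ← sq]
    exact sum_sq_le_sq_sum_of_nonneg fun a _ => hqe.pow_nonneg _
  have hQ : ∀ x, sq1 (qm n μ *ᵥ x) ≤ sq1 x := fun x => by
    rw [qm_eq, Matrix.smul_mulVec]
    refine le_trans ?_ (sq1_proj_le μ x)
    simp only [sq1, Pi.smul_apply, smul_eq_mul, mul_pow]
    exact sum_le_sum fun i _ => mul_le_of_le_one_left (sq_nonneg _) hr2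
  have hN1 : ∀ x, sq1 (N *ᵥ x) ≤ Ω ^ 2 * sq1 x := fun x => by
    rw [hNd, nm, ← Matrix.mulVec_mulVec, ← Matrix.mulVec_mulVec]
    exact (hQ _).trans ((hZ _).trans (mul_le_mul_of_nonneg_left (hQ x) (sq_nonneg Ω)))
  have hB1 : ∀ x, sq1 ((proj μ * zm b η n L μ W * qm n μ) *ᵥ x) ≤ Ω ^ 2 * sq1 x := fun x => by
    rw [← Matrix.mulVec_mulVec, ← Matrix.mulVec_mulVec]
    exact (sq1_proj_le μ _).trans ((hZ _).trans (mul_le_mul_of_nonneg_left (hQ x) (sq_nonneg Ω)))
  have hS : 0 ≤ √(sq3 T) := Real.sqrt_nonneg _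
  have hCn : 0 ≤ √(sq2 C) := Real.sqrt_nonneg _
  have happ : √(sq2 (app T μ)) ≤ √(n:ℝ) * √(sq3 T) := by
    rw [← Real.sqrt_mul hnr.le]
    exact Real.sqrt_le_sqrt ((sq2_app_le T μ).trans (mul_le_mul_of_nonneg_right (sq1_mu_le hμ hmn)
      (sum_nonneg fun _ _ => sq2_nonneg _)))
  have sn : √(n:ℝ) ≤ n := by
    nlinarith [Real.one_le_sqrt.2 (show (1:ℝ) ≤ n by exact_mod_cast hn), Real.mul_self_sqrt hnr.le]
  have hzero : ∀ {k : ℕ}, k ≠ 0 → ∀ i, ∑ j, (N ^ k) i j * μ j = 0 := fun hk i => by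
    simpa [Matrix.mulVec, dotProduct] using congrFun (nm_pow_mulVec_self (b := b) (η := η) (n := n) (L := L) (μ := μ) (W := W) hk) i
  have hzero' : ∀ {k : ℕ}, k ≠ 0 → ∀ j, ∑ i, μ i * (N ^ k) i j = 0 := fun hk j => by
    simpa [Matrix.vecMul, dotProduct] using congrFun (vecMul_nm_pow_self (b := b) (η := η) (n := n) (L := L) (μ := μ) hW hk) j
  -- the derivative of `r²`
  have hA : |∑ i, ∑ j, 2 * rr n μ * (2 * (μ ⬝ᵥ δ i j) / n) * (N ^ (q + 1)) i j| ≤
      4 * Ω * √(sq3 T) * (N ^ q).trace := by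
    have e : ∀ i j, 2 * rr n μ * (2 * (μ ⬝ᵥ δ i j) / n) * (N ^ (q + 1)) i j =
        4 * rr n μ / n * (app T μ i j * (N ^ (q + 1)) i j) +
        4 * rr n μ / n * (∑ k, μ k * C k i) * ((N ^ (q + 1)) i j * μ j) +
        4 * rr n μ / n * (∑ k, μ k * C k j) * (μ i * (N ^ (q + 1)) i j) := fun i j => by
      simp only [dotProduct, hδ, app, mul_sum, sum_mul, sum_div, ← sum_add_distrib]
      exact sum_congr rfl fun k _ => by ring
    simp only [e, sum_add_distrib]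
    have e0 : ∑ i, ∑ j, 4 * rr n μ / n * (∑ k, μ k * C k i) * ((N ^ (q + 1)) i j * μ j) = 0 :=
      sum_eq_zero fun i _ => by rw [← mul_sum, hzero (Nat.succ_ne_zero q) i, mul_zero]
    rw [e0, add_zero]
    have e2 : ∑ i, ∑ j, 4 * rr n μ / n * (∑ k, μ k * C k j) * (μ i * (N ^ (q + 1)) i j) = 0 := by
      rw [sum_comm]
      refine sum_eq_zero fun j _ => ?_
      rw [← mul_sum, hzero' (Nat.succ_ne_zero q) j, mul_zero]
    rw [e2, add_zero]
    simp only [← mul_sum]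
    rw [abs_mul, abs_of_nonneg (by positivity : (0:ℝ) ≤ 4 * rr n μ / n)]
    have h1 : √(sq2 (N ^ (q + 1))) ≤ Ω * (N ^ q).trace := by
      refine (Real.sqrt_le_sqrt ((pow_succ' N q).symm ▸ sq2_mul_le N (N ^ q) hN1)).trans ?_
      rw [Real.sqrt_mul (sq_nonneg Ω), Real.sqrt_sq hΩ]
      exact mul_le_mul_of_nonneg_left hNq hΩ
    calc 4 * rr n μ / n * |∑ i, ∑ j, app T μ i j * (N ^ (q + 1)) i j|
        ≤ 4 / n * ((√(n:ℝ) * √(sq3 T)) * (Ω * (N ^ q).trace)) := by
          refine mul_le_mul ?_ ((abs_sum_mul_le2 _ _).trans (mul_le_mul happ h1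
            (Real.sqrt_nonneg _) (by positivity))) (abs_nonneg _) (by positivity)
          exact div_le_div_of_nonneg_right (by linarith) hnr.le
      _ = (√(n:ℝ) / n) * (4 * Ω * √(sq3 T) * (N ^ q).trace) := by ring
      _ ≤ _ := mul_le_of_le_one_left (by positivity) (div_le_one_of_le₀ sn hnr.le)
  -- the part outside `μ⊥`
  set B := bdm b η n L μ W q with hBd
  have hβ : |∑ i, ∑ j, μ i * (δ i j ᵥ* B) j| ≤
      n * (Ω * (√(sq3 T) + √(sq2 C)) * (N ^ q).trace) := by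
    have hB : √(sq2 B) ≤ Ω * (N ^ q).trace := by
      refine (Real.sqrt_le_sqrt (sq2_mul_le _ (N ^ q) hB1)).trans ?_
      rw [Real.sqrt_mul (sq_nonneg Ω), Real.sqrt_sq hΩ]
      exact mul_le_mul_of_nonneg_left hNq hΩ
    have hBμ : ∀ k, ∑ j, B k j * μ j = 0 := fun k => by
      have h0 : B *ᵥ μ = 0 := by
        rw [hBd, bdm, ← Matrix.mulVec_mulVec, nm_pow_mulVec_self hq, Matrix.mulVec_zero]
      simpa [Matrix.mulVec, dotProduct] using congrFun h0 k
    have e : ∀ i j, μ i * (δ i j ᵥ* B) j =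
        (∑ k, μ i * T k i j * B k j) + (∑ k, μ i * C k i * (B k j * μ j)) +
          μ i ^ 2 * ∑ k, C k j * B k j := fun i j => by
      simp only [Matrix.vecMul, dotProduct, hδ, mul_sum, ← sum_add_distrib]
      exact sum_congr rfl fun k _ => by ring
    simp only [e, sum_add_distrib]
    have e2 : ∑ i, ∑ j, ∑ k, μ i * C k i * (B k j * μ j) = 0 := by
      refine sum_eq_zero fun i _ => ?_
      rw [sum_comm]
      exact sum_eq_zero fun k _ => by rw [← mul_sum, hBμ k, mul_zero]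
    have e1 : ∑ i, ∑ j, ∑ k, μ i * T k i j * B k j = ∑ k, ∑ j, app T μ k j * B k j := by
      rw [sum_comm]
      refine (sum_congr rfl fun j _ => sum_comm).trans (sum_comm.trans ?_)
      refine sum_congr rfl fun k _ => sum_congr rfl fun j _ => ?_
      simp only [app, sum_mul]
      refine sum_congr rfl fun i _ => ?_
      rw [← hTfull i k j]
    have e3 : ∑ i, ∑ j, μ i ^ 2 * ∑ k, C k j * B k j = sq1 μ * ∑ k, ∑ j, C k j * B k j := by
      simp only [← mul_sum, ← sum_mul]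
      rw [sum_comm (f := fun j k => C k j * B k j)]
      rfl
    rw [e1, e2, e3, add_zero]
    refine (abs_add_le _ _).trans ?_
    rw [abs_mul, abs_of_nonneg (sq1_nonneg μ)]
    calc |∑ k, ∑ j, app T μ k j * B k j| + sq1 μ * |∑ k, ∑ j, C k j * B k j|
        ≤ (√(n:ℝ) * √(sq3 T)) * (Ω * (N ^ q).trace) + n * (√(sq2 C) * (Ω * (N ^ q).trace)) :=
          add_le_add ((abs_sum_mul_le2 _ _).trans (mul_le_mul happ hB (Real.sqrt_nonneg _)
            (by positivity))) (mul_le_mul (sq1_mu_le hμ hmn) ((abs_sum_mul_le2 _ _).trans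
              (mul_le_mul_of_nonneg_left hB hCn)) (abs_nonneg _) hnr.le)
      _ ≤ _ := by
          have := mul_le_mul_of_nonneg_right sn (by positivity : (0:ℝ) ≤ √(sq3 T) * (Ω * (N ^ q).trace))
          nlinarith
  have hδs : ∀ i j, δ i j = δ j i := fun i j => funext fun k => by
    rw [hδ, hδ, hT k i j]; ring
  have hmid : |∑ l ∈ range (q + 1), ∑ i, ∑ j, (proj μ * N ^ l * proj μ * dnm b η n L μ (δ i j) W *
      (proj μ * N ^ (q - l) * proj μ)) i j| ≤
      ((q:ℝ) + 1) * (2 * ((6 * Ω + 2 + 2 / η ^ 2) * √(sq3 T)) * (N ^ q).trace) := by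
    refine (abs_sum_le_sum_abs _ _).trans ((sum_le_card_nsmul _ _ _ fun l hl =>
      middle_le hμ hmn hn hη hb hΩ hW hZ hT hδ hqe (by rw [mem_range] at hl; omega)).trans_eq ?_)
    rw [card_range, nsmul_eq_mul]; push_cast; ring
  have hsplit : ∑ i, ∑ j, dh b η n L μ (δ i j) W q i j =
      (∑ i, ∑ j, 2 * rr n μ * (2 * (μ ⬝ᵥ δ i j) / n) * (N ^ (q + 1)) i j) +
      rr n μ ^ 2 * ((∑ l ∈ range (q + 1), ∑ i, ∑ j, (proj μ * N ^ l * proj μ *
        dnm b η n L μ (δ i j) W * (proj μ * N ^ (q - l) * proj μ)) i j) -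
        2 * (1 / n) * ∑ i, ∑ j, μ i * (δ i j ᵥ* B) j) := by
    have hb2 : ∀ i j, N ^ q * dnm b η n L μ (δ i j) W * (1 - proj μ) =
        -((1 / (n:ℝ)) • Matrix.vecMulVec (δ i j ᵥ* B) μ) := fun i j => by
      have h := congrArg Matrix.transpose (boundary_eq (b := b) (η := η) (n := n) (L := L) (μ := μ) hW (δ i j) q)
      simp only [Matrix.transpose_mul, Matrix.transpose_sub, Matrix.transpose_one, transpose_proj,
        transpose_dnm hW, Matrix.transpose_pow, transpose_nm hW, Matrix.transpose_neg,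
        Matrix.transpose_smul, Matrix.transpose_vecMulVec, ← mul_assoc] at h
      exact h
    have hd : ∀ i j, dh b η n L μ (δ i j) W q i j =
        2 * rr n μ * (2 * (μ ⬝ᵥ δ i j) / n) * (N ^ (q + 1)) i j +
        rr n μ ^ 2 * ((∑ l ∈ range (q + 1), (proj μ * N ^ l * proj μ *
          dnm b η n L μ (δ i j) W * (proj μ * N ^ (q - l) * proj μ)) i j) +
          (-(1 / (n:ℝ)) * (μ i * (δ i j ᵥ* B) j) + -(1 / (n:ℝ)) * (μ j * (δ i j ᵥ* B) i))) := by
      intro i j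
      rw [dh, pow_deriv_split hW _ hq, boundary_eq hW, ← hNd, ← hBd, hb2 i j]
      simp only [Matrix.add_apply, Matrix.smul_apply, Matrix.sum_apply, Matrix.neg_apply,
        Matrix.vecMulVec_apply, smul_eq_mul]
      ring
    have hsw : ∑ i, ∑ j, μ j * (δ i j ᵥ* B) i = ∑ i, ∑ j, μ i * (δ i j ᵥ* B) j := by
      rw [sum_comm]
      exact sum_congr rfl fun i _ => sum_congr rfl fun j _ => by rw [hδs j i]
    have hc : ∑ l ∈ range (q + 1), ∑ i, ∑ j, (proj μ * N ^ l * proj μ * dnm b η n L μ (δ i j) W *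
        (proj μ * N ^ (q - l) * proj μ)) i j = ∑ i, ∑ j, ∑ l ∈ range (q + 1), (proj μ * N ^ l *
          proj μ * dnm b η n L μ (δ i j) W * (proj μ * N ^ (q - l) * proj μ)) i j :=
      sum_comm.trans (sum_congr rfl fun i _ => sum_comm)
    simp only [hd, sum_add_distrib, ← mul_sum]
    rw [hsw, hc]
    simp only [← mul_sum]
    ring
  rw [hsplit]
  refine (abs_add_le _ _).trans ?_
  rw [abs_mul (rr n μ ^ 2), abs_of_nonneg (sq_nonneg (rr n μ))]
  refine (add_le_add hA ((mul_le_of_le_one_left (abs_nonneg _) hr2).trans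
    ((abs_sub _ _).trans (add_le_add hmid (le_refl _))))).trans ?_
  rw [abs_mul, abs_of_nonneg (by positivity : (0:ℝ) ≤ 2 * (1 / n))]
  have h2 : 2 * (1 / (n:ℝ)) * |∑ i, ∑ j, μ i * (δ i j ᵥ* B) j| ≤
      2 * (Ω * (√(sq3 T) + √(sq2 C)) * (N ^ q).trace) := by
    rw [mul_assoc, div_mul_eq_mul_div, one_mul]
    gcongr
    rw [div_le_iff₀ hnr]
    linarith
  have hq1 : (2:ℝ) ≤ (q:ℝ) + 1 := by
    have : (1:ℝ) ≤ q := by exact_mod_cast Nat.one_le_iff_ne_zero.2 hq
    linarith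
  refine (add_le_add le_rfl (add_le_add le_rfl h2)).trans ?_
  have hK : 0 ≤ 2 / η ^ 2 := by positivity
  have h3 : 0 ≤ (√(sq3 T) + √(sq2 C)) * (N ^ q).trace := by positivity
  have h4 : √(sq3 T) * (N ^ q).trace ≤ (√(sq3 T) + √(sq2 C)) * (N ^ q).trace :=
    mul_le_mul_of_nonneg_right (by linarith) htr0
  have h5 : 4 * Ω * (√(sq3 T) * (N ^ q).trace) ≤ 2 * ((q:ℝ) + 1) * Ω * ((√(sq3 T) + √(sq2 C)) * (N ^ q).trace) :=
    mul_le_mul (mul_le_mul_of_nonneg_right (by linarith) hΩ) h4 (by positivity) (by positivity)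
  have h6 : 2 * (Ω * ((√(sq3 T) + √(sq2 C)) * (N ^ q).trace)) ≤
      ((q:ℝ) + 1) * (Ω * ((√(sq3 T) + √(sq2 C)) * (N ^ q).trace)) :=
    mul_le_mul_of_nonneg_right hq1 (by positivity)
  have h7 := mul_le_mul_of_nonneg_left h4 (by positivity :
    (0:ℝ) ≤ 2 * ((q:ℝ) + 1) * (6 * Ω + 2 + 2 / η ^ 2))
  linarith [mul_nonneg (mul_nonneg (by positivity : (0:ℝ) ≤ (q:ℝ) + 1) hΩ) h3]

end Vale.Agent.P150.Weak.Hess
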