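import Vale.Agent.P150.Weak.Hess.Calc
import Vale.Agent.P150.Crit.Gauss

/-!
Operator norms of symmetric matrices against quadratic forms and traces of powers, and the moments
of the norm of the planted couplings.
-/

open MeasureTheory ProbabilityTheory Finset WithLp
open scoped Matrix Topology

namespace Vale.Agent.P150.Weak.Hess

open Gap Crit

variable {m : ℕ} {A B : MM m}

lemma sq1_eq_norm (x : Vec m) : sq1 x = ‖(toLp 2 x : EuclideanSpace ℝ (Fin m))‖ ^ 2 := by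
  rw [EuclideanSpace.norm_sq_eq]
  simp [sq1]

lemma sqrt_sq1 (x : Vec m) : √(sq1 x) = ‖(toLp 2 x : EuclideanSpace ℝ (Fin m))‖ := by
  rw [sq1_eq_norm, Real.sqrt_sq (norm_nonneg _)]

lemma op_nonneg (A : Mat m) : 0 ≤ op A := norm_nonneg _

lemma sq1_op_le (A : MM m) (x : Vec m) : sq1 (A *ᵥ x) ≤ op A ^ 2 * sq1 x := by
  rw [sq1_eq_norm, sq1_eq_norm, ← mul_pow, ← Matrix.toEuclideanCLM_toLp]
  exact pow_le_pow_left₀ (norm_nonneg _) (ContinuousLinearMap.le_opNorm _ _) 2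

lemma op_le_of {c : ℝ} (hc : 0 ≤ c) (h : ∀ x, sq1 (A *ᵥ x) ≤ c ^ 2 * sq1 x) : op A ≤ c := by
  refine ContinuousLinearMap.opNorm_le_bound _ hc fun x => ?_
  have hx := Real.sqrt_le_sqrt (h (ofLp x))
  rw [Real.sqrt_mul (sq_nonneg c), Real.sqrt_sq hc, sqrt_sq1, sqrt_sq1, toLp_ofLp] at hx
  exact hx

lemma op_le_frob (A : MM m) : op A ≤ √(sq2 A) := by
  refine op_le_of (Real.sqrt_nonneg _) fun x => ?_
  rw [Real.sq_sqrt (sq2_nonneg A)]
  exact sq1_mulVec_le A x

lemma op_add_le (A B : MM m) : op (A + B : MM m) ≤ op A + op B := by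
  refine le_of_eq_of_le (congrArg norm ?_) (norm_add_le _ _)
  exact map_add _ A B

lemma op_smul_le (c : ℝ) (A : MM m) : op (c • A : MM m) ≤ |c| * op A := by
  refine le_of_eq ?_
  rw [← Real.norm_eq_abs]
  unfold op
  rw [← norm_smul]
  exact congrArg norm (map_smul (Matrix.toEuclideanCLM (𝕜 := ℝ)) c A)

lemma op_sub_le (A B : MM m) : op (A - B : MM m) ≤ op A + op B := by
  refine le_of_eq_of_le (congrArg norm ?_) (norm_sub_le _ _)
  exact map_sub _ A B

lemma abs_op_sub_le (A B : MM m) : |op A - op B| ≤ √(sq2 (A - B : MM m)) := by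
  refine le_trans ?_ (op_le_frob _)
  refine (abs_norm_sub_norm_le _ _).trans_eq (congrArg norm ?_)
  exact (map_sub _ A B).symm

lemma continuous_op : Continuous fun A : MM m => op A := by
  refine continuous_iff_continuousAt.2 fun B => ?_
  refine tendsto_iff_norm_sub_tendsto_zero.2 (squeeze_zero (fun _ => norm_nonneg _)
    (fun A => (Real.norm_eq_abs _).le.trans (abs_op_sub_le A B)) ?_)
  have h : Continuous fun A : MM m => √(sq2 (A - B : MM m)) := by unfold sq2; fun_prop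
  have h2 := h.tendsto B
  simpa [sq2] using h2

lemma abs_dot_op_le (A : MM m) (x : Vec m) : |x ⬝ᵥ (A *ᵥ x)| ≤ op A * sq1 x := by
  refine (abs_sum_mul_le univ x (A *ᵥ x)).trans ?_
  refine (mul_le_mul_of_nonneg_left (Real.sqrt_le_sqrt (sq1_op_le A x)) (Real.sqrt_nonneg _)).trans_eq
    ?_
  rw [Real.sqrt_mul (sq_nonneg _), Real.sqrt_sq (op_nonneg A)]
  calc √(sq1 x) * (op A * √(sq1 x)) = op A * (√(sq1 x) * √(sq1 x)) := by ring
    _ = op A * sq1 x := by rw [Real.mul_self_sqrt (sq1_nonneg x)]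

lemma quad_pow {l : Fin m → ℝ} {φ : Fin m → Vec m}
    (hN : ∀ (k : ℕ) (i j : Fin m), (A ^ k) i j = ∑ a, l a ^ k * (φ a i * φ a j)) (k : ℕ)
    (x : Vec m) : x ⬝ᵥ ((A ^ k) *ᵥ x) = ∑ a, l a ^ k * (∑ i, φ a i * x i) ^ 2 := by
  simp only [dotProduct, Matrix.mulVec, hN, sum_mul, mul_sum, sq]
  refine (sum_congr rfl fun i _ => sum_comm).trans (sum_comm.trans ?_)
  refine sum_congr rfl fun a _ => ?_
  rw [sum_comm]
  exact sum_congr rfl fun i _ => sum_congr rfl fun j _ => by ring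

lemma eig_eq {l : Fin m → ℝ} {φ : Fin m → Vec m}
    (hN : ∀ (k : ℕ) (i j : Fin m), (A ^ k) i j = ∑ a, l a ^ k * (φ a i * φ a j))
    (ho : ∀ a b, ∑ i, φ a i * φ b i = if a = b then 1 else 0) (a : Fin m) :
    φ a ⬝ᵥ (A *ᵥ φ a) = l a ∧ sq1 (φ a) = 1 := by
  have h := quad_pow hN 1 (φ a)
  simp only [pow_one, ho, ite_pow, one_pow, zero_pow (two_ne_zero), mul_ite, mul_one, mul_zero,
    sum_ite_eq', mem_univ, if_true] at h
  refine ⟨h, ?_⟩
  simpa [sq1, sq] using ho a a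

lemma isHermitian_of (hA : Aᵀ = A) : A.IsHermitian := by
  rw [Matrix.IsHermitian, Matrix.conjTranspose_eq_transpose_of_trivial, hA]

lemma op_le_of_quad (hA : Aᵀ = A) {c : ℝ} (hc : 0 ≤ c)
    (h : ∀ x, sq1 x = 1 → |x ⬝ᵥ (A *ᵥ x)| ≤ c) : op A ≤ c := by
  obtain ⟨l, φ, hN, ho⟩ := exists_eigen (isHermitian_of hA)
  have hl : ∀ a, |l a| ≤ c := fun a => by
    obtain ⟨e, h1⟩ := eig_eq hN ho a
    rw [← e]
    exact h _ h1
  refine op_le_of hc fun x => ?_
  have e : sq1 (A *ᵥ x) = x ⬝ᵥ ((A ^ 2) *ᵥ x) := by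
    rw [sq, ← Matrix.mulVec_mulVec, Matrix.dotProduct_mulVec x A, ← Matrix.mulVec_transpose, hA,
      sq1_eq_dot]
  rw [e, quad_pow hN, ← parseval ho x, mul_sum]
  refine sum_le_sum fun a _ => mul_le_mul_of_nonneg_right ?_ (sq_nonneg _)
  rw [← sq_abs]
  exact pow_le_pow_left₀ (abs_nonneg _) (hl a) 2

lemma trace_pow_le (hA : Aᵀ = A) (k : ℕ) : (A ^ k).trace ≤ m * op A ^ k := by
  obtain ⟨l, φ, hN, ho⟩ := exists_eigen (isHermitian_of hA)
  rw [trace_pow hN ho]
  refine (sum_le_card_nsmul univ _ _ fun a _ => ?_).trans_eq (by rw [card_univ, Fintype.card_fin,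
    nsmul_eq_mul])
  obtain ⟨e, h1⟩ := eig_eq hN ho a
  refine (le_abs_self _).trans ((abs_pow (l a) k).le.trans (pow_le_pow_left₀ (abs_nonneg _) ?_ k))
  have := abs_dot_op_le A (φ a)
  rwa [e, h1, mul_one] at this

lemma trace_pow_nonneg (hA : Aᵀ = A) {k : ℕ} (hk : Even k) : 0 ≤ (A ^ k).trace := by
  obtain ⟨l, φ, hN, ho⟩ := exists_eigen (isHermitian_of hA)
  rw [trace_pow hN ho]
  exact sum_nonneg fun a _ => hk.pow_nonneg _

lemma pow_le_trace (hA : Aᵀ = A) {k : ℕ} (hk : Even k) {c : ℝ} (hc : 0 ≤ c) {x : Vec m}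
    (h : c * sq1 x < x ⬝ᵥ (A *ᵥ x)) : c ^ k ≤ (A ^ k).trace := by
  obtain ⟨l, φ, hN, ho⟩ := exists_eigen (isHermitian_of hA)
  obtain ⟨a, ha⟩ : ∃ a, c < l a := by
    by_contra hcon
    push Not at hcon
    refine h.not_ge ?_
    have := quad_pow hN 1 x
    simp only [pow_one] at this
    rw [this, ← parseval ho x, mul_sum]
    exact sum_le_sum fun a _ => mul_le_mul_of_nonneg_right (hcon a) (sq_nonneg _)
  rw [trace_pow hN ho]
  exact (pow_le_pow_left₀ hc ha.le k).trans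
    (single_le_sum (f := fun a => l a ^ k) (fun a _ => hk.pow_nonneg _) (mem_univ a))

section model

variable {b η L : ℝ} {n : ℕ} {μ : Vec m} {W : MM m}

lemma zd_mem (hη : 0 < η) (hμ : ∀ i, |μ i| ≤ 1) (hmn : m ≤ n) (hL : 1 / η + b ^ 2 ≤ L)
    (i : Fin m) : 0 ≤ zd b η n L μ i ∧ zd b η n L μ i ≤ L := by
  have h0 : ∀ k, 0 ≤ 1 - μ k ^ 2 := fun k => by linarith [sq_le_one' (hμ k)]
  have h1 : 1 / (1 - μ i ^ 2 + η) ≤ 1 / η := one_div_le_one_div_of_le hη (by linarith [h0 i])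
  have h2 : 0 ≤ 1 / (1 - μ i ^ 2 + η) := one_div_nonneg.2 (by linarith [h0 i])
  have h3 : (∑ k, (1 - μ k ^ 2)) / (n:ℝ) ≤ 1 := by
    refine div_le_one_of_le₀ ?_ (Nat.cast_nonneg n)
    refine (sum_le_card_nsmul univ _ 1 fun k _ => by linarith [sq_nonneg (μ k)]).trans ?_
    simpa using (Nat.cast_le (α := ℝ)).2 hmn
  have h4 : 0 ≤ (∑ k, (1 - μ k ^ 2)) / (n:ℝ) := div_nonneg (sum_nonneg fun k _ => h0 k) (Nat.cast_nonneg n)
  have h5 := mul_le_mul_of_nonneg_left h3 (sq_nonneg b)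
  have h6 := mul_nonneg (sq_nonneg b) h4
  simp only [zd, mul_div_assoc]
  constructor <;> linarith

lemma op_zm_le (hη : 0 < η) (hμ : ∀ i, |μ i| ≤ 1) (hmn : m ≤ n) (hL : 1 / η + b ^ 2 ≤ L) :
    op (zm b η n L μ W) ≤ L + op W := by
  have hL0 : 0 ≤ L := le_trans (by positivity) hL
  refine (op_add_le _ _).trans (add_le_add ?_ le_rfl)
  refine op_le_of hL0 fun x => ?_
  simp only [sq1, Matrix.mulVec_diagonal, mul_pow, mul_sum]
  refine sum_le_sum fun i _ => mul_le_mul_of_nonneg_right ?_ (sq_nonneg _)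
  obtain ⟨h0, h1⟩ := zd_mem hη hμ hmn hL i
  exact pow_le_pow_left₀ h0 h1 2

lemma op_nm_le : op (nm b η n L μ W) ≤ rr n μ ^ 2 * op (zm b η n L μ W) := by
  have hq : ∀ x, sq1 (qm n μ *ᵥ x) ≤ rr n μ ^ 2 * sq1 x := fun x => by
    rw [qm_eq, Matrix.smul_mulVec]
    refine le_trans (le_of_eq ?_) (mul_le_mul_of_nonneg_left (sq1_proj_le μ x) (sq_nonneg _))
    simp only [sq1, Pi.smul_apply, smul_eq_mul, mul_pow, mul_sum]
  refine op_le_of (mul_nonneg (sq_nonneg _) (op_nonneg _)) fun x => ?_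
  rw [nm, ← Matrix.mulVec_mulVec, ← Matrix.mulVec_mulVec]
  refine (hq _).trans ((mul_le_mul_of_nonneg_left ((sq1_op_le _ _).trans
    (mul_le_mul_of_nonneg_left (hq x) (sq_nonneg _))) (sq_nonneg _)).trans_eq ?_)
  ring

variable {v : ℝ}

lemma cpl_sub (a c : Edge m → ℝ) :
    cpl v a - cpl v c = wd v fun e => a e - c e := by
  ext i j
  simp only [Matrix.sub_apply, cpl, wd]
  have : sym (fun e => a e - c e) i j = sym a i j - sym c i j := by
    unfold sym; split_ifs <;> simp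
  rw [this]
  split_ifs with h
  · subst h; simp [sym_self]
  · ring

lemma sq2_wd (hv : 0 ≤ v) (a : Edge m → ℝ) : sq2 (wd v a) = 2 * v * ∑ e, a e ^ 2 := by
  simp only [sq2, wd, mul_pow, Real.sq_sqrt hv, ← mul_sum]
  rw [sum_sym_eq fun i j => by rw [sym_comm]]
  simp only [sym_self, sq, mul_zero, sum_const_zero, add_zero]
  rw [sum_congr rfl fun e _ => by rw [sym_of_lt a e.2]]
  ring

lemma eulip_op_cpl (hv : 0 ≤ v) : EuLip (fun a : Edge m → ℝ => op (cpl v a)) √(2 * v) := by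
  intro a c
  refine (abs_op_sub_le _ _).trans_eq ?_
  rw [cpl_sub, sq2_wd hv, Real.sqrt_mul (by positivity)]

lemma op_cpl_zero (hv : 0 ≤ v) (hvm : v * m ≤ 1) : op (cpl v fun _ : Edge m => (0:ℝ)) ≤ 1 := by
  refine (op_le_frob _).trans (Real.sqrt_le_one.2 ?_)
  refine (sum_le_sum fun i _ => sum_le_sum fun j _ => (?_ : _ ≤ v ^ 2)).trans ?_
  · have : sym (fun _ : Edge m => (0:ℝ)) i j = 0 := by unfold sym; split_ifs <;> rfl
    simp only [cpl, this, mul_zero, add_zero]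
    split_ifs
    · simpa using sq_nonneg v
    · exact le_rfl
  · simp only [sum_const, card_univ, Fintype.card_fin, nsmul_eq_mul]
    nlinarith [mul_nonneg hv (Nat.cast_nonneg (α := ℝ) m)]

lemma op_cpl_mix (hv : 0 ≤ v) (hvm : v * m ≤ 1) {c s : ℝ} (hc : |c| ≤ 1) (hs : |s| ≤ 1)
    (a d : Edge m → ℝ) :
    op (cpl v fun e => c * a e + s * d e) ≤ 3 + op (cpl v a) + op (cpl v d) := by
  have e : cpl v (fun e => c * a e + s * d e) =
      cpl v (fun _ => 0) + c • (cpl v a - cpl v fun _ => 0) + s • (cpl v d - cpl v fun _ => 0) := by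
    rw [cpl_sub, cpl_sub]
    ext i j
    have h1 : sym (fun e => c * a e + s * d e) i j = c * sym a i j + s * sym d i j := by
      rw [sym_add, sym_smul, sym_smul]
    have h0 : sym (fun _ : Edge m => (0:ℝ)) i j = 0 := by unfold sym; split_ifs <;> rfl
    simp only [Matrix.add_apply, Matrix.smul_apply, smul_eq_mul, cpl, wd, sub_zero, h1, h0]
    split_ifs with h
    · subst h; simp [sym_self]
    · ring
  have h0 := op_cpl_zero (m := m) hv hvm
  have hA := op_sub_le (cpl v a) (cpl v fun _ => 0)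
  have hD := op_sub_le (cpl v d) (cpl v fun _ => 0)
  rw [e]
  refine ((op_add_le _ _).trans (add_le_add ((op_add_le _ _).trans
    (add_le_add le_rfl (op_smul_le _ _))) (op_smul_le _ _))).trans ?_
  have h1 := mul_le_of_le_one_left (op_nonneg _) hc (b := op (cpl v a - cpl v fun _ => 0 : MM m))
  have h2 := mul_le_of_le_one_left (op_nonneg _) hs (b := op (cpl v d - cpl v fun _ => 0 : MM m))
  linarith

end model

section moments

variable {ι : Type*} [Fintype ι] {F : (ι → ℝ) → ℝ} {K : ℝ}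

lemma tame_eulip (hK : 0 ≤ K) (hF : EuLip F K) : Tame F := by
  refine ⟨continuous_of_coord_lip (hF.coord hK), |F 0| + K, 1, fun g => ?_⟩
  have h := hF.coord hK g 0
  simp only [Pi.zero_apply, sub_zero, ← mul_sum] at h
  have h1 := abs_add_le (F g - F 0) (F 0)
  rw [sub_add_cancel] at h1
  have h2 : (0:ℝ) ≤ ∑ i, |g i| := sum_nonneg fun i _ => abs_nonneg _
  nlinarith [abs_nonneg (F 0), mul_nonneg (abs_nonneg (F 0)) h2]

lemma add_pow_le_two {a M t : ℝ} (ha : 0 ≤ a) (hM : 0 ≤ M) (ht : 0 < t) (k : ℕ) :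
    (a + M) ^ k ≤ ((1 + t) * M) ^ k + ((1 + 1 / t) * a) ^ k := by
  rcases le_total a (t * M) with h | h
  · exact (pow_le_pow_left₀ (by positivity) (by linarith) k).trans
      (le_add_of_nonneg_right (by positivity))
  · refine (pow_le_pow_left₀ (by positivity) ?_ k).trans (le_add_of_nonneg_left (by positivity))
    have : M ≤ a / t := by rwa [le_div_iff₀ ht, mul_comm]
    calc a + M ≤ a + a / t := by linarith
      _ = _ := by ring

/-- High moments of a nonnegative Lipschitz function from its mean. -/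
lemma eulip_moment (hK : 0 ≤ K) (hF : EuLip F K) (h0 : ∀ g, 0 ≤ F g) {A M t : ℝ}
    (hA : ∫ g, F g ∂gauss ι ≤ A) (hM : 0 < M) (ht : 0 < t) {k : ℕ} (hk : 1 ≤ k) :
    (∫ g, F g ^ k ∂gauss ι) * (1 - A / M) ≤
      ((1 + t) * M) ^ k + ((1 + 1 / t) * (24 * √(k:ℝ) * K)) ^ k := by
  have hFt := tame_eulip hK hF
  obtain ⟨hi, hb⟩ := moment_le hK hF hk
  have hu : Integrable (fun g => F g ^ k) (gauss ι) := (hFt.pow k).integrable
  have hw : Integrable (fun g => 1 - F g / M) (gauss ι) :=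
    (integrable_const _).sub (hFt.integrable.div_const M)
  have h1 := integral_prod_mul (μ := gauss ι) (ν := gauss ι) (fun g => F g ^ k) fun g => 1 - F g / M
  have h2 : ∫ g, (1 - F g / M) ∂gauss ι = 1 - (∫ g, F g ∂gauss ι) / M := by
    rw [integral_sub (integrable_const _) (hFt.integrable.div_const M), integral_div]
    simp
  have hpt : ∀ z : (ι → ℝ) × (ι → ℝ), F z.1 ^ k * (1 - F z.2 / M) ≤
      ((1 + t) * M) ^ k + (1 + 1 / t) ^ k * |F z.1 - F z.2| ^ k := by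
    intro z
    rw [← mul_pow]
    have hr : 0 ≤ ((1 + t) * M) ^ k + ((1 + 1 / t) * |F z.1 - F z.2|) ^ k := by positivity
    rcases le_total M (F z.2) with h | h
    · exact (mul_nonpos_of_nonneg_of_nonpos (pow_nonneg (h0 _) k)
        (by rw [sub_nonpos, le_div_iff₀ hM, one_mul]; exact h)).trans hr
    · refine (mul_le_of_le_one_right (pow_nonneg (h0 _) k)
        (by linarith [div_nonneg (h0 z.2) hM.le])).trans ?_
      refine (pow_le_pow_left₀ (h0 _) ?_ k).trans (add_pow_le_two (abs_nonneg _) hM.le ht k)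
      linarith [le_abs_self (F z.1 - F z.2)]
  have h3 := integral_mono (hu.mul_prod hw) ((integrable_const _).add (hi.const_mul _)) hpt
  simp only [Pi.add_apply] at h3
  rw [h1, h2, integral_add (integrable_const _) (hi.const_mul _), integral_const_mul] at h3
  simp only [integral_const, probReal_univ, smul_eq_mul, one_mul] at h3
  refine le_trans ?_ (h3.trans ?_)
  · refine mul_le_mul_of_nonneg_left ?_ (integral_nonneg fun g => pow_nonneg (h0 g) k)
    linarith [div_le_div_of_nonneg_right hA hM.le]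
  · rw [mul_pow (1 + 1 / t)]
    exact add_le_add le_rfl (mul_le_mul_of_nonneg_left hb (by positivity))

lemma op_cpl_moment {b C : ℝ} {n : ℕ} (hn : 0 < n) (hb : |b| ≤ 1) (hC : 1 ≤ C)
    (hE : ∫ a, op (cpl (b ^ 2 / n) a) ∂gauss (Edge m) ≤ C) {k : ℕ} (hk : 1 ≤ k) (hkn : k ≤ n) :
    ∫ a, op (cpl (b ^ 2 / n) a) ^ k ∂gauss (Edge m) ≤ (400 + 16 * C) ^ k := by
  have hv : (0:ℝ) ≤ b ^ 2 / n := by positivity
  have h := eulip_moment (Real.sqrt_nonneg _) (eulip_op_cpl (m := m) hv) (fun a => op_nonneg _) hE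
    (M := 2 * C) (by linarith) one_pos hk
  rw [show 1 - C / (2 * C) = (1:ℝ) / 2 by field_simp; ring] at h
  have hs : √(k:ℝ) * √(2 * (b ^ 2 / n)) ≤ 2 := by
    rw [← Real.sqrt_mul (Nat.cast_nonneg k), Real.sqrt_le_left (by norm_num)]
    have h1 : (k:ℝ) * (2 * (b ^ 2 / n)) = 2 * b ^ 2 * ((k:ℝ) / n) := by ring
    have h2 : (k:ℝ) / n ≤ 1 := div_le_one_of_le₀ (by exact_mod_cast hkn) (Nat.cast_nonneg n)
    rw [h1]
    nlinarith [sq_le_one' hb, sq_nonneg b]
  have h3 : ((1 + 1 / 1) * (24 * √(k:ℝ) * √(2 * (b ^ 2 / n)))) ^ k ≤ (96 + 4 * C) ^ k :=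
    pow_le_pow_left₀ (by positivity) (by nlinarith) k
  have h4 : ((1 + 1) * (2 * C)) ^ k ≤ (96 + 4 * C) ^ k :=
    pow_le_pow_left₀ (by positivity) (by linarith) k
  have h5 : 4 * (96 + 4 * C) ^ k ≤ (400 + 16 * C) ^ k := by
    calc 4 * (96 + 4 * C) ^ k ≤ 4 ^ k * (96 + 4 * C) ^ k :=
          mul_le_mul_of_nonneg_right (le_self_pow₀ (by norm_num) (by omega)) (by positivity)
      _ ≤ _ := by
          rw [← mul_pow]
          exact pow_le_pow_left₀ (by positivity) (by linarith) k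
  have h6 := h.trans (add_le_add h4 h3)
  set I := ∫ a, op (cpl (b ^ 2 / n) a) ^ k ∂gauss (Edge m)
  set X := (96 + 4 * C) ^ k
  set Y := (400 + 16 * C) ^ k
  linarith

end moments

end Vale.Agent.P150.Weak.Hess
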