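import Vale.Agent.P150.Weak.Upd
import Vale.Agent.P150.Weak.Hess.OpNorm
import Vale.Agent.P150.Gap.SudakovFernique

/-!
The endpoint of the interpolation: when the couplings are independent of the magnetisation, the
Sudakov–Fernique comparison bounds the mean norm of `L - A_η` below `L - 3κ/2`, for every value of
the magnetisation.
-/

open MeasureTheory ProbabilityTheory Finset
open scoped Matrix

namespace Vale.Agent.P150.Weak.Hess

open Gap Crit

variable {m : ℕ}

/-- The supremum of the quadratic form after completing the square. -/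
lemma quad_sup_le {D g y : Fin m → ℝ} (σ : ℝ) (hD : ∀ i, 0 < D i)
    (hβ : σ ^ 2 * ∑ i, 1 / D i < 1) :
    2 * σ * ∑ i, g i * y i + σ ^ 2 * (∑ i, y i) ^ 2 - ∑ i, D i * y i ^ 2 ≤
      σ ^ 2 * ∑ i, g i ^ 2 / D i +
        σ ^ 4 * (∑ i, g i / D i) ^ 2 / (1 - σ ^ 2 * ∑ i, 1 / D i) := by
  set A := ∑ i, g i / D i with hA
  set S := ∑ i, 1 / D i with hS
  set U := ∑ i, (y i - σ * (g i / D i)) with hU
  set T := ∑ i, D i * (y i - σ * (g i / D i)) ^ 2 with hT
  have ey : ∑ i, y i = σ * A + U := by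
    rw [hU, sum_sub_distrib, ← mul_sum]; ring
  have e : 2 * σ * ∑ i, g i * y i - ∑ i, D i * y i ^ 2 = σ ^ 2 * ∑ i, g i ^ 2 / D i - T := by
    simp only [hT, mul_sum, ← sum_sub_distrib]
    refine sum_congr rfl fun i _ => ?_
    have := (hD i).ne'
    field_simp
    ring
  have hU2 : U ^ 2 ≤ S * T := by
    refine sum_sq_le_sum_mul_sum_of_sq_le_mul univ (fun i _ => (one_div_pos.2 (hD i)).le)
      (fun i _ => mul_nonneg (hD i).le (sq_nonneg _)) fun i _ => ?_
    refine le_of_eq ?_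
    have := (hD i).ne'
    field_simp
  have hT0 : 0 ≤ T := sum_nonneg fun i _ => mul_nonneg (hD i).le (sq_nonneg _)
  have hS0 : 0 ≤ S := sum_nonneg fun i _ => (one_div_pos.2 (hD i)).le
  have h1 : 0 < 1 - σ ^ 2 * S := by linarith
  have key : σ ^ 2 * (σ * A + U) ^ 2 - T ≤ σ ^ 4 * A ^ 2 / (1 - σ ^ 2 * S) := by
    rw [le_div_iff₀ h1]
    rcases hS0.eq_or_lt with h | h
    · have : U = 0 := by rw [← h, zero_mul] at hU2; nlinarith [sq_nonneg U]
      rw [this, ← h]
      linarith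
    · refine le_of_mul_le_mul_left ?_ h
      nlinarith [sq_nonneg (σ ^ 3 * S * A - (1 - σ ^ 2 * S) * U),
        mul_nonneg h1.le (sub_nonneg.2 hU2)]
  rw [ey]
  linarith

lemma integral_lin_sq (c : Fin m → ℝ) :
    Integrable (fun g : Fin m → ℝ => (∑ i, g i * c i) ^ 2) (gauss (Fin m)) ∧
      ∫ g : Fin m → ℝ, (∑ i, g i * c i) ^ 2 ∂gauss (Fin m) = ∑ i, c i ^ 2 := by
  have hl : Tame fun g : Fin m → ℝ => ∑ i, g i * c i :=
    Tame.sum fun i _ => (Tame.coord i).mul (Tame.const _)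
  have hi : ∀ i, Integrable (fun g : Fin m → ℝ => c i * (g i * ∑ j, g j * c j)) (gauss (Fin m)) :=
    fun i => (((Tame.coord i).mul hl).integrable).const_mul _
  refine ⟨(hl.pow 2).integrable, ?_⟩
  have e : (fun g : Fin m → ℝ => (∑ i, g i * c i) ^ 2) =
      fun g => ∑ i, c i * (g i * ∑ j, g j * c j) := funext fun g => by
    rw [sq, sum_mul]; exact sum_congr rfl fun i _ => by ring
  rw [e, integral_finsetSum _ fun i _ => hi i]
  refine sum_congr rfl fun i _ => ?_
  have h := ibp (i := i) hl (Tame.const (c i)) fun g t => by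
    refine ((HasDerivAt.fun_sum (u := univ) fun j _ => (show HasDerivAt
      (fun s => Function.update g i s j) (if j = i then (1:ℝ) else 0) t from ?_).mul_const
        (c j)).congr_deriv ?_).congr_of_eventuallyEq
          (Filter.Eventually.of_forall fun s => sum_congr rfl fun j _ => by simp only [update_eq_upd])
    · by_cases h : j = i
      · subst h; simp only [Function.update_self, if_true]; exact hasDerivAt_id' t
      · rw [if_neg h]; simpa [h] using hasDerivAt_const t (g j)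
    · simp
  rw [integral_const_mul, h]
  simp [sq]

section lse

variable {ι κ X : Type*} [Fintype ι] [Fintype κ] [Fintype X] [Nonempty X]

lemma lse_le_log_card {f : X → ℝ} {R : ℝ} (h : ∀ x, f x ≤ R) :
    lse f ≤ Real.log (Fintype.card X) + R := by
  rw [lse, ← Real.log_exp R, ← Real.log_mul (by simp) (Real.exp_pos R).ne']
  refine Real.log_le_log (sum_exp_pos f) ?_
  refine (sum_le_card_nsmul univ _ (Real.exp R) fun x _ => Real.exp_le_exp.2 (h x)).trans_eq ?_
  rw [card_univ, nsmul_eq_mul]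

lemma le_lse (f : X → ℝ) (x : X) : f x ≤ lse f := by
  rw [← Real.exp_le_exp, exp_lse]
  exact single_le_sum (f := fun x => Real.exp (f x)) (fun _ _ => (Real.exp_pos _).le) (mem_univ x)

lemma eulip_lse (A : ι → X → ℝ) (c : X → ℝ) {K : ℝ} (h : ∀ x, ∑ i, A i x ^ 2 ≤ K ^ 2)
    (hK : 0 ≤ K) : EuLip (fun g => lse fun x => c x + wsum A g x) K := by
  intro g g'
  refine abs_lse_sub_le fun x => ?_
  have e : c x + wsum A g x - (c x + wsum A g' x) = ∑ i, A i x * (g i - g' i) := by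
    simp only [wsum, add_sub_add_left_eq_sub, ← sum_sub_distrib]
    exact sum_congr rfl fun i _ => by ring
  rw [e]
  refine (abs_sum_mul_le univ _ _).trans (mul_le_mul_of_nonneg_right ?_ (Real.sqrt_nonneg _))
  exact (Real.sqrt_le_sqrt (h x)).trans_eq (Real.sqrt_sq hK)

lemma eulip_lse' (A : ι → X → ℝ) (c : X → ℝ) :
    EuLip (fun g => lse fun x => c x + wsum A g x) √(∑ x, ∑ i, A i x ^ 2) :=
  eulip_lse A c (fun x => by
    rw [Real.sq_sqrt (sum_nonneg fun _ _ => sum_nonneg fun _ _ => sq_nonneg _)]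
    exact single_le_sum (f := fun x => ∑ i, A i x ^ 2)
      (fun _ _ => sum_nonneg fun _ _ => sq_nonneg _) (mem_univ x)) (Real.sqrt_nonneg _)

/-- The comparison with offsets, realised by multiplicities. -/
lemma lse_offset_comparison (A : ι → X → ℝ) (B : κ → X → ℝ) (c : X → ℝ)
    (h : ∀ x y, ∑ i, (A i x - A i y) ^ 2 ≤ ∑ j, (B j x - B j y) ^ 2) :
    ∫ g, lse (fun x => c x + wsum A g x) ∂gauss ι ≤
      (∫ g, lse (fun x => c x + wsum B g x) ∂gauss κ) + Real.log 2 := by
  set M := ∑ x, |c x| with hM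
  have h0 : ∀ x, 0 ≤ c x + M := fun x => by
    linarith [neg_abs_le (c x), single_le_sum (f := fun x => |c x|) (fun _ _ => abs_nonneg _)
      (mem_univ x)]
  set N : X → ℕ := fun x => ⌈Real.exp (c x + M)⌉₊ with hN
  have hN1 : ∀ x, Real.exp (c x + M) ≤ N x ∧ (N x : ℝ) ≤ 2 * Real.exp (c x + M) := fun x =>
    ⟨Nat.le_ceil _, by
      have h1 := Nat.ceil_lt_add_one (Real.exp_pos (c x + M)).le
      have h2 := Real.one_le_exp (h0 x)
      simp only [hN]
      linarith⟩
  have : Nonempty ((x : X) × Fin (N x)) :=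
    ⟨⟨Classical.arbitrary X, ⟨0, Nat.ceil_pos.2 (Real.exp_pos _)⟩⟩⟩
  have key : ∀ w : X → ℝ,
      M + lse (fun x => c x + w x) ≤ lse (fun y : (x : X) × Fin (N x) => w y.1) ∧
      lse (fun y : (x : X) × Fin (N x) => w y.1) ≤
        Real.log 2 + M + lse (fun x => c x + w x) := by
    intro w
    have e : ∀ x, Real.exp M * Real.exp (c x + w x) = Real.exp (c x + M) * Real.exp (w x) :=
      fun x => by rw [← Real.exp_add, ← Real.exp_add]; ring_nf
    have e' : ∑ y : (x : X) × Fin (N x), Real.exp (w y.1) = ∑ x, (N x : ℝ) * Real.exp (w x) := by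
      rw [Fintype.sum_sigma]; simp
    constructor <;> rw [← Real.exp_le_exp]
    · rw [Real.exp_add, exp_lse, exp_lse, e', mul_sum]
      exact sum_le_sum fun x _ =>
        (e x).le.trans (mul_le_mul_of_nonneg_right (hN1 x).1 (Real.exp_pos _).le)
    · rw [Real.exp_add, Real.exp_add, Real.exp_log two_pos, exp_lse, exp_lse, e', mul_assoc,
        mul_sum, mul_sum]
      refine sum_le_sum fun x _ => ?_
      rw [e x, ← mul_assoc]
      exact mul_le_mul_of_nonneg_right (hN1 x).2 (Real.exp_pos _).le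
  set A' : ι → ((x : X) × Fin (N x)) → ℝ := fun i y => A i y.1
  set B' : κ → ((x : X) × Fin (N x)) → ℝ := fun i y => B i y.1
  have hA' : Integrable (fun g => lse (wsum A' g)) (gauss ι) := by
    simpa using (tame_eulip (Real.sqrt_nonneg _) (eulip_lse' A' fun _ => 0)).integrable
  have hB' : Integrable (fun g => lse (wsum B' g)) (gauss κ) := by
    simpa using (tame_eulip (Real.sqrt_nonneg _) (eulip_lse' B' fun _ => 0)).integrable
  have hA := (tame_eulip (Real.sqrt_nonneg _) (eulip_lse' A c)).integrable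
  have hB := (tame_eulip (Real.sqrt_nonneg _) (eulip_lse' B c)).integrable
  have h1 := integral_mono ((integrable_const M).add hA) hA' fun g => (key (wsum A g)).1
  have h2 := integral_mono hB' ((integrable_const (Real.log 2 + M)).add hB) fun g => (key (wsum B g)).2
  simp only [Pi.add_apply] at h1 h2
  rw [integral_add (integrable_const _) hA] at h1
  rw [integral_add (integrable_const _) hB] at h2
  simp only [integral_const, probReal_univ, smul_eq_mul, one_mul] at h1 h2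
  have h3 := lse_comparison A' B' fun x y => h x.1 y.1
  linarith

end lse

/-- A finite net of the unit sphere. -/
lemma exists_net (m : ℕ) {δ : ℝ} (hδ : 0 < δ) :
    ∃ S : Finset (Vec m), (∀ y ∈ S, sq1 y = 1) ∧
      ∀ x, sq1 x = 1 → ∃ y ∈ S, √(sq1 (x - y)) ≤ δ := by
  have hc : IsCompact {x : Vec m | sq1 x = 1} :=
    (isCompact_closedBall (0 : Vec m) 1).of_isClosed_subset
      (isClosed_eq (by unfold sq1; fun_prop) continuous_const) fun x (hx : sq1 x = 1) => by
        rw [mem_closedBall_zero_iff, pi_norm_le_iff_of_nonneg zero_le_one]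
        intro i
        rw [Real.norm_eq_abs, ← sq_le_one_iff_abs_le_one]
        exact (single_le_sum (f := fun i => x i ^ 2) (fun _ _ => sq_nonneg _) (mem_univ i)).trans_eq hx
  obtain ⟨t, hts, htf, hcov⟩ := hc.finite_cover_balls (show 0 < δ / ((m:ℝ) + 1) by positivity)
  refine ⟨htf.toFinset, fun y hy => hts (htf.mem_toFinset.1 hy), fun x hx => ?_⟩
  obtain ⟨y, hy, hxy⟩ := Set.mem_iUnion₂.1 (hcov hx)
  refine ⟨y, htf.mem_toFinset.2 hy, ?_⟩
  refine (Crit.sqrt_sum_sq_le (x - y)).trans ?_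
  refine (sum_le_card_nsmul univ _ (δ / ((m:ℝ) + 1)) fun i _ => ?_).trans ?_
  · rw [Metric.mem_ball] at hxy
    rw [Pi.sub_apply, ← Real.dist_eq]
    exact (dist_le_pi_dist x y i).trans hxy.le
  · simp only [card_univ, Fintype.card_fin, nsmul_eq_mul]
    rw [mul_div_assoc', div_le_iff₀ (by positivity)]
    linarith

/-- The norm of a symmetric matrix from a net. -/
lemma op_le_net {A : MM m} (hA : Aᵀ = A) {δ R : ℝ} (hδ : 0 ≤ δ) (hR : 0 ≤ R) {S : Finset (Vec m)}
    (hS : ∀ y ∈ S, sq1 y = 1) (hnet : ∀ x, sq1 x = 1 → ∃ y ∈ S, √(sq1 (x - y)) ≤ δ)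
    (h : ∀ y ∈ S, |y ⬝ᵥ (A *ᵥ y)| ≤ R) : op A ≤ R + 2 * δ * op A := by
  have h0 := op_nonneg A
  refine op_le_of_quad hA (add_nonneg hR (by positivity)) fun x hx => ?_
  obtain ⟨y, hy, hd⟩ := hnet x hx
  have e : x ⬝ᵥ (A *ᵥ x) = y ⬝ᵥ (A *ᵥ y) + ((x - y) ⬝ᵥ (A *ᵥ x) + (x - y) ⬝ᵥ (A *ᵥ y)) := by
    rw [sub_dotProduct, sub_dotProduct, Matrix.dotProduct_mulVec x A y, ← Matrix.mulVec_transpose,
      hA, dotProduct_comm (A *ᵥ x) y]
    ring
  have hb : ∀ z : Vec m, sq1 z = 1 → |(x - y) ⬝ᵥ (A *ᵥ z)| ≤ δ * op A := fun z hz => by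
    refine (abs_sum_mul_le univ _ _).trans (mul_le_mul hd ?_ (Real.sqrt_nonneg _) hδ)
    refine (Real.sqrt_le_sqrt (sq1_op_le A z)).trans_eq ?_
    rw [hz, mul_one, Real.sqrt_sq h0]
  rw [e]
  refine (abs_add_le _ _).trans ((add_le_add (h y hy) ((abs_add_le _ _).trans
    (add_le_add (hb x hx) (hb y (hS y hy))))).trans_eq ?_)
  ring

section mean

variable {b η L : ℝ} {n : ℕ} {μ : Vec m}

/-- The numerical condition behind the endpoint. -/
lemma endpoint_num {a η s : ℝ} (ha : 0 < a) (ha1 : a ≤ 1) (hη : 0 < η) (hη1 : η ≤ a ^ 2 / 128)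
    (hs1 : s ≤ 1) :
    (1 - a) * (s + η) ≤
      ((1 - a) * s + a / 4 - a ^ 2 / 64) * (1 - (a / 4 + 3 * a ^ 2 / 32) * (1 + η)) := by
  have hk : a / 4 + 3 * a ^ 2 / 32 ≤ 11 / 32 := by nlinarith
  have hk0 : 0 ≤ a / 4 + 3 * a ^ 2 / 32 := by positivity
  have h1 : (1 - a) * (1 + η) ≤
      (1 - a + a / 4 - a ^ 2 / 64) * (1 - (a / 4 + 3 * a ^ 2 / 32) * (1 + η)) := by
    nlinarith [mul_nonneg hk0 hη.le, mul_nonneg (mul_nonneg hk0 hη.le) ha.le,
      mul_nonneg (mul_nonneg hk0 hη.le) (sq_nonneg a), pow_nonneg ha.le 3, pow_nonneg ha.le 4]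
  nlinarith [mul_nonneg (mul_nonneg (mul_nonneg (sub_nonneg.2 ha1) (sub_nonneg.2 hs1)) hk0)
    (by linarith : (0:ℝ) ≤ 1 + η)]

/-- The quadratic form at the endpoint after completing the square, with the mean of the
excess. -/
lemma endpoint_sup (hb : 0 < b) (hb1 : b < 1) (hη : 0 < η) (hη1 : η ≤ (1 - b ^ 2) ^ 2 / 128)
    (hμ : ∀ i, |μ i| ≤ 1) (hmn : m ≤ n) (hn : 256 / (1 - b ^ 2) ^ 3 ≤ (n:ℝ)) :
    ∃ Ψ : (Fin m → ℝ) → ℝ, Integrable Ψ (gauss (Fin m)) ∧ ∫ g, Ψ g ∂gauss (Fin m) ≤ 0 ∧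
      ∀ g y : Fin m → ℝ, sq1 y = 1 →
        ∑ i, zd b η n L μ i * y i ^ 2 + b ^ 2 / n * (∑ i, y i) ^ 2 +
          2 * √(b ^ 2 / n) * ∑ i, g i * y i ≤ L - 3 / 2 * kap b + Ψ g := by
  set a₀ := 1 - b ^ 2 with ha₀
  have hb2 : b ^ 2 < 1 := by nlinarith
  have ha : 0 < a₀ := by linarith
  have ha1 : a₀ ≤ 1 := by linarith [sq_nonneg b]
  have hn0 : (0:ℝ) < n := lt_of_lt_of_le (by positivity) hn
  set v := b ^ 2 / (n:ℝ) with hv
  have hv0 : 0 ≤ v := by positivity
  set k' := 3 / 2 * kap b with hk'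
  have hk'' : k' = 3 * a₀ ^ 2 / 32 := by rw [hk', kap, ha₀]; ring
  set θ := a₀ / 4 with hθ
  set w : Vec m := fun i => 1 - μ i ^ 2 with hwd
  have hw : ∀ i, 0 ≤ w i ∧ w i ≤ 1 := fun i =>
    ⟨by simp only [hwd]; linarith [sq_le_one' (hμ i)], by simp only [hwd]; linarith [sq_nonneg (μ i)]⟩
  set s := (∑ i, w i) / n with hs
  have hs0 : 0 ≤ s := div_nonneg (sum_nonneg fun i _ => (hw i).1) hn0.le
  have hmn' : (m:ℝ) ≤ n := by exact_mod_cast hmn
  have hs1 : s ≤ 1 := by
    rw [hs, div_le_one hn0]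
    refine (sum_le_card_nsmul univ _ 1 fun i _ => (hw i).2).trans ?_
    simpa using hmn'
  set q0 := 1 - (θ + k') * (1 + η) with hq0
  have hkk : θ + k' ≤ 11 / 32 := by rw [hθ, hk'']; nlinarith
  have hkk0 : 0 ≤ θ + k' := by rw [hθ, hk'']; positivity
  have hη2 : η ≤ 1 / 128 := hη1.trans (by gcongr; exact pow_le_one₀ ha.le ha1)
  have hq : 5 / 8 ≤ q0 := by rw [hq0]; nlinarith [mul_le_mul hkk hη2 hη.le (by norm_num)]
  set D : Vec m := fun i => 1 / (w i + η) - θ - k' with hD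
  have hwe : ∀ i, 0 < w i + η := fun i => by linarith [(hw i).1]
  have hDlow : ∀ i, q0 / (w i + η) ≤ D i := fun i => by
    have := hwe i
    simp only [hD]
    rw [div_le_iff₀ this, sub_mul, sub_mul, one_div_mul_cancel this.ne', hq0]
    nlinarith [mul_le_mul_of_nonneg_left (by linarith [(hw i).2] : w i + η ≤ 1 + η) hkk0]
  have hDpos : ∀ i, 0 < D i := fun i =>
    (div_pos (by linarith) (hwe i)).trans_le (hDlow i)
  have hDinv : ∀ i, 1 / D i ≤ (w i + η) / q0 := fun i => by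
    rw [← one_div_div q0]
    exact one_div_le_one_div_of_le (div_pos (by linarith) (hwe i)) (hDlow i)
  have hS : v * ∑ i, 1 / D i ≤ b ^ 2 * s + θ - a₀ ^ 2 / 64 := by
    refine (mul_le_mul_of_nonneg_left (sum_le_sum fun i _ => hDinv i) hv0).trans ?_
    rw [← sum_div, mul_div_assoc', div_le_iff₀ (by linarith), sum_add_distrib]
    simp only [sum_const, card_univ, Fintype.card_fin, nsmul_eq_mul]
    have h1 : v * ((∑ i, w i) + m * η) ≤ b ^ 2 * (s + η) := by
      rw [hv, hs, div_mul_eq_mul_div, div_le_iff₀ hn0]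
      have : b ^ 2 * ((m:ℝ) * η) ≤ b ^ 2 * ((n:ℝ) * η) := by gcongr
      have e : b ^ 2 * ((∑ i, w i) / n + η) * n = b ^ 2 * (∑ i, w i) + b ^ 2 * ((n:ℝ) * η) := by
        field_simp
      rw [e]; linarith
    refine h1.trans ?_
    have := endpoint_num ha ha1 hη hη1 hs1
    rw [ha₀] at this
    rw [hq0, hθ, hk'', ha₀]
    linarith
  have hβ : v * ∑ i, 1 / D i ≤ 1 - 3 * a₀ / 4 := by
    refine hS.trans ?_
    rw [hθ]
    nlinarith [mul_le_mul_of_nonneg_left hs1 (sq_nonneg b)]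
  set σ := √v with hσ
  have hσ2 : σ ^ 2 = v := Real.sq_sqrt hv0
  have hσ4 : σ ^ 4 = v ^ 2 := by rw [← hσ2]; ring
  set Ψ : (Fin m → ℝ) → ℝ := fun g => σ ^ 2 * ∑ i, g i ^ 2 / D i +
    σ ^ 4 * (∑ i, g i / D i) ^ 2 / (1 - σ ^ 2 * ∑ i, 1 / D i) with hΨ
  have hI2 := fun i => integral_lin_sq (Pi.single i (1:ℝ) : Fin m → ℝ)
  simp only [Pi.single_apply, mul_ite, mul_one, mul_zero, sum_ite_eq', mem_univ, if_true,
    ite_pow, one_pow, zero_pow two_ne_zero] at hI2
  have hl := integral_lin_sq fun i => 1 / D i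
  simp only [mul_one_div, one_div_pow] at hl
  have i1 : Integrable (fun g : Fin m → ℝ => σ ^ 2 * ∑ i, g i ^ 2 / D i) (gauss (Fin m)) :=
    (integrable_finsetSum _ fun i _ => (hI2 i).1.div_const _).const_mul _
  have i2 : Integrable (fun g : Fin m → ℝ =>
      σ ^ 4 * (∑ i, g i / D i) ^ 2 / (1 - σ ^ 2 * ∑ i, 1 / D i)) (gauss (Fin m)) :=
    (hl.1.const_mul _).div_const _
  have hΨi : Integrable Ψ (gauss (Fin m)) := i1.add i2
  have hΨb : ∫ g, Ψ g ∂gauss (Fin m) ≤ b ^ 2 * s + θ := by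
    rw [hΨ, integral_add i1 i2, integral_const_mul, integral_div, integral_const_mul, hl.2,
      integral_finsetSum _ fun i _ => (hI2 i).1.div_const _]
    simp only [integral_div, (hI2 _).2, hσ2, hσ4]
    have h2 : ∀ i, 1 / D i ^ 2 ≤ 2 * (1 / D i) := fun i => by
      have h3 : 1 / D i ≤ 2 := (hDinv i).trans (by
        rw [div_le_iff₀ (by linarith)]; linarith [(hw i).2])
      have := mul_le_mul_of_nonneg_right h3 (one_div_pos.2 (hDpos i)).le
      calc 1 / D i ^ 2 = 1 / D i * (1 / D i) := by ring_nf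
        _ ≤ _ := this
    have h4 : v ^ 2 * ∑ i, 1 / D i ^ 2 ≤ 2 * v := by
      refine (mul_le_mul_of_nonneg_left (sum_le_sum fun i _ => h2 i) (sq_nonneg v)).trans ?_
      rw [← mul_sum]
      have h5 : 2 * v * (v * ∑ i, 1 / D i) ≤ 2 * v * 1 :=
        mul_le_mul_of_nonneg_left (hβ.trans (by linarith)) (by linarith)
      linarith
    have h6 : v ^ 2 * (∑ i, 1 / D i ^ 2) / (1 - v * ∑ i, 1 / D i) ≤ a₀ ^ 2 / 64 := by
      rw [div_le_iff₀ (by linarith)]
      refine h4.trans ?_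
      have hn' : 256 ≤ a₀ ^ 3 * n := by
        rw [div_le_iff₀ (by positivity)] at hn; linarith
      have hvn : v * n ≤ 1 := by rw [hv, div_mul_cancel₀ _ hn0.ne']; linarith
      have h7 : 256 * v ≤ a₀ ^ 3 := by
        have := mul_le_mul_of_nonneg_left hn' hv0
        have := mul_le_mul_of_nonneg_left hvn (pow_nonneg ha.le 3)
        linarith
      have h8 : a₀ ^ 2 / 64 * (3 * a₀ / 4) ≤ a₀ ^ 2 / 64 * (1 - v * ∑ i, 1 / D i) :=
        mul_le_mul_of_nonneg_left (by linarith) (by positivity)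
      linarith [pow_nonneg ha.le 3]
    linarith
  refine ⟨fun g => Ψ g - (θ + b ^ 2 * s), hΨi.sub (integrable_const _), ?_, fun g y hy => ?_⟩
  · rw [integral_sub hΨi (integrable_const _)]
    simp only [integral_const, probReal_univ, smul_eq_mul, one_mul]
    linarith
  have ez : ∑ i, zd b η n L μ i * y i ^ 2 =
      L - k' - θ - b ^ 2 * s - ∑ i, D i * y i ^ 2 := by
    simp only [sq1] at hy
    conv_rhs => arg 1; rw [← mul_one (L - k' - θ - b ^ 2 * s), ← hy]
    rw [mul_sum, ← sum_sub_distrib]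
    refine sum_congr rfl fun i _ => ?_
    simp only [zd, hD, hs, hwd]
    ring
  rw [ez]
  have hsup := quad_sup_le (g := g) (y := y) σ hDpos (by rw [hσ2]; linarith)
  simp only [hΨ]
  rw [hσ2] at hsup ⊢
  linarith

/-- A Lipschitz majorant of the positive part of the form on the points of a net. -/
lemma endpoint_pos (hb : 0 < b) (hb1 : b < 1) (hη : 0 < η) (hη1 : η ≤ (1 - b ^ 2) ^ 2 / 128)
    (hμ : ∀ i, |μ i| ≤ 1) (hmn : m ≤ n) (hn : 256 / (1 - b ^ 2) ^ 3 ≤ (n:ℝ))
    {S : Finset (Vec m)} (hS1 : ∀ y ∈ S, sq1 y = 1) [Nonempty S] {ξ : ℝ} (hξ : 0 < ξ) :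
    ∃ G : (Edge m → ℝ) → ℝ, EuLip G √(2 * (b ^ 2 / n)) ∧
      ∫ a, G a ∂gauss (Edge m) ≤ L - 3 / 2 * kap b + ξ / 2 ∧
      ∀ a, ∀ y ∈ S, y ⬝ᵥ (zm b η n L μ (cpl (b ^ 2 / n) a) *ᵥ y) ≤ G a := by
  set v := b ^ 2 / (n:ℝ) with hv
  have hv0 : 0 ≤ v := by positivity
  set K := √(2 * v) with hK
  set σ := √v with hσ
  have hσ2 : σ ^ 2 = v := Real.sq_sqrt hv0
  obtain ⟨Ψ, hΨi, hΨb, hΨ⟩ := endpoint_sup (L := L) hb hb1 hη hη1 hμ hmn hn
  rw [← hv] at hΨ
  set lam := 2 * (Real.log (Fintype.card S) + Real.log 2 + 1) / ξ with hlam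
  have hlog : 0 ≤ Real.log (Fintype.card S) := Real.log_natCast_nonneg _
  have hlog2 : 0 ≤ Real.log 2 := Real.log_nonneg one_le_two
  have hlam0 : 0 < lam := by positivity
  set c : S → ℝ := fun y => lam * (∑ i, zd b η n L μ i * y.1 i ^ 2 + v * (∑ i, y.1 i) ^ 2) with hcd
  set A : Edge m → S → ℝ := fun e y => lam * (2 * σ) * (y.1 e.1.1 * y.1 e.1.2) with hAd
  set B : Fin m → S → ℝ := fun i y => lam * (2 * σ) * y.1 i with hBd
  set G := fun a : Edge m → ℝ => 1 / lam * lse fun y => c y + wsum A a y with hGd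
  have hlin : EuLip (fun a : Edge m → ℝ => lse fun y => c y + wsum A a y) (lam * K) := by
    refine eulip_lse A c (fun y => ?_) (by positivity)
    have h := sum_sym_eq (f := fun i j => (y.1 i * y.1 j) ^ 2) fun i j => by ring
    have hd : 0 ≤ ∑ i, (y.1 i * y.1 i) ^ 2 := sum_nonneg fun i _ => sq_nonneg _
    have h1 : ∑ i, ∑ j, (y.1 i * y.1 j) ^ 2 = 1 := by
      have := hS1 y.1 y.2
      simp only [sq1] at this
      simp only [mul_pow, ← mul_sum, this, mul_one]
    rw [mul_pow lam, hK, Real.sq_sqrt (by positivity)]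
    simp only [hAd, mul_pow _ (_ * _), ← mul_sum]
    rw [mul_pow 2 σ, hσ2]
    have h2 : ∑ e : Edge m, (y.1 e.1.1 * y.1 e.1.2) ^ 2 ≤ 1 / 2 := by linarith
    have h3 := mul_le_mul_of_nonneg_left h2 (mul_nonneg (sq_nonneg lam) hv0)
    linarith
  have hG : EuLip G K := by
    intro a a'
    simp only [hGd, ← mul_sub, abs_mul, abs_of_pos (one_div_pos.2 hlam0)]
    refine (mul_le_mul_of_nonneg_left (hlin a a') (one_div_pos.2 hlam0).le).trans_eq ?_
    field_simp
  refine ⟨G, hG, ?_, fun a y hy => ?_⟩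
  · have hcomp := lse_offset_comparison A B c fun x y => by
      simp only [hAd, hBd, ← mul_sub, mul_pow, ← mul_sum]
      exact mul_le_mul_of_nonneg_left (sq_prod_sub_le (hS1 x.1 x.2) (hS1 y.1 y.2)) (by positivity)
    have hpt : ∀ g : Fin m → ℝ, lse (fun y => c y + wsum B g y) ≤
        Real.log (Fintype.card S) + lam * (L - 3 / 2 * kap b + Ψ g) := by
      intro g
      refine lse_le_log_card fun y => ?_
      have e : wsum B g y = lam * (2 * σ * ∑ i, g i * y.1 i) := by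
        simp only [wsum, hBd, mul_sum]
        exact sum_congr rfl fun i _ => by ring
      rw [e]
      simp only [hcd, ← mul_add]
      exact mul_le_mul_of_nonneg_left (hΨ g y.1 (hS1 y.1 y.2)) hlam0.le
    have hBi := (tame_eulip (Real.sqrt_nonneg _) (eulip_lse' B c)).integrable
    have hsum := (integrable_const (L - 3 / 2 * kap b)).fun_add hΨi
    have h1 := hcomp.trans (add_le_add (integral_mono hBi
      ((integrable_const _).fun_add (hsum.const_mul lam)) hpt) le_rfl)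
    rw [integral_add (integrable_const _) (hsum.const_mul lam), integral_const_mul,
      integral_add (integrable_const _) hΨi] at h1
    simp only [integral_const, probReal_univ, smul_eq_mul, one_mul] at h1
    simp only [hGd, integral_const_mul]
    rw [one_div_mul_eq_div, div_le_iff₀ hlam0]
    refine h1.trans ?_
    have hξl : ξ / 2 * lam = Real.log (Fintype.card S) + Real.log 2 + 1 := by
      rw [hlam]; field_simp
    have := mul_le_mul_of_nonneg_left hΨb hlam0.le
    linarith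
  · have hq : y ⬝ᵥ (zm b η n L μ (cpl v a) *ᵥ y) =
        ∑ i, zd b η n L μ i * y i ^ 2 + y ⬝ᵥ (cpl v a *ᵥ y) := by
      rw [zm, Matrix.add_mulVec, dotProduct_add]
      congr 1
      simp only [dotProduct, Matrix.mulVec_diagonal]
      exact sum_congr rfl fun i _ => by ring
    have hW' : y ⬝ᵥ (cpl v a *ᵥ y) ≤
        v * (∑ i, y i) ^ 2 + 2 * σ * ∑ e : Edge m, a e * (y e.1.1 * y e.1.2) := by
      have e : ∀ i j, y i * (cpl v a i j * y j) = v * (y i * y j) -
          (if i = j then v * (y i * y j) else 0) + σ * (sym a i j * y i * y j) := fun i j => by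
        simp only [cpl]
        split_ifs with h
        · subst h; rw [sym_self]; ring
        · ring
      simp only [dotProduct, Matrix.mulVec, mul_sum, e, sum_add_distrib, sum_sub_distrib,
        sum_ite_eq, mem_univ, if_true]
      simp only [← mul_sum, quad_eq, ← sum_mul, ← sq]
      have : 0 ≤ v * ∑ i, y i ^ 2 := mul_nonneg hv0 (sum_nonneg fun i _ => sq_nonneg _)
      linarith
    have hle := le_lse (fun z : S => c z + wsum A a z) ⟨y, hy⟩
    have ew : wsum A a ⟨y, hy⟩ =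
        lam * (2 * σ * ∑ e : Edge m, a e * (y e.1.1 * y e.1.2)) := by
      simp only [wsum, hAd, mul_sum]
      exact sum_congr rfl fun e _ => by ring
    simp only [hGd]
    rw [one_div_mul_eq_div, le_div_iff₀ hlam0, hq]
    refine le_trans ?_ hle
    simp only [ew, hcd]
    have := mul_le_mul_of_nonneg_left hW' hlam0.le
    linarith

/-- The mean norm at the endpoint. -/
theorem endpoint_mean (hb : 0 < b) (hb1 : b < 1) (hη : 0 < η) (hη1 : η ≤ (1 - b ^ 2) ^ 2 / 128)
    (hμ : ∀ i, |μ i| ≤ 1) (hm : 0 < m) (hmn : m ≤ n)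
    (hn : 256 / (1 - b ^ 2) ^ 3 ≤ (n:ℝ)) (hL : 1 / η + b ^ 2 ≤ L)
    (hW : ∫ a, op (cpl (b ^ 2 / n) a) ∂gauss (Edge m) ≤ L - 3 / 2 * kap b) :
    ∫ a, op (zm b η n L μ (cpl (b ^ 2 / n) a)) ∂gauss (Edge m) ≤
      L - 3 / 2 * kap b + 48 * √(2 * (b ^ 2 / n)) := by
  set v := b ^ 2 / (n:ℝ) with hv
  have hv0 : 0 ≤ v := by positivity
  set K := √(2 * v) with hK
  set k' := 3 / 2 * kap b with hk'
  set F := fun a : Edge m → ℝ => op (zm b η n L μ (cpl v a)) with hFdef
  have hF : EuLip F K := by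
    intro a c
    refine (abs_op_sub_le _ _).trans_eq ?_
    rw [zm, zm, add_sub_add_left_eq_sub, cpl_sub, sq2_wd hv0, Real.sqrt_mul (by positivity)]
  have hFi := (tame_eulip (Real.sqrt_nonneg _) hF).integrable
  have hc := eulip_op_cpl (m := m) hv0
  have hci := (tame_eulip (Real.sqrt_nonneg _) hc).integrable
  refine le_of_forall_pos_le_add fun ξ hξ => ?_
  have hF0 : 0 ≤ ∫ a, F a ∂gauss (Edge m) := integral_nonneg fun a => op_nonneg _
  set δ := ξ / 4 / ((∫ a, F a ∂gauss (Edge m)) + 1) with hδ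
  have hδ0 : 0 < δ := by positivity
  obtain ⟨S, hS1, hnet⟩ := exists_net m hδ0
  obtain ⟨y₀, hy₀, -⟩ := hnet (Pi.single ⟨0, hm⟩ 1) (by simp [sq1, Pi.single_apply])
  have : Nonempty S := ⟨⟨y₀, hy₀⟩⟩
  obtain ⟨G, hG, hGb, hGpos⟩ := endpoint_pos (L := L) hb hb1 hη hη1 hμ hmn hn hS1 hξ
  rw [← hv, ← hK] at hG
  have hGi := (tame_eulip (Real.sqrt_nonneg _) hG).integrable
  have hpw : ∀ a, F a ≤ L - k' + ξ / 2 + |G a - ∫ a', G a' ∂gauss (Edge m)| +
      |op (cpl v a) - ∫ a', op (cpl v a') ∂gauss (Edge m)| + 2 * δ * F a := by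
    intro a
    refine op_le_net (transpose_zm (transpose_cpl v a)) hδ0.le ?_ hS1 hnet fun y hy => ?_
    · have hop : 0 ≤ ∫ a', op (cpl v a') ∂gauss (Edge m) := integral_nonneg fun a' => op_nonneg _
      linarith [abs_nonneg (G a - ∫ a', G a' ∂gauss (Edge m)),
        abs_nonneg (op (cpl v a) - ∫ a', op (cpl v a') ∂gauss (Edge m))]
    have hy1 := hS1 y hy
    have hq : y ⬝ᵥ (zm b η n L μ (cpl v a) *ᵥ y) =
        ∑ i, zd b η n L μ i * y i ^ 2 + y ⬝ᵥ (cpl v a *ᵥ y) := by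
      rw [zm, Matrix.add_mulVec, dotProduct_add]
      congr 1
      simp only [dotProduct, Matrix.mulVec_diagonal]
      exact sum_congr rfl fun i _ => by ring
    have hneg : -op (cpl v a) ≤ y ⬝ᵥ (zm b η n L μ (cpl v a) *ᵥ y) := by
      have h := abs_le.1 (abs_dot_op_le (cpl v a) y)
      rw [hy1, mul_one] at h
      have : 0 ≤ ∑ i, zd b η n L μ i * y i ^ 2 :=
        sum_nonneg fun i _ => mul_nonneg (zd_mem hη hμ hmn hL i).1 (sq_nonneg _)
      rw [hq]; linarith
    have hpos := hGpos a y hy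
    rw [← hv] at hpos
    have h1 := le_abs_self (G a - ∫ a', G a' ∂gauss (Edge m))
    have h2 := le_abs_self (op (cpl v a) - ∫ a', op (cpl v a') ∂gauss (Edge m))
    have h3 := abs_nonneg (G a - ∫ a', G a' ∂gauss (Edge m))
    have h4 := abs_nonneg (op (cpl v a) - ∫ a', op (cpl v a') ∂gauss (Edge m))
    rw [abs_le]
    constructor <;> linarith
  have iG := (hGi.sub (integrable_const (∫ a', G a' ∂gauss (Edge m)))).abs
  have iC := (hci.sub (integrable_const (∫ a', op (cpl v a') ∂gauss (Edge m)))).abs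
  have hmono := integral_mono hFi ((((integrable_const _).fun_add iG).fun_add iC).fun_add
    (hFi.const_mul (2 * δ))) hpw
  simp only [Pi.sub_apply] at iG iC hmono
  rw [integral_add (((integrable_const _).fun_add iG).fun_add iC) (hFi.const_mul (2 * δ)),
    integral_add ((integrable_const _).fun_add iG) iC, integral_add (integrable_const _) iG,
    integral_const_mul] at hmono
  simp only [integral_const, probReal_univ, smul_eq_mul, one_mul] at hmono
  have d1 := mean_dev_le (Real.sqrt_nonneg _) hG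
  have d2 := mean_dev_le (Real.sqrt_nonneg _) hc
  have h5 : 2 * δ * ∫ a, F a ∂gauss (Edge m) ≤ ξ / 2 := by
    rw [hδ, show 2 * (ξ / 4 / ((∫ a, F a ∂gauss (Edge m)) + 1)) * ∫ a, F a ∂gauss (Edge m) =
      ξ / 2 * ((∫ a, F a ∂gauss (Edge m)) / ((∫ a, F a ∂gauss (Edge m)) + 1)) by ring]
    exact mul_le_of_le_one_right (by positivity) (div_le_one_of_le₀ (by linarith) (by linarith))
  linarith

end mean

end Vale.Agent.P150.Weak.Hess
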