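import Vale.Agent.P150.Weak.Hess.Ops

/-!
The bilinear form of the derivative of `N` on vectors orthogonal to `μ`, and its row sums against a
symmetric three-tensor in a contracting frame.
-/

open Finset
open scoped Matrix

namespace Vale.Agent.P150.Weak.Hess

variable {m : ℕ} {b η L : ℝ} {n : ℕ} {μ : Vec m} {W : MM m}

/-- The coefficient vector of the form `x' dN(δ) y` in `δ`. -/
noncomputable def gam (b η : ℝ) (n : ℕ) (L : ℝ) (μ : Vec m) (W : MM m) (x y : Vec m) : Vec m :=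
  fun k => 4 * rr n μ / n * μ k * (x ⬝ᵥ (zm b η n L μ W *ᵥ y))
    - rr n μ / n * (x k * (μ ⬝ᵥ (zm b η n L μ W *ᵥ y)) + (μ ⬝ᵥ (zm b η n L μ W *ᵥ x)) * y k)
    + rr n μ ^ 2 * (-(2 * μ k) / (1 - μ k ^ 2 + η) ^ 2 * (x k * y k)
      + 2 * b ^ 2 / n * μ k * (x ⬝ᵥ y))

lemma dot_zm_comm (hW : Wᵀ = W) (x y : Vec m) :
    x ⬝ᵥ (zm b η n L μ W *ᵥ y) = y ⬝ᵥ (zm b η n L μ W *ᵥ x) := by
  rw [Matrix.dotProduct_mulVec, dotProduct_comm, ← Matrix.mulVec_transpose, transpose_zm hW]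

lemma dot_dqm (x y δ : Vec m) (hx : μ ⬝ᵥ x = 0) :
    x ⬝ᵥ (dqm n μ δ *ᵥ y) = 2 * (μ ⬝ᵥ δ) / n * (x ⬝ᵥ y) - (x ⬝ᵥ δ) * (μ ⬝ᵥ y) / n := by
  rw [dqm, Matrix.sub_mulVec, Matrix.smul_mulVec, Matrix.one_mulVec, Matrix.smul_mulVec,
    Matrix.add_mulVec, vecMulVec_mulVec', vecMulVec_mulVec', dotProduct_sub, dotProduct_smul,
    dotProduct_smul, dotProduct_add, dotProduct_smul, dotProduct_smul, dotProduct_comm x μ, hx]
  simp only [smul_eq_mul]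
  ring

/-- `x' dN(δ) y` for `x, y ⊥ μ`. -/
lemma dot_dnm (hW : Wᵀ = W) {x y : Vec m} (hx : μ ⬝ᵥ x = 0) (hy : μ ⬝ᵥ y = 0) (δ : Vec m) :
    x ⬝ᵥ (dnm b η n L μ δ W *ᵥ y) = gam b η n L μ W x y ⬝ᵥ δ := by
  have hq : ∀ z, x ⬝ᵥ (qm n μ *ᵥ z) = rr n μ * (x ⬝ᵥ z) := fun z => by
    rw [Matrix.dotProduct_mulVec, ← transpose_qm n μ, Matrix.vecMul_transpose, qm_of_orth hx,
      smul_dotProduct, smul_eq_mul]
  have h1 : x ⬝ᵥ ((dqm n μ δ * zm b η n L μ W * qm n μ) *ᵥ y) =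
      rr n μ * (2 * (μ ⬝ᵥ δ) / n * (x ⬝ᵥ (zm b η n L μ W *ᵥ y))
        - (x ⬝ᵥ δ) * (μ ⬝ᵥ (zm b η n L μ W *ᵥ y)) / n) := by
    rw [← Matrix.mulVec_mulVec, qm_of_orth hy, Matrix.mulVec_smul, dotProduct_smul, smul_eq_mul,
      ← Matrix.mulVec_mulVec, dot_dqm x _ δ hx]
  have h2 : x ⬝ᵥ ((qm n μ * zm b η n L μ W * dqm n μ δ) *ᵥ y) =
      rr n μ * (2 * (μ ⬝ᵥ δ) / n * (x ⬝ᵥ (zm b η n L μ W *ᵥ y))
        - (y ⬝ᵥ δ) * (μ ⬝ᵥ (zm b η n L μ W *ᵥ x)) / n) := by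
    rw [mul_assoc, ← Matrix.mulVec_mulVec, hq, ← Matrix.mulVec_mulVec, Matrix.dotProduct_mulVec,
      ← Matrix.mulVec_transpose, transpose_zm hW, dotProduct_comm, ← transpose_dqm,
      Matrix.mulVec_transpose, ← Matrix.dotProduct_mulVec, dot_dqm y _ δ hy,
      dotProduct_comm y (zm b η n L μ W *ᵥ x), dotProduct_comm (zm b η n L μ W *ᵥ x) y,
      dot_zm_comm hW y x]
  have h3 : x ⬝ᵥ ((qm n μ * Matrix.diagonal (dzd b η n μ δ) * qm n μ) *ᵥ y) =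
      rr n μ ^ 2 * ∑ k, dzd b η n μ δ k * (x k * y k) := by
    rw [← Matrix.mulVec_mulVec, ← Matrix.mulVec_mulVec, hq, qm_of_orth hy, Matrix.mulVec_smul,
      dotProduct_smul, smul_eq_mul]
    simp only [dotProduct, Matrix.mulVec_diagonal, sq, mul_assoc]
    congr 2
    exact sum_congr rfl fun k _ => by ring
  rw [dnm, Matrix.add_mulVec, Matrix.add_mulVec, dotProduct_add, dotProduct_add, h1, h2, h3]
  have e1 : ∑ k, dzd b η n μ δ k * (x k * y k) =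
      ∑ k, -(2 * μ k) / (1 - μ k ^ 2 + η) ^ 2 * (x k * y k) * δ k +
        2 * b ^ 2 * (μ ⬝ᵥ δ) / n * (x ⬝ᵥ y) := by
    simp only [dzd, dotProduct, mul_sum, ← sum_add_distrib]
    exact sum_congr rfl fun k _ => by ring
  rw [e1]
  have e2 : gam b η n L μ W x y ⬝ᵥ δ =
      4 * rr n μ / n * (x ⬝ᵥ (zm b η n L μ W *ᵥ y)) * (μ ⬝ᵥ δ)
      - rr n μ / n * ((x ⬝ᵥ δ) * (μ ⬝ᵥ (zm b η n L μ W *ᵥ y))
        + (μ ⬝ᵥ (zm b η n L μ W *ᵥ x)) * (y ⬝ᵥ δ))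
      + rr n μ ^ 2 * ((∑ k, -(2 * μ k) / (1 - μ k ^ 2 + η) ^ 2 * (x k * y k) * δ k)
        + 2 * b ^ 2 / n * (x ⬝ᵥ y) * (μ ⬝ᵥ δ)) := by
    unfold gam
    generalize x ⬝ᵥ (zm b η n L μ W *ᵥ y) = A
    generalize μ ⬝ᵥ (zm b η n L μ W *ᵥ y) = B
    generalize μ ⬝ᵥ (zm b η n L μ W *ᵥ x) = C
    generalize x ⬝ᵥ y = D
    simp only [dotProduct, mul_sum, sum_mul, ← sum_add_distrib, ← sum_sub_distrib]
    exact sum_congr rfl fun k _ => by ring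
  rw [e2]
  ring

/-- The contraction `Σ_ij x_i y_j T_kij`. -/
noncomputable def tauv (T : Fin m → Mat m) (x y : Vec m) : Vec m :=
  fun k => x ⬝ᵥ (Matrix.of (T k) *ᵥ y)

/-- `|A x|² ≤ ‖A‖² |x|²`. -/
lemma sq1_mulVec_le (A : MM m) (x : Vec m) : sq1 (A *ᵥ x) ≤ sq2 A * sq1 x := by
  unfold sq2
  rw [sum_mul]
  refine sum_le_sum fun i _ => ?_
  simpa [Matrix.mulVec, dotProduct, sq1] using sum_mul_sq_le_sq_mul_sq univ (A i) x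

lemma sum_sq1_mulVec_le (T : Fin m → Mat m) {x : Vec m} (hx : sq1 x ≤ 1) :
    ∑ k, sq1 (Matrix.of (T k) *ᵥ x) ≤ sq3 T := by
  refine sum_le_sum fun k _ => (sq1_mulVec_le _ _).trans ?_
  exact mul_le_of_le_one_right (sum_nonneg fun _ _ => sum_nonneg fun _ _ => sq_nonneg _) hx

lemma sq2_app_le (T : Fin m → Mat m) (a : Vec m) : sq2 (app T a) ≤ sq1 a * sq3 T := by
  simp only [sq2, sq3, app]
  calc ∑ i, ∑ j, (∑ k, a k * T k i j) ^ 2 ≤ ∑ i, ∑ j, sq1 a * ∑ k, T k i j ^ 2 :=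
        sum_le_sum fun i _ => sum_le_sum fun j _ => sum_mul_sq_le_sq_mul_sq univ a _
    _ = sq1 a * ∑ k, ∑ i, ∑ j, T k i j ^ 2 := by
        simp only [← mul_sum]
        congr 1
        rw [sum_comm (f := fun k i => ∑ j, T k i j ^ 2)]
        exact sum_congr rfl fun i _ => sum_comm

lemma dot_tauv (T : Fin m → Mat m) (a x y : Vec m) :
    a ⬝ᵥ tauv T x y = x ⬝ᵥ (Matrix.of (app T a) *ᵥ y) := by
  simp only [tauv, dotProduct, Matrix.mulVec, Matrix.of_apply, app, mul_sum, sum_mul]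
  rw [sum_comm]
  refine sum_congr rfl fun i _ => ?_
  rw [sum_comm]
  exact sum_congr rfl fun j _ => sum_congr rfl fun k _ => by ring

lemma frame_sum_abs_le {ψ : Fin m → Vec m} (hψ : IsFrame ψ) (x y : Vec m) :
    ∑ c, |x ⬝ᵥ ψ c| * |y ⬝ᵥ ψ c| ≤ √(sq1 x) * √(sq1 y) := by
  refine (sum_abs_mul_le univ _ _).trans ?_
  gcongr
  · simpa [dotProduct, mul_comm, sq1] using hψ.bessel x
  · simpa [dotProduct, mul_comm, sq1] using hψ.bessel y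

lemma sq1_mu_le (hμ : ∀ i, |μ i| ≤ 1) (hmn : m ≤ n) : sq1 μ ≤ n := by
  refine (sum_le_sum fun i _ => (sq_le_one_iff_abs_le_one (μ i)).2 (hμ i)).trans ?_
  simp only [sum_const, card_univ, Fintype.card_fin, nsmul_eq_mul, mul_one]
  exact_mod_cast hmn

lemma rr_mem (hμ : ∀ i, |μ i| ≤ 1) (hmn : m ≤ n) : 0 ≤ rr n μ ∧ rr n μ ≤ 1 :=
  ⟨div_nonneg (sq1_nonneg μ) (Nat.cast_nonneg n),
    div_le_one_of_le₀ (sq1_mu_le hμ hmn) (Nat.cast_nonneg n)⟩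

/-- Row sums of the contracted form. -/
theorem row_le {T : Fin m → Mat m} {Ω : ℝ} {ψ : Fin m → Vec m}
    (hμ : ∀ i, |μ i| ≤ 1) (hmn : m ≤ n) (hn : 0 < n) (hη : 0 < η) (hb : |b| ≤ 1) (hΩ : 0 ≤ Ω)
    (hW : Wᵀ = W) (hZ : ∀ x, sq1 (zm b η n L μ W *ᵥ x) ≤ Ω ^ 2 * sq1 x)
    (hT : ∀ k i j, T k i j = T k j i) (hψ : IsFrame ψ) (a : Fin m) :
    ∑ c, |gam b η n L μ W (ψ a) (ψ c) ⬝ᵥ tauv T (ψ a) (ψ c)| ≤
      (6 * Ω + 2 + 2 / η ^ 2) * √(sq3 T) := by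
  have hnr : (0:ℝ) < n := by exact_mod_cast hn
  obtain ⟨hr0, hr1⟩ := rr_mem hμ hmn
  have ha := hψ.norm_le a
  have hS : 0 ≤ √(sq3 T) := Real.sqrt_nonneg _
  have hμn : √(sq1 μ) ≤ √(n:ℝ) := Real.sqrt_le_sqrt (sq1_mu_le hμ hmn)
  have hnn : √(n:ℝ) * √(n:ℝ) = n := Real.mul_self_sqrt hnr.le
  set Z := zm b η n L μ W with hZdef
  have hZx : ∀ x : Vec m, √(sq1 (Z *ᵥ x)) ≤ Ω * √(sq1 x) := fun x => by
    refine (Real.sqrt_le_sqrt (hZ x)).trans_eq ?_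
    rw [Real.sqrt_mul (sq_nonneg Ω), Real.sqrt_sq hΩ]
  have hZ1 : √(sq1 (Z *ᵥ ψ a)) ≤ Ω :=
    (hZx _).trans (mul_le_of_le_one_right hΩ (Real.sqrt_le_one.2 ha))
  have hw : ∀ c, μ ⬝ᵥ tauv T (ψ a) (ψ c) = (Matrix.of (app T μ) *ᵥ ψ a) ⬝ᵥ ψ c := fun c => by
    rw [dot_tauv, Matrix.dotProduct_mulVec, ← Matrix.mulVec_transpose]
    congr 2
    ext i j
    simp only [Matrix.transpose_apply, Matrix.of_apply, app]
    exact sum_congr rfl fun k _ => by rw [hT k j i]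
  have hwn : √(sq1 (Matrix.of (app T μ) *ᵥ ψ a)) ≤ √(n:ℝ) * √(sq3 T) := by
    rw [← Real.sqrt_mul hnr.le]
    refine Real.sqrt_le_sqrt ((sq1_mulVec_le _ _).trans ?_)
    calc sq2 (app T μ) * sq1 (ψ a) ≤ sq2 (app T μ) :=
          mul_le_of_le_one_right (sum_nonneg fun _ _ => sum_nonneg fun _ _ => sq_nonneg _) ha
      _ ≤ sq1 μ * sq3 T := sq2_app_le T μ
      _ ≤ n * sq3 T := mul_le_mul_of_nonneg_right (sq1_mu_le hμ hmn)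
          (sum_nonneg fun _ _ => sum_nonneg fun _ _ => sum_nonneg fun _ _ => sq_nonneg _)
  -- the five sums
  have S1 : ∑ c, |ψ a ⬝ᵥ (Z *ᵥ ψ c)| * |μ ⬝ᵥ tauv T (ψ a) (ψ c)| ≤ Ω * (√(n:ℝ) * √(sq3 T)) := by
    simp only [hw]
    have e : ∀ c, ψ a ⬝ᵥ (Z *ᵥ ψ c) = (Z *ᵥ ψ a) ⬝ᵥ ψ c := fun c => by
      rw [hZdef, dot_zm_comm hW, dotProduct_comm]
    simp only [e]
    exact (frame_sum_abs_le hψ _ _).trans (mul_le_mul hZ1 hwn (Real.sqrt_nonneg _) hΩ)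
  have S2 : ∑ c, |ψ a ⬝ᵥ ψ c| * |μ ⬝ᵥ tauv T (ψ a) (ψ c)| ≤ √(n:ℝ) * √(sq3 T) := by
    simp only [hw]
    exact (frame_sum_abs_le hψ _ _).trans ((mul_le_mul (Real.sqrt_le_one.2 ha) hwn
      (Real.sqrt_nonneg _) zero_le_one).trans_eq (one_mul _))
  have htau : ∀ c, tauv T (ψ a) (ψ c) = fun k => (Matrix.of (T k) *ᵥ ψ a) ⬝ᵥ ψ c := fun c => by
    funext k
    rw [tauv, Matrix.dotProduct_mulVec, ← Matrix.mulVec_transpose]
    congr 2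
    ext i j
    simp only [Matrix.transpose_apply, Matrix.of_apply, hT k j i]
  have htau2 : ∑ c, sq1 (tauv T (ψ a) (ψ c)) ≤ sq3 T := by
    refine le_trans ?_ (sum_sq1_mulVec_le T ha)
    simp only [sq1, htau]
    rw [sum_comm]
    refine sum_le_sum fun k _ => ?_
    simpa [dotProduct, mul_comm, sq1] using hψ.bessel (Matrix.of (T k) *ᵥ ψ a)
  have S3 : ∑ c, |ψ a ⬝ᵥ tauv T (ψ a) (ψ c)| * |μ ⬝ᵥ (Z *ᵥ ψ c)| ≤
      √(sq3 T) * (Ω * √(n:ℝ)) := by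
    refine (sum_abs_mul_le univ _ _).trans (mul_le_mul ?_ ?_ (Real.sqrt_nonneg _) hS)
    · refine Real.sqrt_le_sqrt ((sum_le_sum fun c _ => ?_).trans htau2)
      refine (sum_mul_sq_le_sq_mul_sq univ (ψ a) (tauv T (ψ a) (ψ c))).trans ?_
      exact mul_le_of_le_one_left (sq1_nonneg _) ha
    · have e : ∀ c, μ ⬝ᵥ (Z *ᵥ ψ c) = (Z *ᵥ μ) ⬝ᵥ ψ c := fun c => by
        rw [hZdef, dot_zm_comm hW, dotProduct_comm]
      refine (Real.sqrt_le_sqrt (y := sq1 (Z *ᵥ μ)) ?_).trans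
        ((hZx μ).trans (mul_le_mul_of_nonneg_left hμn hΩ))
      simp only [e]
      simpa [dotProduct, mul_comm, sq1] using hψ.bessel (Z *ᵥ μ)
  have S4 : ∑ c, |μ ⬝ᵥ (Z *ᵥ ψ a)| * |ψ c ⬝ᵥ tauv T (ψ a) (ψ c)| ≤
      (√(n:ℝ) * Ω) * (√(n:ℝ) * √(sq3 T)) := by
    rw [← mul_sum]
    refine mul_le_mul ?_ ?_ (sum_nonneg fun _ _ => abs_nonneg _) (by positivity)
    · refine (abs_sum_mul_le univ μ (Z *ᵥ ψ a)).trans ?_
      exact mul_le_mul hμn hZ1 (Real.sqrt_nonneg _) (Real.sqrt_nonneg _)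
    · calc ∑ c, |ψ c ⬝ᵥ tauv T (ψ a) (ψ c)|
          = ∑ c, |(1:ℝ)| * |ψ c ⬝ᵥ tauv T (ψ a) (ψ c)| := by simp
        _ ≤ √(∑ _c : Fin m, (1:ℝ) ^ 2) * √(∑ c, (ψ c ⬝ᵥ tauv T (ψ a) (ψ c)) ^ 2) :=
            sum_abs_mul_le univ _ _
        _ ≤ _ := by
            refine mul_le_mul (Real.sqrt_le_sqrt ?_) (Real.sqrt_le_sqrt ?_) (Real.sqrt_nonneg _)
              (Real.sqrt_nonneg _)
            · simp only [one_pow, sum_const, card_univ, Fintype.card_fin, nsmul_eq_mul, mul_one]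
              exact_mod_cast hmn
            · refine (sum_le_sum fun c _ => ?_).trans htau2
              refine (sum_mul_sq_le_sq_mul_sq univ (ψ c) _).trans ?_
              exact mul_le_of_le_one_left (sq1_nonneg _) (hψ.norm_le c)
  have S5 : ∑ c, ∑ k, |ψ a k| * (|ψ c k| * |tauv T (ψ a) (ψ c) k|) ≤ √(sq3 T) := by
    rw [sum_comm]
    simp only [← mul_sum]
    calc ∑ k, |ψ a k| * ∑ c, |ψ c k| * |tauv T (ψ a) (ψ c) k|
        ≤ ∑ k, |ψ a k| * |√(sq1 (Matrix.of (T k) *ᵥ ψ a))| := by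
          refine sum_le_sum fun k _ => mul_le_mul_of_nonneg_left ?_ (abs_nonneg _)
          rw [abs_of_nonneg (Real.sqrt_nonneg _)]
          refine (sum_abs_mul_le univ _ _).trans ?_
          refine (mul_le_mul (Real.sqrt_le_one.2 ?_) (Real.sqrt_le_sqrt ?_) (Real.sqrt_nonneg _)
            zero_le_one).trans_eq (one_mul _)
          · refine le_trans (le_of_eq ?_) ((hψ.bessel (Pi.single k 1)).trans (le_of_eq ?_))
            · simp [Pi.single_apply]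
            · simp [sq1, Pi.single_apply]
          · simp only [htau]
            simpa [dotProduct, mul_comm, sq1] using hψ.bessel (Matrix.of (T k) *ᵥ ψ a)
      _ ≤ √(sq1 (ψ a)) * √(∑ k, √(sq1 (Matrix.of (T k) *ᵥ ψ a)) ^ 2) := sum_abs_mul_le univ _ _
      _ ≤ 1 * √(sq3 T) := by
          refine mul_le_mul (Real.sqrt_le_one.2 ha) (Real.sqrt_le_sqrt ?_) (Real.sqrt_nonneg _)
            zero_le_one
          simp only [fun k => Real.sq_sqrt (sq1_nonneg (Matrix.of (T k) *ᵥ ψ a))]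
          exact sum_sq1_mulVec_le T ha
      _ = _ := one_mul _
  have hg : ∀ k, |-(2 * μ k) / (1 - μ k ^ 2 + η) ^ 2| ≤ 2 / η ^ 2 := fun k => by
    have h1 : η ≤ 1 - μ k ^ 2 + η := by
      linarith [(sq_le_one_iff_abs_le_one (μ k)).2 (hμ k)]
    rw [abs_div, abs_neg, abs_mul, abs_two, abs_pow, sq_abs]
    exact div_le_div₀ zero_le_two (by linarith [hμ k]) (pow_pos hη 2)
      (pow_le_pow_left₀ hη.le h1 2)
  have hb2 : b ^ 2 ≤ 1 := (sq_le_one_iff_abs_le_one b).2 hb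
  have key : ∀ c, |gam b η n L μ W (ψ a) (ψ c) ⬝ᵥ tauv T (ψ a) (ψ c)| ≤
      4 / n * (|ψ a ⬝ᵥ (Z *ᵥ ψ c)| * |μ ⬝ᵥ tauv T (ψ a) (ψ c)|)
      + 2 / n * (|ψ a ⬝ᵥ ψ c| * |μ ⬝ᵥ tauv T (ψ a) (ψ c)|)
      + 1 / n * (|ψ a ⬝ᵥ tauv T (ψ a) (ψ c)| * |μ ⬝ᵥ (Z *ᵥ ψ c)|)
      + 1 / n * (|μ ⬝ᵥ (Z *ᵥ ψ a)| * |ψ c ⬝ᵥ tauv T (ψ a) (ψ c)|)
      + 2 / η ^ 2 * ∑ k, |ψ a k| * (|ψ c k| * |tauv T (ψ a) (ψ c) k|) := by
    intro c
    set τ := tauv T (ψ a) (ψ c)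
    have e : gam b η n L μ W (ψ a) (ψ c) ⬝ᵥ τ =
        rr n μ * (4 / n) * ((ψ a ⬝ᵥ (Z *ᵥ ψ c)) * (μ ⬝ᵥ τ))
        + rr n μ ^ 2 * b ^ 2 * (2 / n) * ((ψ a ⬝ᵥ ψ c) * (μ ⬝ᵥ τ))
        - rr n μ * (1 / n) * ((ψ a ⬝ᵥ τ) * (μ ⬝ᵥ (Z *ᵥ ψ c)))
        - rr n μ * (1 / n) * ((μ ⬝ᵥ (Z *ᵥ ψ a)) * (ψ c ⬝ᵥ τ))
        + rr n μ ^ 2 * ∑ k, -(2 * μ k) / (1 - μ k ^ 2 + η) ^ 2 * (ψ a k * (ψ c k * τ k)) := by
      unfold gam
      rw [hZdef]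
      generalize ψ a ⬝ᵥ (zm b η n L μ W *ᵥ ψ c) = A
      generalize μ ⬝ᵥ (zm b η n L μ W *ᵥ ψ c) = B
      generalize μ ⬝ᵥ (zm b η n L μ W *ᵥ ψ a) = C
      generalize ψ a ⬝ᵥ ψ c = D
      simp only [dotProduct, mul_sum, sum_mul, ← sum_add_distrib, ← sum_sub_distrib]
      exact sum_congr rfl fun k _ => by ring
    rw [e]
    have hr2 : rr n μ ^ 2 ≤ 1 := pow_le_one₀ hr0 hr1
    refine (abs_add_le _ _).trans (add_le_add ((abs_sub _ _).trans (add_le_add ((abs_sub _ _).trans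
      (add_le_add ((abs_add_le _ _).trans (add_le_add ?_ ?_)) ?_)) ?_)) ?_)
    · rw [abs_mul, abs_mul (rr n μ), abs_mul (ψ a ⬝ᵥ (Z *ᵥ ψ c)), abs_of_nonneg hr0,
        abs_of_nonneg (by positivity : (0:ℝ) ≤ 4 / n)]
      exact mul_le_mul_of_nonneg_right (mul_le_of_le_one_left (by positivity) hr1) (by positivity)
    · rw [abs_mul, abs_mul (rr n μ ^ 2 * b ^ 2), abs_mul (ψ a ⬝ᵥ ψ c),
        abs_of_nonneg (by positivity : (0:ℝ) ≤ rr n μ ^ 2 * b ^ 2),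
        abs_of_nonneg (by positivity : (0:ℝ) ≤ 2 / n)]
      exact mul_le_mul_of_nonneg_right (mul_le_of_le_one_left (by positivity)
        (mul_le_one₀ hr2 (sq_nonneg b) hb2)) (by positivity)
    · rw [abs_mul, abs_mul (rr n μ), abs_mul (ψ a ⬝ᵥ τ), abs_of_nonneg hr0,
        abs_of_nonneg (by positivity : (0:ℝ) ≤ 1 / n)]
      exact mul_le_mul_of_nonneg_right (mul_le_of_le_one_left (by positivity) hr1) (by positivity)
    · rw [abs_mul, abs_mul (rr n μ), abs_mul (μ ⬝ᵥ (Z *ᵥ ψ a)), abs_of_nonneg hr0,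
        abs_of_nonneg (by positivity : (0:ℝ) ≤ 1 / n)]
      exact mul_le_mul_of_nonneg_right (mul_le_of_le_one_left (by positivity) hr1) (by positivity)
    · rw [abs_mul, abs_of_nonneg (sq_nonneg _)]
      refine (mul_le_of_le_one_left (abs_nonneg _) hr2).trans ?_
      refine (abs_sum_le_sum_abs _ _).trans ?_
      rw [mul_sum]
      refine sum_le_sum fun k _ => ?_
      rw [abs_mul, abs_mul, abs_mul]
      exact mul_le_mul_of_nonneg_right (hg k) (by positivity)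
  refine (sum_le_sum fun c _ => key c).trans ?_
  simp only [sum_add_distrib, ← mul_sum]
  rw [← mul_sum] at S4
  have sn : √(n:ℝ) ≤ n := by
    nlinarith [Real.one_le_sqrt.2 (show (1:ℝ) ≤ n by exact_mod_cast hn)]
  have u1 : 4 / (n:ℝ) * (Ω * (√(n:ℝ) * √(sq3 T))) ≤ 4 * Ω * √(sq3 T) := by
    rw [div_mul_eq_mul_div, div_le_iff₀ hnr]; nlinarith [mul_nonneg hΩ hS]
  have u2 : 2 / (n:ℝ) * (√(n:ℝ) * √(sq3 T)) ≤ 2 * √(sq3 T) := by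
    rw [div_mul_eq_mul_div, div_le_iff₀ hnr]; nlinarith
  have u3 : 1 / (n:ℝ) * (√(sq3 T) * (Ω * √(n:ℝ))) ≤ Ω * √(sq3 T) := by
    rw [div_mul_eq_mul_div, div_le_iff₀ hnr]; nlinarith [mul_nonneg hΩ hS]
  have u4 : 1 / (n:ℝ) * (√(n:ℝ) * Ω * (√(n:ℝ) * √(sq3 T))) = Ω * √(sq3 T) := by
    rw [mul_assoc (√(n:ℝ)), mul_left_comm Ω, ← mul_assoc (√(n:ℝ)), hnn]; field_simp
  have hn1 : (0:ℝ) ≤ 1 / n := by positivity
  linarith [mul_le_mul_of_nonneg_left S1 (by positivity : (0:ℝ) ≤ 4 / n),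
    mul_le_mul_of_nonneg_left S2 (by positivity : (0:ℝ) ≤ 2 / n),
    mul_le_mul_of_nonneg_left S3 hn1, mul_le_mul_of_nonneg_left S4 hn1,
    mul_le_mul_of_nonneg_left S5 (by positivity : (0:ℝ) ≤ 2 / η ^ 2)]

end Vale.Agent.P150.Weak.Hess
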