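import Vale.Agent.P150.Weak.Upd
import Vale.Agent.P150.Weak.Hess.OpNorm
import Vale.Agent.P150.Weak.Spec

/-!
The interpolation between the planted couplings and an independent copy inside `L - A_η`: the
derivative of `E tr N^(2k+2)` only sees the derivative of the magnetisation, and a Grönwall bound
follows from the moments of the cumulant norms.
-/

open MeasureTheory ProbabilityTheory Finset Real
open scoped Matrix

namespace Vale.Agent.P150.Weak.Hess

open Gap Crit

variable {m : ℕ}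

/-- The disorder with an independent copy of the pairs. -/
abbrev Dbl (m : ℕ) := Idx m ⊕ Edge m

/-- The magnetisation. -/
noncomputable def muG (v τ : ℝ) (G : Dbl m → ℝ) : Vec m :=
  mg (plJ v fun k => G (.inl k)) (plU τ fun k => G (.inl k))

/-- The interpolated couplings. -/
noncomputable def wG (v c s : ℝ) (G : Dbl m → ℝ) : MM m :=
  cpl v fun e => c * G (.inl (.inl e)) + s * G (.inr e)

/-- `N` along the interpolation. -/
noncomputable def nG (b η : ℝ) (n : ℕ) (L τ c s : ℝ) (G : Dbl m → ℝ) : MM m :=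
  nm b η n L (muG (b ^ 2 / n) τ G) (wG (b ^ 2 / n) c s G)

/-- The weight `r² N^(q+1)`. -/
noncomputable def hG (b η : ℝ) (n : ℕ) (L τ c s : ℝ) (q : ℕ) (G : Dbl m → ℝ) : MM m :=
  rr n (muG (b ^ 2 / n) τ G) ^ 2 • nG b η n L τ c s G ^ (q + 1)

/-- The direct derivative of `hG` in the coupling of the pair `e`. -/
noncomputable def yG (b η : ℝ) (n : ℕ) (L τ c s : ℝ) (q : ℕ) (e : Edge m) (G : Dbl m → ℝ) :
    MM m :=
  rr n (muG (b ^ 2 / n) τ G) ^ 2 • ∑ l ∈ range (q + 1), nG b η n L τ c s G ^ l *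
    (qm n (muG (b ^ 2 / n) τ G) * wd (b ^ 2 / n) (fun e' => if e' = e then (1:ℝ) else 0) *
      qm n (muG (b ^ 2 / n) τ G)) * nG b η n L τ c s G ^ (q - l)

/-- The derivative of the magnetisation in the couplings. -/
noncomputable def deltG (v τ : ℝ) (G : Dbl m → ℝ) (i j : Fin m) : Vec m :=
  delt (plJ v fun k => G (.inl k)) (plU τ fun k => G (.inl k)) i j

/-- The derivative of `hG` through the magnetisation. -/
noncomputable def dG (b η : ℝ) (n : ℕ) (L τ c s : ℝ) (q : ℕ) (i j : Fin m) (G : Dbl m → ℝ) :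
    MM m :=
  dh b η n L (muG (b ^ 2 / n) τ G) (deltG (b ^ 2 / n) τ G i j) (wG (b ^ 2 / n) c s G) q

lemma abs_muG (v τ : ℝ) (G : Dbl m → ℝ) (k : Fin m) : |muG v τ G k| ≤ 1 := abs_mg_le _ _ _

lemma transpose_wG (v c s : ℝ) (G : Dbl m → ℝ) : (wG v c s G)ᵀ = wG v c s G := transpose_cpl _ _

section tame

variable {ι : Type*} [Fintype ι]

lemma tame_abs {f : (ι → ℝ) → ℝ} (hf : Tame f) : Tame fun g => |f g| := by
  obtain ⟨hc, C, K, h⟩ := hf
  exact ⟨hc.abs, C, K, fun g => by simpa using h g⟩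

lemma tame_of_le {f h : (ι → ℝ) → ℝ} (hc : Continuous f) (hh : Tame h) (hle : ∀ g, |f g| ≤ h g) :
    Tame f := by
  obtain ⟨-, C, K, hC⟩ := hh
  exact ⟨hc, C, K, fun g => (hle g).trans ((le_abs_self _).trans (hC g))⟩

/-- Polynomial growth jointly in two parameters gives a uniform bound on the square. -/
lemma tame_param {F : ℝ → ℝ → (ι → ℝ) → ℝ}
    (h : Tame fun H : ι ⊕ Bool → ℝ => F (H (.inr true)) (H (.inr false)) fun i => H (.inl i)) :
    (∀ c s, Tame (F c s)) ∧ ∃ B : (ι → ℝ) → ℝ, Tame B ∧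
      ∀ c s, |c| ≤ 1 → |s| ≤ 1 → ∀ G, |F c s G| ≤ B G := by
  obtain ⟨hc, C, K, hC⟩ := h
  have hb : ∀ c s G, |F c s G| ≤ C * (1 + |c| + |s| + ∑ i, |G i|) ^ K := fun c s G => by
    have := hC (Sum.elim G fun t : Bool => if t then c else s)
    simp only [Sum.elim_inl, Sum.elim_inr, Bool.false_eq_true, if_false, if_true,
      Fintype.sum_sum_type, Fintype.sum_bool] at this
    refine this.trans_eq ?_
    ring_nf
  have hC0 : 0 ≤ C := by
    have := (abs_nonneg _).trans (hC 0)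
    simpa using this
  have htame : ∀ d : ℝ, 0 ≤ d → Tame fun G : ι → ℝ => C * (d + ∑ i, |G i|) ^ K := fun d _ =>
    (Tame.const C).mul (((Tame.const d).add (Tame.sum fun i _ => tame_abs (Tame.coord i))).pow K)
  refine ⟨fun c s => tame_of_le ?_ (htame (1 + |c| + |s|) (by positivity)) (hb c s),
    fun G => C * (3 + ∑ i, |G i|) ^ K, htame 3 (by norm_num), fun c s h1 h2 G => ?_⟩
  · have h1 : Continuous fun G : ι → ℝ => Sum.elim G fun t : Bool => if t then c else s :=
      continuous_pi fun k => by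
        rcases k with i | t
        · exact continuous_apply i
        · exact continuous_const
    exact hc.comp h1
  · refine (hb c s G).trans (mul_le_mul_of_nonneg_left (pow_le_pow_left₀ ?_ (by linarith) K) hC0)
    have := sum_nonneg fun i (_ : i ∈ univ) => abs_nonneg (G i)
    positivity

variable {b η L τ : ℝ} {n q : ℕ} {gp : (ι → ℝ) → Dbl m → ℝ} {c s : (ι → ℝ) → ℝ}

lemma tame_muG (v : ℝ) (hgp : ∀ k, Continuous fun g => gp g k) (k : Fin m) :
    Tame fun g => muG v τ (gp g) k := by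
  have h := continuous_pl v τ (f := fun g k => gp g (.inl k))
    (continuous_pi fun k => hgp (.inl k))
  have h2 := (continuous_mg k).comp h
  exact Tame.of_bounded h2 fun g => abs_muG v τ (gp g) k

lemma tame_deltG (v : ℝ) (hgp : ∀ k, Continuous fun g => gp g k) (i j k : Fin m) :
    Tame fun g => deltG v τ (gp g) i j k := by
  have hf := continuous_pl v τ (f := fun g k => gp g (.inl k))
    (continuous_pi fun k => hgp (.inl k))
  have h3 := fun a c d : Fin m => Tame.of_bounded (ι := ι)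
    (((continuous_cm3 a c d).comp hf)) (fun g => abs_cm3_le _ _ a c d)
  have h2 := fun a c : Fin m => Tame.of_bounded (ι := ι)
    (((continuous_cm2 a c).comp hf)) (fun g => abs_cm2_le _ _ a c)
  have h1 := fun a : Fin m => tame_muG (τ := τ) v hgp a
  exact ((h3 k i j).add ((h2 k i).mul (h1 j))).add ((h2 k j).mul (h1 i))

lemma mt_wG (v : ℝ) (hgp : ∀ k, Tame fun g => gp g k) (hc : Tame c) (hs : Tame s) :
    MT fun g => wG v (c g) (s g) (gp g) :=
  mt_cpl v fun _ => (hc.mul (hgp _)).add (hs.mul (hgp _))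

lemma mt_nG (hη : 0 < η) (hgp : ∀ k, Tame fun g => gp g k) (hc : Tame c) (hs : Tame s) :
    MT fun g => nG b η n L τ (c g) (s g) (gp g) :=
  mt_nm hη (tame_muG _ fun k => (hgp k).1) (fun _ => abs_muG _ _ _) (mt_wG _ hgp hc hs)

lemma mt_hG (hη : 0 < η) (hgp : ∀ k, Tame fun g => gp g k) (hc : Tame c) (hs : Tame s) :
    MT fun g => hG b η n L τ (c g) (s g) q (gp g) :=
  MT.smul ((tame_rr (tame_muG _ fun k => (hgp k).1)).pow 2) ((mt_nG hη hgp hc hs).pow (q + 1))

lemma mt_yG (hη : 0 < η) (hgp : ∀ k, Tame fun g => gp g k) (hc : Tame c) (hs : Tame s)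
    (e : Edge m) : MT fun g => yG b η n L τ (c g) (s g) q e (gp g) := by
  have hμ := fun k => tame_muG (τ := τ) (b ^ 2 / (n:ℝ)) (fun k => (hgp k).1) k
  have hw : MT fun _ : ι → ℝ => wd (b ^ 2 / n) (fun e' : Edge m => if e' = e then (1:ℝ) else 0) :=
    fun i j => Tame.const _
  exact MT.smul ((tame_rr hμ).pow 2) (MT.msum fun l _ => (((mt_nG hη hgp hc hs).pow l).mul
    (((mt_qm hμ).mul hw).mul (mt_qm hμ))).mul ((mt_nG hη hgp hc hs).pow (q - l)))

lemma mt_dG (hη : 0 < η) (hgp : ∀ k, Tame fun g => gp g k) (hc : Tame c) (hs : Tame s)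
    (i j : Fin m) : MT fun g => dG b η n L τ (c g) (s g) q i j (gp g) :=
  mt_dh hη (tame_muG _ fun k => (hgp k).1) (tame_deltG _ (fun k => (hgp k).1) i j)
    (fun _ => abs_muG _ _ _) (mt_wG _ hgp hc hs) q

end tame

section stein

variable {b η L τ : ℝ} {n : ℕ}

lemma wd_smul (v x : ℝ) (a : Edge m → ℝ) : wd v (fun e => x * a e) = x • wd v a := by
  ext i j
  simp only [wd, sym_smul, Matrix.smul_apply, smul_eq_mul]
  ring

lemma update_inl (G : Dbl m → ℝ) (k : Idx m) (t : ℝ) :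
    (fun k' => Function.update G (.inl k) t (.inl k')) =
      Function.update (fun k' => G (.inl k')) k t := by
  funext k'
  by_cases h : k' = k
  · subst h; simp
  · simp [h]

lemma hasDerivAt_update_apply {α : Type*} [DecidableEq α] (g : α → ℝ) (i j : α) (t : ℝ) :
    HasDerivAt (fun s => Function.update g i s j) (if j = i then (1:ℝ) else 0) t := by
  by_cases h : j = i
  · subst h; simp only [Function.update_self, if_true]; exact hasDerivAt_id' t
  · rw [if_neg h]; simpa [h] using hasDerivAt_const t (g j)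

/-- Integration by parts with any decidable equality on the coordinates. -/
lemma ibp' {ι : Type*} [Fintype ι] [DecidableEq ι] {F D : (ι → ℝ) → ℝ} {i : ι} (hF : Tame F)
    (hD : Tame D)
    (hd : ∀ g t, HasDerivAt (fun s => F (Function.update g i s)) (D (Function.update g i t)) t) :
    ∫ g, g i * F g ∂gauss ι = ∫ g, D g ∂gauss ι := by
  refine ibp hF hD fun g t => ?_
  simpa only [update_eq_upd] using hd g t

lemma stein (hη : 0 < η) (c s : ℝ) (q : ℕ) (e : Edge m) :
    ∫ G, (-s * G (.inl (.inl e)) + c * G (.inr e)) * hG b η n L τ c s q G e.1.1 e.1.2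
        ∂gauss (Dbl m) =
      -(s * √(b ^ 2 / n)) * ∫ G, dG b η n L τ c s q e.1.1 e.1.2 G e.1.1 e.1.2 ∂gauss (Dbl m) := by
  have hgp : ∀ k : Dbl m, Tame fun g : Dbl m → ℝ => g k := fun k => Tame.coord k
  have hF := mt_hG (b := b) (η := η) (n := n) (L := L) (τ := τ) (q := q) (c := fun _ => c)
    (s := fun _ => s) hη hgp (Tame.const c) (Tame.const s) e.1.1 e.1.2
  have hY := mt_yG (b := b) (η := η) (n := n) (L := L) (τ := τ) (q := q) (c := fun _ => c)
    (s := fun _ => s) hη hgp (Tame.const c) (Tame.const s) e e.1.1 e.1.2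
  have hD := mt_dG (b := b) (η := η) (n := n) (L := L) (τ := τ) (q := q) (c := fun _ => c)
    (s := fun _ => s) hη hgp (Tame.const c) (Tame.const s) e.1.1 e.1.2 e.1.1 e.1.2
  set v := b ^ 2 / (n:ℝ) with hv
  set one : Edge m → ℝ := fun e' => if e' = e then (1:ℝ) else 0 with hone
  have hW : ∀ (k : Dbl m) (x : ℝ) (G : Dbl m → ℝ) (t : ℝ),
      (∀ e', c * (if (Sum.inl (Sum.inl e') : Dbl m) = k then (1:ℝ) else 0) +
        s * (if (Sum.inr e' : Dbl m) = k then (1:ℝ) else 0) = x * one e') →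
      MD (fun r => wG v c s (Function.update G k r)) (x • wd v one) t := by
    intro k x G t hx
    rw [← wd_smul]
    refine md_cpl v fun e' => ?_
    rw [← hx e']
    exact ((hasDerivAt_update_apply G k _ t).const_mul c).add
      ((hasDerivAt_update_apply G k _ t).const_mul s)
  have d1 := ibp' (i := (Sum.inl (Sum.inl e) : Dbl m)) hF
    (((Tame.const √v).mul hD).add ((Tame.const c).mul hY)) fun G t => by
    set G' := Function.update G (Sum.inl (Sum.inl e)) t
    have hμ : ∀ k, HasDerivAt (fun r => muG v τ (Function.update G (Sum.inl (Sum.inl e)) r) k)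
        (√v * deltG v τ G' e.1.1 e.1.2 k) t := fun k => by
      simp only [muG, deltG, G', update_inl]
      exact hasDerivAt_mg_edge v τ _ e k t
    have hw := hW (Sum.inl (Sum.inl e)) c G t fun e' => by simp [hone]
    have h := md_h (b := b) (η := η) (n := n) (L := L) (δ := √v • deltG v τ G' e.1.1 e.1.2) hη
      (fun k => abs_muG _ _ _ k) (fun k => by simpa using hμ k) hw q e.1.1 e.1.2
    simp only [hG, nG, ← hv] at h ⊢
    refine h.congr_deriv ?_
    simp only [dG, yG, nG, G', dh_smul, Matrix.mul_smul, Matrix.smul_mul, ← smul_sum,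
      Matrix.add_apply, Matrix.smul_apply, smul_eq_mul, ← hv, ← hone]
    ring
  have d2 := ibp' (i := (Sum.inr e : Dbl m)) hF ((Tame.const s).mul hY) fun G t => by
    set G' := Function.update G (Sum.inr e) t
    have hμ : ∀ k, HasDerivAt (fun r => muG v τ (Function.update G (Sum.inr e) r) k)
        ((0 : Vec m) k) t := fun k => by
      simp only [muG, ne_eq, reduceCtorEq, not_false_eq_true, Function.update_of_ne, Pi.zero_apply]
      exact hasDerivAt_const t _
    have hw := hW (Sum.inr e) s G t fun e' => by simp [hone]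
    have h := md_h (b := b) (η := η) (n := n) (L := L) hη
      (fun k => abs_muG _ _ _ k) hμ hw q e.1.1 e.1.2
    simp only [hG, nG, ← hv] at h ⊢
    refine h.congr_deriv ?_
    simp only [yG, nG, G', dh_zero, Matrix.mul_smul, Matrix.smul_mul, ← smul_sum,
      Matrix.add_apply, Matrix.smul_apply, Matrix.zero_apply, smul_eq_mul, ← hv, ← hone]
    ring
  have i1 := ((Tame.coord (Sum.inl (Sum.inl e) : Dbl m)).mul hF).integrable
  have i2 := ((Tame.coord (Sum.inr e : Dbl m)).mul hF).integrable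
  have e0 : (fun G : Dbl m → ℝ =>
      (-s * G (.inl (.inl e)) + c * G (.inr e)) * hG b η n L τ c s q G e.1.1 e.1.2) = fun G =>
      -s * (G (.inl (.inl e)) * hG b η n L τ c s q G e.1.1 e.1.2) +
        c * (G (.inr e) * hG b η n L τ c s q G e.1.1 e.1.2) := funext fun G => by ring
  rw [e0, integral_add (i1.const_mul _) (i2.const_mul _), integral_const_mul, integral_const_mul,
    d1, d2, integral_add ((hD.integrable).const_mul _) ((hY.integrable).const_mul _),
    integral_const_mul, integral_const_mul]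
  erw [integral_const_mul]
  ring

/-- The function that controls the derivative. -/
noncomputable def xG (b η : ℝ) (n : ℕ) (L τ c s : ℝ) (G : Dbl m → ℝ) : ℝ :=
  (9 * (L + op (wG (b ^ 2 / n) c s G)) + 2 + 2 / η ^ 2) *
    (√(sq3 (cm3 (plJ (b ^ 2 / n) fun k => G (.inl k)) (plU τ fun k => G (.inl k)))) +
      √(sq2 (cm2 (plJ (b ^ 2 / n) fun k => G (.inl k)) (plU τ fun k => G (.inl k)))))

lemma xG_nonneg (hη : 0 < η) (hL : 1 / η + b ^ 2 ≤ L) (c s : ℝ) (G : Dbl m → ℝ) :
    0 ≤ xG b η n L τ c s G := by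
  have hL0 : 0 ≤ L := le_trans (by positivity) hL
  have := op_nonneg (wG (b ^ 2 / n) c s G)
  unfold xG
  positivity

lemma tame_xG (c s : ℝ) : Tame fun G : Dbl m → ℝ => xG b η n L τ c s G := by
  have hgp : ∀ k : Dbl m, Tame fun g : Dbl m → ℝ => g k := fun k => Tame.coord k
  set v := b ^ 2 / (n:ℝ)
  have hw := mt_wG (m := m) v (c := fun _ => c) (s := fun _ => s) hgp (Tame.const c) (Tame.const s)
  have hop : Tame fun G : Dbl m → ℝ => op (wG v c s G) := by
    refine tame_of_le (continuous_op.comp (continuous_pi fun i => continuous_pi fun j => (hw i j).1))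
      ((Tame.const 1).add (Tame.sum (s := (univ : Finset (Fin m))) fun i _ =>
        Tame.sum (s := (univ : Finset (Fin m))) fun j _ => (hw i j).pow 2)) fun G => ?_
    refine (abs_of_nonneg (op_nonneg _)).trans_le ?_
    refine (op_le_frob _).trans (Real.sqrt_le_iff.2 ⟨add_nonneg zero_le_one (sq2_nonneg _), ?_⟩)
    show sq2 (wG v c s G) ≤ (1 + sq2 (wG v c s G)) ^ 2
    nlinarith [sq2_nonneg (wG v c s G), sq_nonneg (sq2 (wG v c s G))]
  have hf := continuous_pl v τ (f := fun (G : Dbl m → ℝ) k => G (.inl k))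
    (continuous_pi fun k => continuous_apply _)
  have h3 : Tame fun G : Dbl m → ℝ =>
      √(sq3 (cm3 (plJ v fun k => G (.inl k)) (plU τ fun k => G (.inl k)))) := by
    refine Tame.of_bounded ?_ (fun G => ?_) (B := √(∑ _i : Fin m, ∑ _j : Fin m, ∑ _k : Fin m, 64))
    · refine Real.continuous_sqrt.comp ?_
      exact continuous_finsetSum _ fun i _ => continuous_finsetSum _ fun j _ =>
        continuous_finsetSum _ fun k _ => ((continuous_cm3 i j k).comp hf).pow 2
    · rw [abs_of_nonneg (Real.sqrt_nonneg _)]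
      refine Real.sqrt_le_sqrt (sum_le_sum fun i _ => sum_le_sum fun j _ => sum_le_sum fun k _ => ?_)
      rw [← sq_abs]
      exact (pow_le_pow_left₀ (abs_nonneg _) (abs_cm3_le _ _ i j k) 2).trans_eq (by norm_num)
  have h2 : Tame fun G : Dbl m → ℝ =>
      √(sq2 (cm2 (plJ v fun k => G (.inl k)) (plU τ fun k => G (.inl k)))) := by
    refine Tame.of_bounded ?_ (fun G => ?_) (B := √(∑ _i : Fin m, ∑ _j : Fin m, 16))
    · refine Real.continuous_sqrt.comp ?_
      exact continuous_finsetSum _ fun i _ => continuous_finsetSum _ fun j _ =>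
        ((continuous_cm2 i j).comp hf).pow 2
    · rw [abs_of_nonneg (Real.sqrt_nonneg _)]
      refine Real.sqrt_le_sqrt (sum_le_sum fun i _ => sum_le_sum fun j _ => ?_)
      rw [← sq_abs]
      exact (pow_le_pow_left₀ (abs_nonneg _) (abs_cm2_le _ _ i j) 2).trans_eq (by norm_num)
  exact ((((Tame.const 9).mul ((Tame.const L).add hop)).add (Tame.const 2)).add (Tame.const _)).mul
    (h3.add h2)

/-- The deterministic bound on the contracted derivative. -/
lemma sum_dG_le (hη : 0 < η) (hb : |b| ≤ 1) (hn : 0 < n) (hmn : m ≤ n) (hL : 1 / η + b ^ 2 ≤ L)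
    (c s : ℝ) {q : ℕ} (hq : q ≠ 0) (hqe : Even q) (G : Dbl m → ℝ) :
    |∑ e : Edge m, dG b η n L τ c s q e.1.1 e.1.2 G e.1.1 e.1.2| ≤
      ((q:ℝ) + 1) * xG b η n L τ c s G * (nG b η n L τ c s G ^ q).trace := by
  have hL0 : 0 ≤ L := le_trans (by positivity) hL
  have hsym := sum_sym_eq (f := fun i j => dG b η n L τ c s q i j G i j) fun i j => by
    simp only [dG, deltG, delt_comm _ _ j i]
    exact (congrFun (congrFun (transpose_dh (transpose_wG _ _ _ G) q) i) j).symm
  have hdiag : ∑ i, dG b η n L τ c s q i i G i i = 0 :=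
    sum_eq_zero fun i _ => by simp [dG, deltG, delt_self, dh_zero]
  rw [hdiag, add_zero] at hsym
  have h := core_le (b := b) (η := η) (L := L) (n := n) (μ := muG (b ^ 2 / n) τ G)
    (W := wG (b ^ 2 / n) c s G)
    (T := cm3 (plJ (b ^ 2 / n) fun k => G (.inl k)) (plU τ fun k => G (.inl k)))
    (C := cm2 (plJ (b ^ 2 / n) fun k => G (.inl k)) (plU τ fun k => G (.inl k)))
    (δ := deltG (b ^ 2 / n) τ G) (Ω := L + op (wG (b ^ 2 / n) c s G))
    (abs_muG _ _ _) hmn hn hη hb (add_nonneg hL0 (op_nonneg _)) (transpose_wG _ _ _ G)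
    (fun x => (sq1_op_le _ x).trans (mul_le_mul_of_nonneg_right (pow_le_pow_left₀ (op_nonneg _)
      (op_zm_le hη (abs_muG _ _ _) hmn hL) 2) (sq1_nonneg x)))
    (fun k i j => cm3_swap23 _ _ k i j) (fun i j k => cm3_swap12 _ _ i j k)
    (fun i j k => rfl) hq hqe
  simp only [dG] at hsym ⊢
  rw [hsym, abs_mul, abs_two] at h
  simp only [xG, nG]
  linarith

/-- `E tr N^(2k+2)` along the interpolation. -/
noncomputable def phi (b η : ℝ) (n : ℕ) (L τ : ℝ) (m k : ℕ) (θ : ℝ) : ℝ :=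
  ∫ G : Dbl m → ℝ, (nG b η n L τ (cos θ) (sin θ) G ^ (2 * k + 2)).trace ∂gauss (Dbl m)

lemma hasDerivAt_phi (hη : 0 < η) (k : ℕ) (θ : ℝ) :
    HasDerivAt (phi b η n L τ m k)
      (-(4 * ((k:ℝ) + 1) * (b ^ 2 / n) * sin θ) * ∫ G : Dbl m → ℝ, ∑ e : Edge m,
        dG b η n L τ (cos θ) (sin θ) (2 * k) e.1.1 e.1.2 G e.1.1 e.1.2 ∂gauss (Dbl m)) θ := by
  set v := b ^ 2 / (n:ℝ) with hv
  set P : ℝ → ℝ → (Dbl m → ℝ) → ℝ := fun c s G => ((2 * k : ℕ) + 2 : ℝ) * (2 * √v) *
    ∑ e : Edge m, (-s * G (.inl (.inl e)) + c * G (.inr e)) * hG b η n L τ c s (2 * k) G e.1.1 e.1.2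
    with hP
  have hPt : Tame fun H : Dbl m ⊕ Bool → ℝ =>
      P (H (.inr true)) (H (.inr false)) fun i => H (.inl i) := by
    refine (Tame.const _).mul (Tame.sum fun e _ => ?_)
    refine (((Tame.coord (Sum.inr false : Dbl m ⊕ Bool)).neg.mul (Tame.coord _)).add
      ((Tame.coord (Sum.inr true : Dbl m ⊕ Bool)).mul (Tame.coord _))).mul ?_
    exact mt_hG hη (gp := fun (H : Dbl m ⊕ Bool → ℝ) i => H (.inl i)) (fun i => Tame.coord _)
      (Tame.coord _) (Tame.coord _) e.1.1 e.1.2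
  obtain ⟨hP1, B, hB, hPB⟩ := tame_param hPt
  have hN : ∀ c s, Tame fun G : Dbl m → ℝ => (nG b η n L τ c s G ^ (2 * k + 2)).trace := fun c s =>
    ((mt_nG (c := fun _ => c) (s := fun _ => s) hη (fun i => Tame.coord i) (Tame.const c)
      (Tame.const s)).pow _).trace
  have hd : ∀ G θ, HasDerivAt (fun r => (nG b η n L τ (cos r) (sin r) G ^ (2 * k + 2)).trace)
      (P (cos θ) (sin θ) G) θ := by
    intro G θ
    have hw : MD (fun r => wG v (cos r) (sin r) G)
        (wd v fun e => -sin θ * G (.inl (.inl e)) + cos θ * G (.inr e)) θ :=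
      md_cpl v fun e => ((hasDerivAt_cos θ).mul_const _).add ((hasDerivAt_sin θ).mul_const _)
    have hN' : MD (fun r => nG b η n L τ (cos r) (sin r) G)
        (qm n (muG v τ G) * wd v (fun e => -sin θ * G (.inl (.inl e)) + cos θ * G (.inr e)) *
          qm n (muG v τ G)) θ := by
      intro i j
      refine ((((MD.const (qm n (muG v τ G)) θ).mul ((MD.const _ θ).add hw)).mul
        (MD.const (qm n (muG v τ G)) θ)) i j).congr_deriv ?_
      simp
    refine (hN'.trace_pow (2 * k + 1)).congr_deriv ?_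
    set a := fun e : Edge m => -sin θ * G (.inl (.inl e)) + cos θ * G (.inr e) with ha
    set N := nG b η n L τ (cos θ) (sin θ) G with hNd
    have hW := transpose_wG v (cos θ) (sin θ) G
    have e1 : (N ^ (2 * k + 1) * (qm n (muG v τ G) * wd v a * qm n (muG v τ G))).trace =
        rr n (muG v τ G) ^ 2 * (N ^ (2 * k + 1) * wd v a).trace := by
      rw [← mul_assoc, ← mul_assoc, Matrix.trace_mul_cycle, ← mul_assoc, hNd, nG, ← hv,
        qm_nm_pow_qm hW (by omega), Matrix.smul_mul, Matrix.trace_smul, smul_eq_mul]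
    have hsN : ∀ i j, (N ^ (2 * k + 1)) i j = (N ^ (2 * k + 1)) j i := fun i j => by
      have := congrFun (congrFun ((Matrix.transpose_pow N (2 * k + 1)).trans
        (congrArg (· ^ (2 * k + 1)) (transpose_nm hW))) j) i
      rw [Matrix.transpose_apply] at this
      exact this
    have e2 : (N ^ (2 * k + 1) * wd v a).trace =
        2 * √v * ∑ e : Edge m, a e * (N ^ (2 * k + 1)) e.1.1 e.1.2 := by
      simp only [Matrix.trace, Matrix.diag, Matrix.mul_apply, wd]
      rw [sum_sym_eq fun i j => by rw [hsN i j, sym_comm a i j]]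
      simp only [sym_self, mul_zero, sum_const_zero, add_zero, mul_sum]
      refine sum_congr rfl fun e _ => ?_
      rw [sym_comm, sym_of_lt a e.2]
      ring
    rw [e1, e2]
    simp only [hP, hG, Matrix.smul_apply, smul_eq_mul, mul_sum, ← hv, hNd, ha]
    refine sum_congr rfl fun e _ => ?_
    push_cast
    ring
  obtain ⟨-, h⟩ := hasDerivAt_integral_of_dominated_loc_of_deriv_le
    (F := fun r G => (nG b η n L τ (cos r) (sin r) G ^ (2 * k + 2)).trace)
    (F' := fun r G => P (cos r) (sin r) G) (bound := B) (μ := gauss (Dbl m)) (s := Set.univ)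
    (x₀ := θ) Filter.univ_mem (Filter.Eventually.of_forall fun r => (hN _ _).1.aestronglyMeasurable)
    (hN _ _).integrable (hP1 _ _).1.aestronglyMeasurable
    (ae_of_all _ fun G r _ => by
      rw [Real.norm_eq_abs]
      exact hPB _ _ (abs_cos_le_one r) (abs_sin_le_one r) G)
    hB.integrable (ae_of_all _ fun G r _ => hd G r)
  refine h.congr_deriv ?_
  have hgp : ∀ i : Dbl m, Tame fun g : Dbl m → ℝ => g i := fun i => Tame.coord i
  have i1 : ∀ e : Edge m, Integrable (fun G : Dbl m → ℝ =>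
      (-sin θ * G (.inl (.inl e)) + cos θ * G (.inr e)) *
        hG b η n L τ (cos θ) (sin θ) (2 * k) G e.1.1 e.1.2) (gauss (Dbl m)) := fun e =>
    ((((Tame.const _).mul (hgp _)).add ((Tame.const _).mul (hgp _))).mul
      (mt_hG (c := fun _ => cos θ) (s := fun _ => sin θ) hη hgp (Tame.const _) (Tame.const _)
        e.1.1 e.1.2)).integrable
  have i2 : ∀ e : Edge m, Integrable (fun G : Dbl m → ℝ =>
      dG b η n L τ (cos θ) (sin θ) (2 * k) e.1.1 e.1.2 G e.1.1 e.1.2) (gauss (Dbl m)) := fun e =>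
    (mt_dG (c := fun _ => cos θ) (s := fun _ => sin θ) hη hgp (Tame.const _) (Tame.const _)
      e.1.1 e.1.2 e.1.1 e.1.2).integrable
  simp only [hP]
  rw [integral_const_mul, integral_finsetSum _ fun e _ => i1 e,
    integral_finsetSum _ fun e _ => i2 e, sum_congr rfl fun e _ => stein hη (cos θ) (sin θ) (2 * k) e]
  have hvs : √v * √v = v := Real.mul_self_sqrt (by positivity)
  simp only [mul_sum]
  refine sum_congr rfl fun e _ => ?_
  rw [← hv]
  push_cast
  linear_combination (-(2 * ((2 * (k:ℝ)) + 2)) * sin θ *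
    (∫ G : Dbl m → ℝ, dG b η n L τ (cos θ) (sin θ) (2 * k) e.1.1 e.1.2 G e.1.1 e.1.2
      ∂gauss (Dbl m))) * hvs

lemma young_pow {a X Γ Y : ℝ} (ha : 0 ≤ a) (hX : 0 ≤ X) (hΓ : 0 < Γ) (hY : 0 < Y) (k : ℕ) :
    a ^ k * X ≤ Y / Γ * (a ^ (k + 1) + Γ ^ (k + 1) * (X / Y) ^ (k + 1)) := by
  have e : X = Y / Γ * (Γ * X / Y) := by field_simp
  have e2 : Γ ^ (k + 1) * (X / Y) ^ (k + 1) = (Γ * X / Y) ^ (k + 1) := by
    rw [← mul_pow, mul_div_assoc]
  rw [e2]
  nth_rewrite 1 [e]
  rw [mul_left_comm]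
  refine mul_le_mul_of_nonneg_left ?_ (by positivity)
  set c := Γ * X / Y
  have hc : 0 ≤ c := by positivity
  rcases le_total c a with h | h
  · exact ((mul_le_mul_of_nonneg_left h (by positivity)).trans_eq (pow_succ a k).symm).trans
      (le_add_of_nonneg_right (by positivity))
  · exact ((mul_le_mul_of_nonneg_right (pow_le_pow_left₀ ha h k) hc).trans_eq
      (pow_succ c k).symm).trans (le_add_of_nonneg_left (by positivity))

lemma trace_young {A : MM m} (hA : Aᵀ = A) {X Γ Y : ℝ} (hX : 0 ≤ X) (hΓ : 0 < Γ) (hY : 0 < Y)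
    (k : ℕ) : X * (A ^ (2 * k)).trace ≤
      Y / Γ * ((A ^ (2 * k + 2)).trace + m * (Γ ^ (k + 1) * (X / Y) ^ (k + 1))) := by
  obtain ⟨l, φ, hN, ho⟩ := exists_eigen (isHermitian_of hA)
  rw [trace_pow hN ho, trace_pow hN ho, mul_sum]
  refine (sum_le_sum fun a _ => (le_of_eq_of_le ?_ (young_pow (sq_nonneg (l a)) hX hΓ hY k))).trans_eq
    ?_
  · rw [← pow_mul]; ring
  · rw [← mul_sum, sum_add_distrib, sum_const, card_univ, Fintype.card_fin, nsmul_eq_mul]
    simp only [← pow_mul, show 2 * (k + 1) = 2 * k + 2 by ring]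

/-- The Grönwall bound along the interpolation. -/
theorem interp_le (hη : 0 < η) (hb : |b| ≤ 1) (hn : 0 < n) (hmn : m ≤ n)
    (hL : 1 / η + b ^ 2 ≤ L) {k : ℕ} (hk : k ≠ 0) {Y Γ : ℝ} (hY : 0 < Y) (hΓ : 0 < Γ)
    (hX : ∀ c s : ℝ, |c| ≤ 1 → |s| ≤ 1 →
      ∫ G : Dbl m → ℝ, xG b η n L τ c s G ^ (k + 1) ∂gauss (Dbl m) ≤ Y ^ (k + 1)) :
    phi b η n L τ m k 0 + m * Γ ^ (k + 1) ≤
      exp (8 * ((k:ℝ) + 1) ^ 2 * (b ^ 2 / n) * (Y / Γ) * (π / 2)) *
        (phi b η n L τ m k (π / 2) + m * Γ ^ (k + 1)) := by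
  set D := 8 * ((k:ℝ) + 1) ^ 2 * (b ^ 2 / n) * (Y / Γ) with hD
  set R := (m:ℝ) * Γ ^ (k + 1) with hR
  set d := fun θ => -(4 * ((k:ℝ) + 1) * (b ^ 2 / n) * sin θ) * ∫ G : Dbl m → ℝ, ∑ e : Edge m,
    dG b η n L τ (cos θ) (sin θ) (2 * k) e.1.1 e.1.2 G e.1.1 e.1.2 ∂gauss (Dbl m) with hd
  have hder := fun θ => hasDerivAt_phi (m := m) (b := b) (η := η) (n := n) (L := L) (τ := τ) hη k θ
  have hbound : ∀ θ, |d θ| ≤ D * (phi b η n L τ m k θ + R) := by
    intro θ
    have hc := abs_cos_le_one θ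
    have hs := abs_sin_le_one θ
    set c := cos θ
    set s := sin θ
    have hgp : ∀ i : Dbl m, Tame fun g : Dbl m → ℝ => g i := fun i => Tame.coord i
    have hx := tame_xG (m := m) (b := b) (η := η) (n := n) (L := L) (τ := τ) c s
    have hN := fun j : ℕ => ((mt_nG (b := b) (η := η) (n := n) (L := L) (τ := τ) (c := fun _ => c)
      (s := fun _ => s) hη hgp (Tame.const c) (Tame.const s)).pow j).trace
    have h1 : |∫ G : Dbl m → ℝ, ∑ e : Edge m, dG b η n L τ c s (2 * k) e.1.1 e.1.2 G e.1.1 e.1.2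
        ∂gauss (Dbl m)| ≤ 2 * ((k:ℝ) + 1) * ∫ G : Dbl m → ℝ,
          xG b η n L τ c s G * (nG b η n L τ c s G ^ (2 * k)).trace ∂gauss (Dbl m) := by
      rw [← integral_const_mul, ← Real.norm_eq_abs]
      refine norm_integral_le_of_norm_le (((hx.mul (hN _)).integrable).const_mul _)
        (ae_of_all _ fun G => ?_)
      rw [Real.norm_eq_abs]
      refine (sum_dG_le hη hb hn hmn hL c s (by omega) (even_two_mul k) G).trans ?_
      rw [mul_assoc]
      refine mul_le_mul_of_nonneg_right (by push_cast; linarith) (mul_nonneg (xG_nonneg hη hL c s G)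
        (trace_pow_nonneg (transpose_nm (transpose_wG _ _ _ G)) (even_two_mul k)))
    have hpt := fun G : Dbl m → ℝ => trace_young (k := k)
      (A := nG b η n L τ c s G) (transpose_nm (transpose_wG _ _ _ G))
      (xG_nonneg (b := b) (η := η) (n := n) (τ := τ) hη hL c s G) hΓ hY
    have hxp : Integrable (fun G : Dbl m → ℝ => (m:ℝ) * (Γ ^ (k + 1) *
        (xG b η n L τ c s G / Y) ^ (k + 1))) (gauss (Dbl m)) := by
      simp only [div_pow]
      exact ((((hx.pow (k + 1)).integrable).div_const _).const_mul _).const_mul _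
    have h2 := integral_mono ((hx.mul (hN (2 * k))).integrable)
      ((((hN (2 * k + 2)).integrable).fun_add hxp).const_mul (Y / Γ)) hpt
    rw [integral_const_mul, integral_add ((hN (2 * k + 2)).integrable) hxp, integral_const_mul,
      integral_const_mul] at h2
    simp only [div_pow, integral_div] at h2
    have h3 : (∫ G : Dbl m → ℝ, xG b η n L τ c s G ^ (k + 1) ∂gauss (Dbl m)) / Y ^ (k + 1) ≤ 1 :=
      (div_le_one (pow_pos hY _)).2 (hX c s hc hs)
    have h4 : (m:ℝ) * (Γ ^ (k + 1) *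
        ((∫ G : Dbl m → ℝ, xG b η n L τ c s G ^ (k + 1) ∂gauss (Dbl m)) / Y ^ (k + 1))) ≤ R := by
      rw [hR]
      exact mul_le_mul_of_nonneg_left (mul_le_of_le_one_right (by positivity) h3) (Nat.cast_nonneg m)
    have h5 := h2.trans (mul_le_mul_of_nonneg_left (add_le_add le_rfl h4) (by positivity))
    rw [hd]
    simp only [abs_mul, abs_neg]
    refine (mul_le_mul ?_ (h1.trans (mul_le_mul_of_nonneg_left h5 (by positivity))) (abs_nonneg _)
      (by positivity : (0:ℝ) ≤ 4 * ((k:ℝ) + 1) * (b ^ 2 / n))).trans_eq ?_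
    · rw [abs_of_nonneg (by norm_num : (0:ℝ) ≤ 4), abs_of_nonneg (by positivity : (0:ℝ) ≤ (k:ℝ) + 1),
        abs_of_nonneg (by positivity : (0:ℝ) ≤ b ^ 2 / n)]
      exact mul_le_of_le_one_right (by positivity) hs
    · rw [hD, phi]; ring
  have hψ : ∀ θ, HasDerivAt (fun r => exp (D * r) * (phi b η n L τ m k r + R))
      (exp (D * θ) * (D * (phi b η n L τ m k θ + R) + d θ)) θ := fun θ => by
    refine (((hasDerivAt_id' θ).const_mul D).exp.mul ((hder θ).add_const R)).congr_deriv ?_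
    rw [hd]; ring
  have h := (monotone_of_hasDerivAt_nonneg hψ fun θ => mul_nonneg (exp_pos _).le
    (by linarith [neg_abs_le (d θ), hbound θ])) (by positivity : (0:ℝ) ≤ π / 2)
  simpa [hD] using h

end stein

section moment

variable {b η L τ : ℝ} {n : ℕ}

lemma add3_pow_le {x y z : ℝ} (hx : 0 ≤ x) (hy : 0 ≤ y) (hz : 0 ≤ z) (k : ℕ) :
    (x + y + z) ^ k ≤ 3 ^ k * (x ^ k + y ^ k + z ^ k) := by
  have h : (x + y + z) ^ k ≤ (3 * max x (max y z)) ^ k :=
    pow_le_pow_left₀ (by positivity) (by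
      linarith [le_max_left x (max y z), (le_max_left y z).trans (le_max_right x (max y z)),
        (le_max_right y z).trans (le_max_right x (max y z))]) k
  refine h.trans ?_
  rw [mul_pow]
  refine mul_le_mul_of_nonneg_left ?_ (by positivity)
  have := pow_nonneg hx k
  have := pow_nonneg hy k
  have := pow_nonneg hz k
  rcases max_choice x (max y z) with e | e <;> rw [e]
  · linarith
  · rcases max_choice y z with e | e <;> rw [e] <;> linarith

lemma sqrt_add_pow_le {x y cc : ℝ} (hx : 0 ≤ x) (hy : 0 ≤ y) (hcc : 0 < cc) (p : ℕ) :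
    ((√x + √y) ^ 2 / cc) ^ p ≤ (4 / cc) ^ p * (x ^ p + y ^ p) := by
  have h4 : (√x + √y) ^ 2 ≤ 2 * (x + y) := by
    nlinarith [sq_nonneg (√x - √y), Real.sq_sqrt hx, Real.sq_sqrt hy]
  have h5 : (x + y) ^ p ≤ 2 ^ p * (x ^ p + y ^ p) := by
    refine (add_pow_le hx hy p).trans (mul_le_mul_of_nonneg_right ?_ (by positivity))
    exact pow_le_pow_right₀ one_le_two (Nat.sub_le p 1)
  rw [div_pow, div_pow, div_mul_eq_mul_div]
  refine div_le_div_of_nonneg_right ?_ (by positivity)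
  refine (pow_le_pow_left₀ (sq_nonneg _) h4 p).trans ?_
  rw [mul_pow]
  refine (mul_le_mul_of_nonneg_left h5 (by positivity)).trans_eq ?_
  rw [← mul_assoc, ← mul_pow]
  norm_num

/-- The controlling function against moments of its factors. -/
lemma xG_pow_le (hη : 0 < η) (hv0 : 0 ≤ b ^ 2 / (n:ℝ)) (hvm : b ^ 2 / (n:ℝ) * m ≤ 1) (hL0 : 0 ≤ L)
    {A0 cc : ℝ} (hA0 : A0 = 9 * L + 29 + 2 / η ^ 2) (hcc0 : 0 < cc) {c s : ℝ} (hc : |c| ≤ 1)
    (hs : |s| ≤ 1) (p : ℕ) (G : Dbl m → ℝ) :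
    xG b η n L τ c s G ^ p ≤
      cc ^ p / 2 * (3 ^ (2 * p) * (A0 ^ (2 * p) +
        9 ^ (2 * p) * op (cpl (b ^ 2 / n) fun e => G (.inl (.inl e))) ^ (2 * p) +
        9 ^ (2 * p) * op (cpl (b ^ 2 / n) fun e => G (.inr e)) ^ (2 * p))) +
      (4 / cc) ^ p / 2 *
        (sq3 (cm3 (plJ (b ^ 2 / n) fun k => G (.inl k)) (plU τ fun k => G (.inl k))) ^ p +
         sq2 (cm2 (plJ (b ^ 2 / n) fun k => G (.inl k)) (plU τ fun k => G (.inl k))) ^ p) := by
  set v := b ^ 2 / (n:ℝ) with hv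
  have hA00 : 0 ≤ A0 := by rw [hA0]; positivity
  set a := fun G : Dbl m → ℝ => op (cpl v fun e => G (.inl (.inl e))) with ha
  set d := fun G : Dbl m → ℝ => op (cpl v fun e => G (.inr e)) with hd
  set S2 := fun G : Dbl m → ℝ =>
    sq2 (cm2 (plJ v fun k => G (.inl k)) (plU τ fun k => G (.inl k))) with hs2
  set S3 := fun G : Dbl m → ℝ =>
    sq3 (cm3 (plJ v fun k => G (.inl k)) (plU τ fun k => G (.inl k))) with hs3
  show xG b η n L τ c s G ^ p ≤ cc ^ p / 2 * (3 ^ (2 * p) * (A0 ^ (2 * p) +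
    9 ^ (2 * p) * a G ^ (2 * p) + 9 ^ (2 * p) * d G ^ (2 * p))) +
      (4 / cc) ^ p / 2 * (S3 G ^ p + S2 G ^ p)
  set U := 9 * (L + op (wG v c s G)) + 2 + 2 / η ^ 2 with hU
  have ha0 : 0 ≤ a G := op_nonneg _
  have hd0 : 0 ≤ d G := op_nonneg _
  have hU0 : 0 ≤ U := by
    have := op_nonneg (wG v c s G)
    positivity
  have hU1 : U ≤ A0 + 9 * a G + 9 * d G := by
    have := op_cpl_mix hv0 hvm hc hs (fun e => G (.inl (.inl e))) fun e => G (.inr e)
    simp only [hU, hA0, wG, a, d]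
    linarith
  have h3 : 0 ≤ S3 G := sum_nonneg fun _ _ => sq2_nonneg _
  have h2 : 0 ≤ S2 G := sq2_nonneg _
  set S := √(S3 G) + √(S2 G) with hS
  have e : xG b η n L τ c s G = U * S := rfl
  have hS0 : 0 ≤ S := by positivity
  have hUS : (U * S) ^ p ≤ ((U ^ 2 * cc) ^ p + (S ^ 2 / cc) ^ p) / 2 := by
    have e' : ((U * S) ^ p) ^ 2 = (U ^ 2 * cc) ^ p * (S ^ 2 / cc) ^ p := by
      rw [← mul_pow, ← pow_mul, mul_comm p 2, pow_mul]
      congr 1
      field_simp
    nlinarith [sq_nonneg ((U ^ 2 * cc) ^ p - (S ^ 2 / cc) ^ p), pow_nonneg (mul_nonneg hU0 hS0) p,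
      pow_nonneg (mul_nonneg (sq_nonneg U) hcc0.le) p,
      pow_nonneg (div_nonneg (sq_nonneg S) hcc0.le) p]
  have hU2 : (U ^ 2 * cc) ^ p ≤ cc ^ p * (3 ^ (2 * p) * (A0 ^ (2 * p) +
      9 ^ (2 * p) * a G ^ (2 * p) + 9 ^ (2 * p) * d G ^ (2 * p))) := by
    rw [mul_pow, mul_comm, ← pow_mul]
    refine mul_le_mul_of_nonneg_left ((pow_le_pow_left₀ hU0 hU1 _).trans
      ((add3_pow_le hA00 (by positivity) (by positivity) _).trans_eq ?_)) (by positivity)
    rw [mul_pow, mul_pow]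
  have hS2 : (S ^ 2 / cc) ^ p ≤ (4 / cc) ^ p * (S3 G ^ p + S2 G ^ p) :=
    sqrt_add_pow_le h3 h2 hcc0 p
  rw [e]
  linarith

/-- Moments of the controlling function. -/
theorem xG_moment {Cg C1 : ℝ} (hη : 0 < η) (hb : |b| ≤ 1) (hn : 0 < n) (hmn : m ≤ n)
    (hL : 1 / η + b ^ 2 ≤ L) (hC1 : 1 ≤ C1)
    (hE : ∫ a, op (cpl (b ^ 2 / n) a) ∂gauss (Edge m) ≤ C1) {p : ℕ} (hp : 1 ≤ p) (hpn : 2 * p ≤ n)
    (hg2 : pEv b n m τ (fun J u => sq2 (cm2 J u) ^ p) ≤ (Cg * (p * n)) ^ p)
    (hg3 : pEv b n m τ (fun J u => sq3 (cm3 J u) ^ p) ≤ (Cg * (p * n * √(p * n))) ^ p)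
    {c s : ℝ} (hc : |c| ≤ 1) (hs : |s| ≤ 1) :
    ∫ G : Dbl m → ℝ, xG b η n L τ c s G ^ p ∂gauss (Dbl m) ≤
      (9 * (9 * L + 29 + 2 / η ^ 2 + 9 * (400 + 16 * C1)) * √(8 * (|Cg| + 1)) *
        (p * √((n:ℝ) * √n))) ^ p := by
  set v := b ^ 2 / (n:ℝ) with hv
  have hv0 : 0 ≤ v := by positivity
  have hvm : v * m ≤ 1 := by
    have h1 : (m:ℝ) ≤ n := by exact_mod_cast hmn
    have h2 : (0:ℝ) < n := by exact_mod_cast hn
    rw [hv, div_mul_eq_mul_div, div_le_one h2]
    nlinarith [sq_le_one' hb, sq_nonneg b]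
  have hL0 : 0 ≤ L := le_trans (by positivity) hL
  set A0 := 9 * L + 29 + 2 / η ^ 2 with hA0
  set M := 400 + 16 * C1 with hM
  set A1 := 9 * (A0 + 9 * M) with hA1
  set Z := (|Cg| + 1) * ((p:ℝ) ^ 2 * (n * √n)) with hZ
  have hA00 : 0 ≤ A0 := by positivity
  have hA10 : 0 < A1 := by positivity
  have hZ0 : 0 < Z := by positivity
  set a := fun G : Dbl m → ℝ => op (cpl v fun e => G (.inl (.inl e)))
  set d := fun G : Dbl m → ℝ => op (cpl v fun e => G (.inr e))
  set S2 := fun G : Dbl m → ℝ =>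
    sq2 (cm2 (plJ v fun k => G (.inl k)) (plU τ fun k => G (.inl k)))
  set S3 := fun G : Dbl m → ℝ =>
    sq3 (cm3 (plJ v fun k => G (.inl k)) (plU τ fun k => G (.inl k)))
  set cc := √(8 * Z) / A1 with hcc
  have hcc0 : 0 < cc := by positivity
  have hpt : ∀ G, xG b η n L τ c s G ^ p ≤
      cc ^ p / 2 * (3 ^ (2 * p) * (A0 ^ (2 * p) + 9 ^ (2 * p) * a G ^ (2 * p) +
        9 ^ (2 * p) * d G ^ (2 * p))) + (4 / cc) ^ p / 2 * (S3 G ^ p + S2 G ^ p) :=
    xG_pow_le hη hv0 hvm hL0 hA0 hcc0 hc hs p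
  have hEa : Tame fun a' : Edge m → ℝ => op (cpl v a') ^ (2 * p) :=
    (tame_eulip (Real.sqrt_nonneg _) (eulip_op_cpl hv0)).pow _
  have hM' := op_cpl_moment hn hb hC1 hE (k := 2 * p) (by omega) hpn
  have hmp1 : MeasurePreserving (fun G : Dbl m → ℝ => fun e : Edge m => G (.inl (.inl e)))
      (gauss (Dbl m)) (gauss (Edge m)) := gauss_inl.comp gauss_inl
  have hia : Integrable (fun G => a G ^ (2 * p)) (gauss (Dbl m)) :=
    hmp1.integrable_comp_of_integrable hEa.integrable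
  have hid : Integrable (fun G => d G ^ (2 * p)) (gauss (Dbl m)) :=
    (gauss_inr (ι := Idx m)).integrable_comp_of_integrable hEa.integrable
  have hEa' : ∫ G, a G ^ (2 * p) ∂gauss (Dbl m) ≤ M ^ (2 * p) :=
    (integral_comp_mp hmp1 hEa.integrable.aestronglyMeasurable).trans_le hM'
  have hEd' : ∫ G, d G ^ (2 * p) ∂gauss (Dbl m) ≤ M ^ (2 * p) :=
    (integral_comp_mp (gauss_inr (ι := Idx m)) hEa.integrable.aestronglyMeasurable).trans_le hM'
  have hc3 : Tame fun g : Idx m → ℝ => sq3 (cm3 (plJ v g) (plU τ g)) := by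
    refine Tame.sum fun i _ => Tame.sum fun j _ => Tame.sum fun k _ => Tame.pow ?_ 2
    have h := (continuous_cm3 i j k).comp (continuous_pl (ι := Idx m) v τ (f := fun g => g) continuous_id')
    exact Tame.of_bounded h fun g => abs_cm3_le _ _ i j k
  have hc2 : Tame fun g : Idx m → ℝ => sq2 (cm2 (plJ v g) (plU τ g)) := by
    refine Tame.sum fun i _ => Tame.sum fun j _ => Tame.pow ?_ 2
    have h := (continuous_cm2 i j).comp (continuous_pl (ι := Idx m) v τ (f := fun g => g) continuous_id')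
    exact Tame.of_bounded h fun g => abs_cm2_le _ _ i j
  have hi3 : Integrable (fun G => S3 G ^ p) (gauss (Dbl m)) :=
    (gauss_inl (κ := Edge m)).integrable_comp_of_integrable (hc3.pow p).integrable
  have hi2 : Integrable (fun G => S2 G ^ p) (gauss (Dbl m)) :=
    (gauss_inl (κ := Edge m)).integrable_comp_of_integrable (hc2.pow p).integrable
  have hp1 : (1:ℝ) ≤ p := by exact_mod_cast hp
  have hn1 : (1:ℝ) ≤ n := by exact_mod_cast hn
  have hsn : 1 ≤ √(n:ℝ) := Real.one_le_sqrt.2 hn1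
  have hE3 : ∫ G, S3 G ^ p ∂gauss (Dbl m) ≤ Z ^ p := by
    refine ((integral_comp_mp (gauss_inl (κ := Edge m))
      (hc3.pow p).integrable.aestronglyMeasurable).trans_le hg3).trans ((le_abs_self _).trans ?_)
    rw [abs_pow, abs_mul, abs_of_nonneg (by positivity : (0:ℝ) ≤ p * n * √(p * n))]
    refine pow_le_pow_left₀ (by positivity) (mul_le_mul (by linarith) ?_ (by positivity)
      (by positivity)) p
    rw [Real.sqrt_mul (by linarith)]
    have : √(p:ℝ) ≤ p := by nlinarith [Real.one_le_sqrt.2 hp1, Real.mul_self_sqrt (by linarith : (0:ℝ) ≤ p)]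
    calc (p:ℝ) * n * (√p * √n) = √(p:ℝ) * ((p:ℝ) * (n * √n)) := by ring
      _ ≤ (p:ℝ) * ((p:ℝ) * (n * √n)) := mul_le_mul_of_nonneg_right this (by positivity)
      _ = _ := by ring
  have hE2 : ∫ G, S2 G ^ p ∂gauss (Dbl m) ≤ Z ^ p := by
    refine ((integral_comp_mp (gauss_inl (κ := Edge m))
      (hc2.pow p).integrable.aestronglyMeasurable).trans_le hg2).trans ((le_abs_self _).trans ?_)
    rw [abs_pow, abs_mul, abs_of_nonneg (by positivity : (0:ℝ) ≤ (p:ℝ) * n)]
    refine pow_le_pow_left₀ (by positivity) (mul_le_mul (by linarith) ?_ (by positivity)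
      (by positivity)) p
    calc (p:ℝ) * n = (p:ℝ) * 1 * (n * 1) := by ring
      _ ≤ (p:ℝ) * p * (n * √n) := by gcongr
      _ = _ := by ring
  have iA := ((((integrable_const (A0 ^ (2 * p))).fun_add (hia.const_mul (9 ^ (2 * p)))).fun_add
    (hid.const_mul (9 ^ (2 * p)))).const_mul (3 ^ (2 * p))).const_mul (cc ^ p / 2)
  have iB := (hi3.fun_add hi2).const_mul ((4 / cc) ^ p / 2)
  refine (integral_mono (((tame_xG c s).pow p).integrable) (iA.fun_add iB) hpt).trans ?_
  rw [integral_add iA iB, integral_const_mul, integral_const_mul, integral_const_mul,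
    integral_add ((integrable_const _).fun_add (hia.const_mul _)) (hid.const_mul _),
    integral_add (integrable_const _) (hia.const_mul _), integral_add hi3 hi2,
    integral_const_mul, integral_const_mul]
  simp only [integral_const, probReal_univ, smul_eq_mul, one_mul]
  have h9 : (9:ℝ) ^ (2 * p) * M ^ (2 * p) = (9 * M) ^ (2 * p) := (mul_pow _ _ _).symm
  have hsum : A0 ^ (2 * p) + 9 ^ (2 * p) * ∫ G, a G ^ (2 * p) ∂gauss (Dbl m) +
      9 ^ (2 * p) * ∫ G, d G ^ (2 * p) ∂gauss (Dbl m) ≤ 3 * (A0 + 9 * M) ^ (2 * p) := by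
    have t1 : A0 ^ (2 * p) ≤ (A0 + 9 * M) ^ (2 * p) :=
      pow_le_pow_left₀ hA00 (by linarith) _
    have t2 : (9 * M) ^ (2 * p) ≤ (A0 + 9 * M) ^ (2 * p) :=
      pow_le_pow_left₀ (by linarith) (by linarith) _
    have t3 := mul_le_mul_of_nonneg_left hEa' (by positivity : (0:ℝ) ≤ 9 ^ (2 * p))
    have t4 := mul_le_mul_of_nonneg_left hEd' (by positivity : (0:ℝ) ≤ 9 ^ (2 * p))
    linarith
  have hfirst : 3 ^ (2 * p) * (3 * (A0 + 9 * M) ^ (2 * p)) ≤ A1 ^ (2 * p) := by
    rw [hA1, mul_pow, show (9:ℝ) ^ (2 * p) = 3 ^ (2 * p) * 3 ^ (2 * p) by rw [← mul_pow]; norm_num,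
      ← mul_assoc]
    refine mul_le_mul_of_nonneg_right (mul_le_mul_of_nonneg_left ?_ (by positivity)) (by positivity)
    exact le_self_pow₀ (by norm_num) (by omega)
  have hsecond : (4:ℝ) ^ p * (Z ^ p + Z ^ p) ≤ (8 * Z) ^ p := by
    rw [← two_mul, ← mul_assoc, mul_pow (8:ℝ) Z]
    refine mul_le_mul_of_nonneg_right ?_ (pow_nonneg hZ0.le p)
    rw [show (8:ℝ) ^ p = 4 ^ p * 2 ^ p by rw [← mul_pow]; norm_num]
    exact mul_le_mul_of_nonneg_left (le_self_pow₀ (one_le_two (α := ℝ)) (by omega)) (by positivity)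
  have hT1 : cc ^ p / 2 * (3 ^ (2 * p) * (A0 ^ (2 * p) + 9 ^ (2 * p) *
      ∫ G, a G ^ (2 * p) ∂gauss (Dbl m) + 9 ^ (2 * p) * ∫ G, d G ^ (2 * p) ∂gauss (Dbl m))) ≤
      (A1 * √(8 * Z)) ^ p / 2 := by
    refine (mul_le_mul_of_nonneg_left ((mul_le_mul_of_nonneg_left hsum (by positivity)).trans
      hfirst) (by positivity)).trans_eq ?_
    rw [div_mul_eq_mul_div, pow_mul, ← mul_pow, hcc]
    congr 2
    field_simp
  have hT2 : (4 / cc) ^ p / 2 * (∫ G, S3 G ^ p ∂gauss (Dbl m) + ∫ G, S2 G ^ p ∂gauss (Dbl m)) ≤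
      (A1 * √(8 * Z)) ^ p / 2 := by
    refine (mul_le_mul_of_nonneg_left (add_le_add hE3 hE2) (by positivity)).trans ?_
    rw [div_mul_eq_mul_div, div_pow, div_mul_eq_mul_div]
    refine div_le_div_of_nonneg_right ((div_le_div_of_nonneg_right hsecond (by positivity)).trans_eq
      ?_) zero_le_two
    rw [← div_pow, hcc]
    congr 1
    field_simp
    exact (Real.sq_sqrt (by positivity : (0:ℝ) ≤ 8 * Z)).symm
  refine (add_le_add hT1 hT2).trans_eq ?_
  rw [add_halves, hZ, ← mul_assoc 8, Real.sqrt_mul (by positivity : (0:ℝ) ≤ 8 * (|Cg| + 1)),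
    Real.sqrt_mul (by positivity : (0:ℝ) ≤ (p:ℝ) ^ 2), Real.sqrt_sq (Nat.cast_nonneg p), hA1]
  congr 1
  ring

end moment

end Vale.Agent.P150.Weak.Hess
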