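import Vale.Agent.P150.Weak.Hess.Interp
import Vale.Agent.P150.Weak.Hess.Endpoint

/-!
The capped Hessian is at least `κ` on the orthogonal complement of the magnetisation outside an
event of probability `O(n⁻²)`: the constants and the assembly.
-/

open MeasureTheory ProbabilityTheory Finset Filter Real
open scoped Matrix Topology

namespace Vale.Agent.P150.Weak.Hess

open Gap Crit

variable {m : ℕ} {b η L τ : ℝ} {n : ℕ}

lemma tame_trace_phi (hη : 0 < η) (c s : ℝ) (j : ℕ) :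
    Tame fun G : Dbl m → ℝ => (nG b η n L τ c s G ^ j).trace :=
  ((mt_nG (c := fun _ => c) (s := fun _ => s) hη (fun i => Tame.coord i) (Tame.const c)
    (Tame.const s)).pow j).trace

/-- The trace at the start dominates the failure of the bound on `μ⊥`. -/
lemma bad_le_trace {μ : Vec m} {W : MM m} (hW : Wᵀ = W) {κ r₀ : ℝ} (hκ : κ ≤ L) (hr₀ : 0 < r₀)
    (hr : r₀ ≤ rr n μ) {v : Vec m} (hv : μ ⬝ᵥ v = 0)
    (hlt : ∑ i, ∑ j, ((if i = j then 1 / (1 - μ i ^ 2 + η) +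
        b ^ 2 * ((∑ k, (1 - μ k ^ 2)) / n) else 0) - W i j) * v i * v j < κ * sq1 v)
    {j : ℕ} (hj : Even j) :
    (r₀ ^ 2 * (L - κ)) ^ j ≤ (nm b η n L μ W ^ j).trace := by
  refine pow_le_trace (transpose_nm hW) hj (mul_nonneg (sq_nonneg _) (by linarith)) (x := v) ?_
  have hr2 : 0 < rr n μ := hr₀.trans_le hr
  have e1 : v ⬝ᵥ (nm b η n L μ W *ᵥ v) = rr n μ ^ 2 * (v ⬝ᵥ (zm b η n L μ W *ᵥ v)) := by
    rw [nm, ← Matrix.mulVec_mulVec, ← Matrix.mulVec_mulVec, Matrix.dotProduct_mulVec v (qm n μ),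
      ← transpose_qm n μ, Matrix.vecMul_transpose, transpose_qm, qm_of_orth hv,
      Matrix.mulVec_smul, smul_dotProduct, dotProduct_smul, smul_eq_mul, smul_eq_mul, ← mul_assoc,
      ← sq]
  have e2 : v ⬝ᵥ (zm b η n L μ W *ᵥ v) = L * sq1 v - ∑ i, ∑ j, ((if i = j then
      1 / (1 - μ i ^ 2 + η) + b ^ 2 * ((∑ k, (1 - μ k ^ 2)) / n) else 0) - W i j) * v i * v j := by
    simp only [zm, Matrix.add_mulVec, dotProduct_add]
    simp only [dotProduct, Matrix.mulVec_diagonal]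
    simp only [Matrix.mulVec, dotProduct, sub_mul, ite_mul, zero_mul, sum_sub_distrib,
      sum_ite_eq, mem_univ, if_true, sq1, mul_sum, zd]
    rw [← sub_eq_zero]
    simp only [← sum_sub_distrib, ← sum_add_distrib]
    refine sum_eq_zero fun i _ => ?_
    simp only [mul_comm (W i _), mul_assoc]
    ring_nf
  rw [e1, e2]
  have h1 : r₀ ^ 2 * (L - κ) * sq1 v ≤ rr n μ ^ 2 * ((L - κ) * sq1 v) := by
    rw [mul_assoc]
    exact mul_le_mul_of_nonneg_right (pow_le_pow_left₀ hr₀.le hr 2)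
      (mul_nonneg (by linarith) (sq1_nonneg v))
  refine h1.trans_lt (mul_lt_mul_of_pos_left ?_ (by positivity))
  linarith

lemma integral_edge_pEv {F : Mat m → ℝ} (hF : Continuous fun a : Edge m → ℝ => F (cpl (b ^ 2 / n) a)) :
    ∫ a, F (cpl (b ^ 2 / n) a) ∂gauss (Edge m) = pEv b n m τ fun J _ => F J :=
  (integral_comp_mp (gauss_inl (κ := Fin m)) hF.aestronglyMeasurable).symm

/-- The endpoint of the interpolation. -/
lemma phi_end_le (hη : 0 < η) (hmn : m ≤ n) {CE A2 : ℝ} {k : ℕ}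
    (hF : ∀ μ : Vec m, (∀ i, |μ i| ≤ 1) →
      ∫ a, op (zm b η n L μ (cpl (b ^ 2 / n) a)) ^ (2 * k + 2) ∂gauss (Edge m) ≤
        CE * A2 ^ (2 * k + 2))
    (hCE : 0 ≤ CE) (hA2 : 0 ≤ A2) {rq ε P : ℝ} (hε : 0 ≤ rq + ε)
    (hP : pPr b n m τ (fun J u => ε * n ≤ |sq1 (mg J u) - n * rq|) ≤ P) (hn : 0 < n) :
    phi b η n L τ m k (π / 2) ≤
      m * CE * A2 ^ (2 * k + 2) * ((rq + ε) ^ (2 * (2 * k + 2)) + P) := by
  set v := b ^ 2 / (n:ℝ) with hv
  set j := 2 * k + 2 with hj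
  set μ := fun g : Idx m → ℝ => mg (plJ v g) (plU τ g) with hμ
  set ψ := fun G : Dbl m → ℝ => ((fun i => G (.inl i)), fun e => G (.inr e))
  have hmp : MeasurePreserving ψ (gauss (Dbl m)) ((gauss (Idx m)).prod (gauss (Edge m))) :=
    measurePreserving_sumPiEquivProdPi fun _ : Dbl m => gaussianReal 0 1
  set f := fun z : (Idx m → ℝ) × (Edge m → ℝ) => (nm b η n L (μ z.1) (cpl v z.2) ^ j).trace
  have hfc : Continuous f := by
    have h := (tame_trace_phi (m := m) (b := b) (η := η) (n := n) (L := L) (τ := τ) hη 0 1 j).1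
    have e : f = (fun G : Dbl m → ℝ => (nG b η n L τ 0 1 G ^ j).trace) ∘
        fun z => Sum.elim z.1 z.2 := by
      funext z
      simp [f, nG, muG, wG, μ, ← hv]
    rw [e]
    refine h.comp (continuous_pi fun i => ?_)
    rcases i with i | i
    · exact (continuous_apply i).comp continuous_fst
    · exact (continuous_apply i).comp continuous_snd
  have e1 : ∀ G : Dbl m → ℝ, (nG b η n L τ 0 1 G ^ j).trace = f (ψ G) := fun G => by
    simp [f, ψ, nG, muG, wG, μ, ← hv]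
  have hint : Integrable f ((gauss (Idx m)).prod (gauss (Edge m))) := by
    refine (hmp.integrable_comp hfc.aestronglyMeasurable).1 ?_
    exact ((tame_trace_phi (m := m) (b := b) (η := η) (n := n) (L := L) (τ := τ) hη 0 1 j).integrable).congr
      (ae_of_all _ e1)
  have hμt : ∀ i, Tame fun g : Idx m → ℝ => μ g i := fun i => by
    have h := (continuous_mg i).comp (continuous_pl (ι := Idx m) v τ (f := fun g => g) continuous_id')
    exact Tame.of_bounded h fun g => abs_mg_le _ _ i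
  have hr : ∀ g, 0 ≤ rr n (μ g) ∧ rr n (μ g) ≤ 1 := fun g => rr_mem (fun i => abs_mg_le _ _ i) hmn
  have hin : ∀ g, ∫ a, f (g, a) ∂gauss (Edge m) ≤ m * CE * A2 ^ j * rr n (μ g) ^ (2 * j) := by
    intro g
    have hb := fun i => abs_mg_le (plJ v g) (plU τ g) i
    have hEu : EuLip (fun a : Edge m → ℝ => op (zm b η n L (μ g) (cpl v a))) √(2 * v) := by
      intro a c
      refine (abs_op_sub_le _ _).trans_eq ?_
      rw [zm, zm, add_sub_add_left_eq_sub, cpl_sub, sq2_wd (by positivity),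
        Real.sqrt_mul (by positivity)]
    have hi := (((tame_eulip (Real.sqrt_nonneg _) hEu).pow j).integrable).const_mul
      ((m:ℝ) * rr n (μ g) ^ (2 * j))
    have hpt : ∀ a, f (g, a) ≤
        (m:ℝ) * rr n (μ g) ^ (2 * j) * op (zm b η n L (μ g) (cpl v a)) ^ j := fun a => by
      refine (trace_pow_le (transpose_nm (transpose_cpl v a)) j).trans ?_
      rw [mul_assoc, pow_mul, ← mul_pow]
      exact mul_le_mul_of_nonneg_left (pow_le_pow_left₀ (op_nonneg _) op_nm_le j) (Nat.cast_nonneg m)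
    have h0 : ∀ a, 0 ≤ f (g, a) := fun a =>
      trace_pow_nonneg (transpose_nm (transpose_cpl v a)) (by rw [hj]; exact ⟨k + 1, by ring⟩)
    refine (integral_mono_of_nonneg (ae_of_all _ h0) hi (ae_of_all _ hpt)).trans ?_
    rw [integral_const_mul]
    refine (mul_le_mul_of_nonneg_left (hF (μ g) hb)
      (by have := (hr g).1; positivity)).trans_eq ?_
    ring
  set far := {g : Idx m → ℝ | ε * n ≤ |sq1 (μ g) - n * rq|}
  have hfar : MeasurableSet far := by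
    refine measurableSet_le measurable_const ?_
    exact (((continuous_finsetSum _ fun i _ => (hμt i).1.pow 2).sub continuous_const).abs).measurable
  have hpt2 : ∀ g, rr n (μ g) ^ (2 * j) ≤
      (rq + ε) ^ (2 * j) + far.indicator (fun _ => (1:ℝ)) g := by
    intro g
    by_cases hg : g ∈ far
    · rw [Set.indicator_of_mem hg]
      linarith [pow_le_one₀ (n := 2 * j) (hr g).1 (hr g).2, pow_nonneg hε (2 * j)]
    · rw [Set.indicator_of_notMem hg, add_zero]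
      refine pow_le_pow_left₀ (hr g).1 ?_ _
      have hn' : (0:ℝ) < n := by exact_mod_cast hn
      have hg' : ¬(ε * n ≤ |sq1 (μ g) - n * rq|) := hg
      have h := (abs_lt.1 (not_le.1 hg')).2
      rw [rr, div_le_iff₀ hn']
      linarith
  have hi1 : Integrable (fun g => rr n (μ g) ^ (2 * j)) (gauss (Idx m)) :=
    ((tame_rr hμt).pow _).integrable
  have hi2 : Integrable (far.indicator fun _ => (1:ℝ)) (gauss (Idx m)) :=
    (integrable_const _).indicator hfar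
  have e0 : phi b η n L τ m k (π / 2) = ∫ G : Dbl m → ℝ, f (ψ G) ∂gauss (Dbl m) := by
    rw [phi, cos_pi_div_two, sin_pi_div_two]
    exact integral_congr_ae (ae_of_all _ e1)
  rw [e0, integral_comp_mp hmp hfc.aestronglyMeasurable, integral_prod _ hint]
  refine (integral_mono hint.integral_prod_left (hi1.const_mul _) hin).trans ?_
  rw [integral_const_mul]
  refine mul_le_mul_of_nonneg_left ?_ (by positivity)
  refine (integral_mono hi1 ((integrable_const _).fun_add hi2) hpt2).trans ?_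
  rw [integral_add (integrable_const _) hi2, integral_indicator hfar]
  simp only [integral_const, probReal_univ, smul_eq_mul, one_mul, mul_one,
    measureReal_restrict_apply_univ]
  exact add_le_add le_rfl hP

/-- The bound for one size. -/
lemma hess_point (hb0 : 0 < b) (hb1 : b < 1) (hη : 0 < η) (hn : 0 < n) (hmn : m ≤ n)
    (hL : 1 / η + b ^ 2 ≤ L) (hκ : kap b < L)
    {CE A2 C1 Cg rq ε P ρ : ℝ} (hCE : 0 ≤ CE) (hA2 : 0 < A2) (hC1 : 1 ≤ C1)
    (hE : ∫ a, op (cpl (b ^ 2 / n) a) ∂gauss (Edge m) ≤ C1)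
    {k : ℕ} (hk : k ≠ 0) (hkn : 2 * (k + 1) ≤ n)
    (hF : ∀ μ : Vec m, (∀ i, |μ i| ≤ 1) →
      ∫ a, op (zm b η n L μ (cpl (b ^ 2 / n) a)) ^ (2 * k + 2) ∂gauss (Edge m) ≤
        CE * A2 ^ (2 * k + 2))
    (hg : ∀ p : ℕ, 1 ≤ p →
      pEv b n m τ (fun J u => sq2 (cm2 J u) ^ p) ≤ (Cg * (p * n)) ^ p ∧
      pEv b n m τ (fun J u => sq3 (cm3 J u) ^ p) ≤ (Cg * (p * n * √(p * n))) ^ p)
    (hε : 0 < ε) (hεrq : ε < rq)
    (hP : pPr b n m τ (fun J u => ε * n ≤ |sq1 (mg J u) - n * rq|) ≤ P)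
    (hPε : P ≤ ε ^ (2 * (2 * k + 2)))
    (hρ : (rq + ε) ^ 2 * A2 ≤ ρ * ((rq - ε) ^ 2 * (L - kap b)))
    (hρn : (n:ℝ) * ρ ^ (2 * k + 2) ≤ 1 / (n:ℝ) ^ 2)
    (hD : 8 * ((k:ℝ) + 1) ^ 2 * (b ^ 2 / n) *
      (9 * (9 * L + 29 + 2 / η ^ 2 + 9 * (400 + 16 * C1)) * √(8 * (|Cg| + 1)) *
        (((k + 1 : ℕ):ℝ) * √((n:ℝ) * √n)) / (ε ^ 2 * A2) ^ 2) * (π / 2) ≤ 1) :
    pPr b n m τ (fun J u => ¬ ∀ v : Vec m, ∑ i, v i * mg J u i = 0 →
        kap b * sq1 v ≤ ∑ i, ∑ j, hA b η n J u i j * v i * v j) ≤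
      P + exp 1 * (2 * CE + 1) / (n:ℝ) ^ 2 := by
  have hn' : (0:ℝ) < n := by exact_mod_cast hn
  have hb : |b| ≤ 1 := by rw [abs_of_pos hb0]; linarith
  have hL0 : 0 ≤ L := le_trans (by positivity) hL
  set H := (rq + ε) ^ 2 * A2 with hH
  set B := (rq - ε) ^ 2 * (L - kap b) with hB
  have hrq : 0 < rq := hε.trans hεrq
  have hH0 : 0 < H := by positivity
  have hB0 : 0 < B := mul_pos (pow_pos (by linarith) 2) (by linarith)
  set Y := 9 * (9 * L + 29 + 2 / η ^ 2 + 9 * (400 + 16 * C1)) * √(8 * (|Cg| + 1)) *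
    (((k + 1 : ℕ):ℝ) * √((n:ℝ) * √n)) with hY
  have hY0 : 0 < Y := by positivity
  have hint := interp_le (m := m) (τ := τ) hη hb hn hmn hL hk hY0 (pow_pos hH0 2)
    fun c s hc hs => xG_moment hη hb hn hmn hL hC1 hE (p := k + 1) (by omega) hkn
      (hg (k + 1) (by omega)).1 (hg (k + 1) (by omega)).2 hc hs
  have hexp : exp (8 * ((k:ℝ) + 1) ^ 2 * (b ^ 2 / n) * (Y / H ^ 2) * (π / 2)) ≤ exp 1 := by
    refine exp_le_exp.2 (le_trans ?_ hD)
    have hle : Y / H ^ 2 ≤ Y / (ε ^ 2 * A2) ^ 2 := by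
      refine div_le_div_of_nonneg_left hY0.le (by positivity) (pow_le_pow_left₀ (by positivity) ?_ 2)
      exact mul_le_mul_of_nonneg_right (pow_le_pow_left₀ hε.le (by linarith) 2) hA2.le
    gcongr
  have heq : (H ^ 2) ^ (k + 1) = H ^ (2 * k + 2) := by
    rw [← pow_mul, show 2 * (k + 1) = 2 * k + 2 by ring]
  have hPr : P ≤ (rq + ε) ^ (2 * (2 * k + 2)) :=
    hPε.trans (pow_le_pow_left₀ hε.le (by linarith) _)
  have hend : phi b η n L τ m k (π / 2) ≤ m * (2 * CE) * H ^ (2 * k + 2) := by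
    refine ((phi_end_le (CE := CE) (A2 := A2) hη hmn hF hCE hA2.le (by linarith) hP hn).trans
      (mul_le_mul_of_nonneg_left (add_le_add le_rfl hPr) (by positivity))).trans_eq ?_
    rw [hH, mul_pow, ← pow_mul]; ring
  rw [heq] at hint
  have h0 : phi b η n L τ m k 0 ≤ exp 1 * ((m:ℝ) * (2 * CE + 1) * H ^ (2 * k + 2)) := by
    have hR : 0 ≤ (m:ℝ) * H ^ (2 * k + 2) := by positivity
    have hnn : 0 ≤ phi b η n L τ m k (π / 2) + m * H ^ (2 * k + 2) :=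
      add_nonneg (integral_nonneg fun G => trace_pow_nonneg (transpose_nm (transpose_wG _ _ _ G))
        ⟨k + 1, by ring⟩) hR
    have h1 := hint.trans (mul_le_mul_of_nonneg_right hexp hnn)
    have h2 := mul_le_mul_of_nonneg_left
      (add_le_add hend (le_refl ((m:ℝ) * H ^ (2 * k + 2)))) (exp_pos 1).le
    linarith
  set T := fun g : Idx m → ℝ => (nm b η n L (mg (plJ (b ^ 2 / n) g) (plU τ g))
    (cpl (b ^ 2 / n) fun e => g (.inl e)) ^ (2 * k + 2)).trace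
  have hμt : ∀ i, Tame fun g : Idx m → ℝ => mg (plJ (b ^ 2 / n) g) (plU τ g) i := fun i => by
    have h := (continuous_mg i).comp
      (continuous_pl (ι := Idx m) (b ^ 2 / n) τ (f := fun g => g) continuous_id')
    exact Tame.of_bounded h fun g => abs_mg_le _ _ i
  have hTt : Tame T := ((mt_nm hη hμt (fun g => abs_mg_le _ _)
    (mt_cpl _ fun e => Tame.coord (Sum.inl e))).pow _).trace
  have hT0 : ∀ g, 0 ≤ T g := fun g =>
    trace_pow_nonneg (transpose_nm (transpose_cpl _ _)) ⟨k + 1, by ring⟩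
  have hphi0 : phi b η n L τ m k 0 = ∫ g, T g ∂gauss (Idx m) := by
    rw [phi, cos_zero, sin_zero,
      ← integral_comp_mp (gauss_inl (κ := Edge m)) hTt.1.aestronglyMeasurable]
    exact integral_congr_ae (ae_of_all _ fun G => by simp [T, nG, muG, wG])
  have hmk : (gauss (Idx m)).real {g | B ^ (2 * k + 2) ≤ T g} ≤
      (∫ g, T g ∂gauss (Idx m)) / B ^ (2 * k + 2) := by
    rw [le_div_iff₀' (by positivity)]
    exact mul_meas_ge_le_integral_of_nonneg (ae_of_all _ hT0) hTt.integrable _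
  have hsub : {g : Idx m → ℝ | ¬ ∀ v : Vec m,
      ∑ i, v i * mg (plJ (b ^ 2 / n) g) (plU τ g) i = 0 →
        kap b * sq1 v ≤ ∑ i, ∑ j, hA b η n (plJ (b ^ 2 / n) g) (plU τ g) i j * v i * v j} ⊆
      {g | ε * n ≤ |sq1 (mg (plJ (b ^ 2 / n) g) (plU τ g)) - n * rq|} ∪
        {g | B ^ (2 * k + 2) ≤ T g} := by
    intro g hg'
    by_cases hfar : ε * n ≤ |sq1 (mg (plJ (b ^ 2 / n) g) (plU τ g)) - n * rq|
    · exact Or.inl hfar
    refine Or.inr ?_
    simp only [Set.mem_ofPred_eq, not_forall, not_le] at hg'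
    obtain ⟨v, hv0, hlt⟩ := hg'
    have hr : rq - ε ≤ rr n (mg (plJ (b ^ 2 / n) g) (plU τ g)) := by
      have h := (abs_lt.1 (not_le.1 hfar)).1
      rw [rr, le_div_iff₀ hn']
      linarith
    refine bad_le_trace (transpose_cpl _ _) hκ.le (by linarith) hr (v := v) ?_ ?_ ⟨k + 1, by ring⟩
    · rw [dotProduct_comm]; exact hv0
    · simp only [hA, vw, sAvg, plJ_eq] at hlt ⊢
      exact hlt
  refine ((measureReal_mono hsub).trans (measureReal_union_le _ _)).trans (add_le_add hP ?_)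
  refine hmk.trans ?_
  rw [← hphi0, div_le_iff₀ (by positivity)]
  refine h0.trans ?_
  have hHB : H ^ (2 * k + 2) ≤ ρ ^ (2 * k + 2) * B ^ (2 * k + 2) := by
    rw [← mul_pow]; exact pow_le_pow_left₀ hH0.le hρ _
  have hmn' : (m:ℝ) ≤ n := by exact_mod_cast hmn
  have he : 0 ≤ exp 1 * (2 * CE + 1) := by positivity
  calc exp 1 * ((m:ℝ) * (2 * CE + 1) * H ^ (2 * k + 2))
      = exp 1 * (2 * CE + 1) * ((m:ℝ) * H ^ (2 * k + 2)) := by ring
    _ ≤ exp 1 * (2 * CE + 1) * ((n:ℝ) * (ρ ^ (2 * k + 2) * B ^ (2 * k + 2))) :=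
        mul_le_mul_of_nonneg_left (mul_le_mul hmn' hHB (by positivity) hn'.le) he
    _ = exp 1 * (2 * CE + 1) * (((n:ℝ) * ρ ^ (2 * k + 2)) * B ^ (2 * k + 2)) := by ring
    _ ≤ exp 1 * (2 * CE + 1) * ((1 / (n:ℝ) ^ 2) * B ^ (2 * k + 2)) :=
        mul_le_mul_of_nonneg_left (mul_le_mul_of_nonneg_right hρn (by positivity)) he
    _ = _ := by ring

/-- Powers of the logarithm are negligible against `n ^ (1/4)`. -/
lemma tendsto_log_cube (K : ℝ) :
    Tendsto (fun n : ℕ => (K * log n + 3) ^ 3 / √(√(n:ℝ))) atTop (𝓝 0) := by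
  have h1 : Tendsto (fun x : ℝ => (K * log x + 3) / x ^ (1 / 12 : ℝ)) atTop (𝓝 0) := by
    have ha : Tendsto (fun x : ℝ => log x / x ^ (1 / 12 : ℝ)) atTop (𝓝 0) :=
      (isLittleO_log_rpow_atTop (by norm_num)).tendsto_div_nhds_zero
    have hb : Tendsto (fun x : ℝ => 3 / x ^ (1 / 12 : ℝ)) atTop (𝓝 0) :=
      tendsto_const_nhds.div_atTop (tendsto_rpow_atTop (by norm_num))
    have h := (ha.const_mul K).add hb
    rw [mul_zero, add_zero] at h
    exact h.congr fun x => by ring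
  have h2 := ((h1.comp (tendsto_natCast_atTop_atTop (R := ℝ))).pow 3)
  rw [zero_pow three_ne_zero] at h2
  refine h2.congr fun n => ?_
  have hn : (0:ℝ) ≤ n := Nat.cast_nonneg n
  simp only [Function.comp_apply, div_pow]
  congr 1
  rw [← rpow_natCast ((n:ℝ) ^ (1 / 12 : ℝ)) 3, ← rpow_mul hn, sqrt_eq_rpow, sqrt_eq_rpow,
    ← rpow_mul hn]
  norm_num

/-- The conditions on the size for the power `2 (k + 1)`, `k = ⌈K log n⌉ + 1`. -/
lemma sizes {K C E Lc c₀ : ℝ} (hE : 0 < E) (hc₀ : 0 < c₀) :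
    ∀ᶠ n : ℕ in atTop, ∀ p : ℕ, (p:ℝ) ≤ K * log n + 3 → 1 ≤ p →
      2 * p ≤ n ∧ (p:ℝ) ≤ E * n ∧ C * ((p:ℝ) ^ 3 / √(√(n:ℝ))) ≤ 1 ∧
      Lc * p ≤ c₀ * n := by
  have h := tendsto_log_cube K
  set δ := min (min (1 / 2) E) (min (1 / (|C| + 1)) (c₀ / (|Lc| + 1))) with hδ
  have hδ0 : 0 < δ := by positivity
  filter_upwards [h.eventually (gt_mem_nhds hδ0), eventually_ge_atTop 1] with n hn hn1 p hp hp1
  have hn1' : (1:ℝ) ≤ n := by exact_mod_cast hn1
  set s := √(√(n:ℝ)) with hs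
  have hs0 : 0 < s := by positivity
  have hp1' : (1:ℝ) ≤ p := by exact_mod_cast hp1
  have hp3 : (p:ℝ) ^ 3 / s ≤ δ := le_trans (div_le_div_of_nonneg_right
    (pow_le_pow_left₀ (Nat.cast_nonneg p) hp 3) hs0.le) hn.le
  have hsn : s ≤ n := by
    rw [hs, sqrt_le_left (by linarith), sqrt_le_left (by positivity)]
    nlinarith [mul_nonneg (sub_nonneg.2 hn1') (Nat.cast_nonneg (α := ℝ) n)]
  have hpn : (p:ℝ) ≤ δ * n := by
    calc (p:ℝ) ≤ (p:ℝ) ^ 3 := le_self_pow₀ hp1' (by norm_num)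
      _ ≤ δ * s := (div_le_iff₀ hs0).1 hp3
      _ ≤ _ := mul_le_mul_of_nonneg_left hsn hδ0.le
  have d1 : δ ≤ 1 / 2 := (min_le_left _ _).trans (min_le_left _ _)
  have d2 : δ ≤ E := (min_le_left _ _).trans (min_le_right _ _)
  have d3 : δ ≤ 1 / (|C| + 1) := (min_le_right _ _).trans (min_le_left _ _)
  have d4 : δ ≤ c₀ / (|Lc| + 1) := (min_le_right _ _).trans (min_le_right _ _)
  refine ⟨?_, hpn.trans (mul_le_mul_of_nonneg_right d2 (by linarith)), ?_, ?_⟩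
  · have : 2 * (p:ℝ) ≤ n := by nlinarith
    exact_mod_cast this
  · have h1 := mul_le_mul_of_nonneg_left (hp3.trans d3) (by positivity : (0:ℝ) ≤ |C| + 1)
    rw [mul_one_div_cancel (by positivity : |C| + 1 ≠ 0)] at h1
    refine le_trans ?_ h1
    exact mul_le_mul_of_nonneg_right (by linarith [le_abs_self C]) (by positivity)
  · have h1 := mul_le_mul_of_nonneg_left
      (hpn.trans (mul_le_mul_of_nonneg_right d4 (by linarith)))
      (by positivity : (0:ℝ) ≤ |Lc| + 1)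
    rw [← mul_assoc, mul_div_cancel₀ _ (by positivity : |Lc| + 1 ≠ 0)] at h1
    exact (mul_le_mul_of_nonneg_right (by linarith [le_abs_self Lc]) (Nat.cast_nonneg p)).trans h1

/-- The choice of the slack `ε` and of the ratio `ρ`. -/
lemma exists_eps {c A B : ℝ} (hc : 0 < c) (hA : 0 < A) (hAB : A < B) :
    ∃ ε ρ : ℝ, 0 < ε ∧ ε < c ∧ ε < 1 ∧ 0 < ρ ∧ ρ < 1 ∧
      ∀ x, c ≤ x → (x + ε) ^ 2 * ((1 + ε) ^ 2 * A) ≤ ρ * ((x - ε) ^ 2 * B) := by
  set f := fun e : ℝ => ((c + e) / (c - e)) ^ 2 * ((1 + e) ^ 2 * A / B) with hf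
  have hB : 0 < B := hA.trans hAB
  have h0 : f 0 < 1 := by simp [hf, div_self hc.ne', div_lt_one hB, hAB]
  have hcont : ContinuousAt f 0 := by
    refine ((continuousAt_const.add continuousAt_id).div (continuousAt_const.sub continuousAt_id)
      (by simpa using hc.ne')).pow 2 |>.mul ?_
    fun_prop
  have hev := (hcont.eventually (gt_mem_nhds h0)).and
    ((eventually_lt_nhds hc).and (eventually_lt_nhds one_pos))
  obtain ⟨ε, ⟨hfe, hec, he1⟩, he0⟩ :=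
    ((hev.filter_mono (nhdsWithin_le_nhds (s := Set.Ioi (0:ℝ)))).and self_mem_nhdsWithin).exists
  replace he0 : (0:ℝ) < ε := he0
  refine ⟨ε, f ε, he0, hec, he1, ?_, hfe, fun x hx => ?_⟩
  · have : 0 < c - ε := by linarith
    simp only [hf]
    positivity
  · have h1 : (x + ε) / (x - ε) ≤ (c + ε) / (c - ε) := by
      rw [div_le_div_iff₀ (by linarith) (by linarith)]
      nlinarith
    have h2 : 0 < x - ε := by linarith
    have h3 : x + ε ≤ (c + ε) / (c - ε) * (x - ε) := by rwa [div_le_iff₀ h2] at h1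
    calc (x + ε) ^ 2 * ((1 + ε) ^ 2 * A)
        ≤ ((c + ε) / (c - ε) * (x - ε)) ^ 2 * ((1 + ε) ^ 2 * A) :=
          mul_le_mul_of_nonneg_right (pow_le_pow_left₀ (by linarith) h3 2) (by positivity)
      _ = _ := by simp only [hf]; field_simp

/-- Moments at the endpoint. -/
lemma op_moment_le (hb0 : 0 < b) (hb1 : b < 1) (hη : 0 < η)
    (hη1 : η ≤ (1 - b ^ 2) ^ 2 / 128) {μ : Vec m} (hμ : ∀ i, |μ i| ≤ 1) (hm : 0 < m) (hmn : m ≤ n)
    (hn1 : 256 / (1 - b ^ 2) ^ 3 ≤ (n:ℝ)) (hL : 1 / η + b ^ 2 ≤ L) {A A2 ε : ℝ}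
    (hA : A = L - 5 / 4 * kap b) (hA0 : 0 < A) (hA2 : A2 = (1 + ε) ^ 2 * A) (hε : 0 < ε)
    (hW : ∫ a, op (cpl (b ^ 2 / n) a) ∂gauss (Edge m) ≤ L - 3 / 2 * kap b)
    (h48 : 48 * √(2 * (b ^ 2 / n)) ≤ kap b / 4) {k : ℕ}
    (s2 : ((k + 1 : ℕ):ℝ) ≤ (A2 / ((1 + 1 / ε) * 24)) ^ 2 / 4 * n) :
    ∫ a, op (zm b η n L μ (cpl (b ^ 2 / n) a)) ^ (2 * k + 2) ∂gauss (Edge m) ≤
      2 * (1 + ε) / ε * A2 ^ (2 * k + 2) := by
  have hn' : (0:ℝ) < n := by exact_mod_cast hm.trans_le hmn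
  have hA20 : 0 < A2 := by rw [hA2]; positivity
  have hEu : EuLip (fun a : Edge m → ℝ => op (zm b η n L μ (cpl (b ^ 2 / n) a)))
      √(2 * (b ^ 2 / n)) := by
    intro a c
    refine (abs_op_sub_le _ _).trans_eq ?_
    rw [zm, zm, add_sub_add_left_eq_sub, cpl_sub, sq2_wd (by positivity),
      Real.sqrt_mul (by positivity)]
  have hmean : ∫ a, op (zm b η n L μ (cpl (b ^ 2 / n) a)) ∂gauss (Edge m) ≤ A := by
    refine (endpoint_mean hb0 hb1 hη hη1 hμ hm hmn hn1 hL hW).trans ?_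
    rw [hA]; linarith
  have h := eulip_moment (Real.sqrt_nonneg _) hEu (fun a => op_nonneg _) hmean
    (M := (1 + ε) * A) (by positivity) hε (k := 2 * k + 2) (by omega)
  rw [← mul_assoc (1 + ε), ← sq, ← hA2] at h
  have hd : (1 + 1 / ε) * (24 * √((2 * k + 2 : ℕ):ℝ) * √(2 * (b ^ 2 / n))) ≤ A2 := by
    have h2 : √((2 * k + 2 : ℕ):ℝ) * √(2 * (b ^ 2 / n)) ≤ A2 / ((1 + 1 / ε) * 24) := by
      rw [← Real.sqrt_mul (Nat.cast_nonneg _), Real.sqrt_le_left (by positivity)]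
      have e : ((2 * k + 2 : ℕ):ℝ) * (2 * (b ^ 2 / n)) = 4 * b ^ 2 * ((k + 1 : ℕ):ℝ) / n := by
        push_cast; ring
      rw [e, div_le_iff₀ hn']
      have := mul_le_of_le_one_left (Nat.cast_nonneg (α := ℝ) (k + 1))
        (show b ^ 2 ≤ 1 by nlinarith)
      linarith
    rw [le_div_iff₀ (by positivity)] at h2
    linarith
  have hd2 := pow_le_pow_left₀ (by positivity) hd (2 * k + 2)
  have e : 1 - A / ((1 + ε) * A) = ε / (1 + ε) := by field_simp; ring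
  rw [e] at h
  have h3 := mul_le_mul_of_nonneg_right (h.trans (add_le_add le_rfl hd2))
    (by positivity : (0:ℝ) ≤ (1 + ε) / ε)
  rw [mul_assoc, div_mul_div_cancel₀ (by positivity), div_self hε.ne', mul_one] at h3
  refine h3.trans_eq ?_
  ring

lemma exp_le_pow {ε C c₀ : ℝ} (hε : 0 < ε) (hC : 1 ≤ C) {k : ℕ}
    (h : (4 * (-log ε) + log C) * ((k + 1 : ℕ):ℝ) ≤ c₀ * n) :
    C * exp (-(c₀ * n)) ≤ ε ^ (2 * (2 * k + 2)) := by
  rw [← exp_log (pow_pos hε (2 * (2 * k + 2))), log_pow, ← exp_log (zero_lt_one.trans_le hC),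
    ← exp_add]
  refine exp_le_exp.2 ?_
  have : log C ≤ log C * ((k + 1 : ℕ):ℝ) :=
    le_mul_of_one_le_right (log_nonneg hC) (by norm_num)
  push_cast at h this ⊢
  linarith

lemma n_mul_pow_le {ρ : ℝ} (hρ0 : 0 < ρ) (hρ1 : ρ < 1) (hn : 0 < n) {k : ℕ}
    (h : 3 / (-(2 * log ρ)) * log n ≤ k) : (n:ℝ) * ρ ^ (2 * k + 2) ≤ 1 / (n:ℝ) ^ 2 := by
  have hn' : (0:ℝ) < n := by exact_mod_cast hn
  have hlρ := log_neg hρ0 hρ1
  rw [le_div_iff₀ (by positivity), ← log_nonpos_iff (by positivity),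
    log_mul (by positivity) (by positivity), log_mul hn'.ne' (by positivity), log_pow, log_pow]
  have h2 : 3 / (-(2 * log ρ)) * log n * (2 * log ρ) = -3 * log n := by
    field_simp [hlρ.ne]
  have h3 := mul_le_mul_of_nonpos_right h (by linarith : 2 * log ρ ≤ 0)
  push_cast
  linarith

lemma deriv_small {Y G : ℝ} (hn : 0 < n) {k : ℕ}
    (h : 8 * b ^ 2 * Y / G * (π / 2) * (((k + 1 : ℕ):ℝ) ^ 3 / √(√(n:ℝ))) ≤ 1) :
    8 * ((k:ℝ) + 1) ^ 2 * (b ^ 2 / n) * (Y * (((k + 1 : ℕ):ℝ) * √((n:ℝ) * √n)) / G) * (π / 2)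
      ≤ 1 := by
  refine le_trans (le_of_eq ?_) h
  have hn' : (0:ℝ) < n := by exact_mod_cast hn
  set s := √(√(n:ℝ)) with hs
  have hs0 : 0 < s := by positivity
  have e1 : √(n:ℝ) = s ^ 2 := (Real.sq_sqrt (Real.sqrt_nonneg _)).symm
  have e2 : (n:ℝ) = s ^ 4 := by
    rw [show s ^ 4 = (s ^ 2) ^ 2 by ring, ← e1, Real.sq_sqrt hn'.le]
  have e3 : √((n:ℝ) * √n) = s ^ 3 := by
    rw [e1, e2, show s ^ 4 * s ^ 2 = (s ^ 3) ^ 2 by ring, Real.sqrt_sq (by positivity)]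
  rw [e3, e2]
  push_cast
  field_simp

lemma dev_small (hb2 : b ^ 2 ≤ 1) (hk0 : 0 < kap b) (hn' : (0:ℝ) < n)
    (hn2 : 2 * (192 / kap b) ^ 2 ≤ (n:ℝ)) : 48 * √(2 * (b ^ 2 / n)) ≤ kap b / 4 := by
  have hv : √(2 * (b ^ 2 / n)) ≤ √(2 / (n:ℝ)) := by
    refine Real.sqrt_le_sqrt ?_
    rw [mul_div_assoc']
    exact div_le_div_of_nonneg_right (by linarith) hn'.le
  refine (mul_le_mul_of_nonneg_left hv (by norm_num)).trans ?_
  rw [← le_div_iff₀' (by norm_num : (0:ℝ) < 48), Real.sqrt_le_left (by positivity), div_le_iff₀ hn']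
  rw [div_pow, mul_div_assoc', div_le_iff₀ (by positivity)] at hn2
  linarith

lemma rq_lower {c x : ℝ} (hc : 0 < c) (hn' : (0:ℝ) < n) (hx : c ≤ x) (hnm : n ≤ 2 * m) :
    c / 2 ≤ (m:ℝ) * x / n := by
  rw [le_div_iff₀ hn']
  have h1 : (n:ℝ) ≤ 2 * m := by exact_mod_cast hnm
  nlinarith [mul_le_mul_of_nonneg_left hx (Nat.cast_nonneg (α := ℝ) m),
    mul_le_mul_of_nonneg_left h1 hc.le]

lemma tail_le {C c₀ X M : ℝ} (hC : 0 ≤ C) (hc₀ : 0 < c₀) (hn' : (0:ℝ) < n)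
    (hM : C * 2 / c₀ ^ 2 + X ≤ M) : C * exp (-(c₀ * n)) + X / (n:ℝ) ^ 2 ≤ M / (n:ℝ) ^ 2 := by
  have hx : exp (-(c₀ * n)) ≤ 2 / (c₀ * n) ^ 2 := by
    rw [exp_neg, inv_le_comm₀ (exp_pos _) (by positivity), inv_div]
    refine le_trans ?_ (quadratic_le_exp_of_nonneg (by positivity))
    linarith [show 0 ≤ c₀ * (n:ℝ) by positivity]
  refine le_trans (add_le_add (mul_le_mul_of_nonneg_left hx hC) le_rfl) ?_
  refine le_trans (le_of_eq ?_) (div_le_div_of_nonneg_right hM (sq_nonneg _))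
  field_simp

/-- **The Hessian is positive on `m⊥`.** -/
theorem hessSpec {b : ℝ} (hb0 : 0 < b) (hb1 : b < 1) (hO : OverlapSpec b) (hG : GrowSpec b)
    (hJ : JSpec b) : HessSpec b := by
  obtain ⟨κo, Co, q, -, hq1, hq2, hq3⟩ := hO
  obtain ⟨Cg, hCg⟩ := hG
  obtain ⟨C0, hC0⟩ := hJ.2 1
  set a₀ := 1 - b ^ 2 with ha₀
  have hb2 : b ^ 2 < 1 := by nlinarith
  have ha : 0 < a₀ := by linarith
  have ha1 : a₀ ≤ 1 := by linarith [sq_nonneg b]
  have hkap : kap b = a₀ ^ 2 / 16 := by rw [kap, ha₀]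
  have hk0 : 0 < kap b := by rw [hkap]; positivity
  have hk1 : kap b ≤ 1 := by rw [hkap]; nlinarith
  refine ⟨a₀ ^ 2 / 128, by positivity, fun η hη hη1 τ₀ Tm kk hτ₀ => ?_⟩
  set C1 := max C0 1 with hC1
  have hC11 : 1 ≤ C1 := le_max_right _ _
  set L := 1 / η + b ^ 2 + C1 + 2 with hLd
  have hη0 : 0 < 1 / η := one_div_pos.2 hη
  have hL : 1 / η + b ^ 2 ≤ L := by linarith
  have hκL : kap b < L := by linarith [sq_nonneg b]
  set A := L - 5 / 4 * kap b with hA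
  have hA0 : 0 < A := by rw [hA]; linarith [sq_nonneg b]
  obtain ⟨cq, hcq, hcq'⟩ := hq2 τ₀ Tm hτ₀
  obtain ⟨ε, ρ, hε, hεc, hε1, hρ0, hρ1, hρ⟩ :=
    exists_eps (half_pos hcq) hA0 (show A < L - kap b by rw [hA]; linarith)
  obtain ⟨C', c₀, hc₀, hC'⟩ := hq3 ε hε
  set A2 := (1 + ε) ^ 2 * A with hA2
  have hA20 : 0 < A2 := by positivity
  set K := 3 / (-(2 * log ρ)) with hKd
  have hlρ : log ρ < 0 := log_neg hρ0 hρ1
  have hK : 0 ≤ K := div_nonneg (by norm_num) (by linarith)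
  set C'' := max C' 1 with hC''
  have hC''1 : 1 ≤ C'' := le_max_right _ _
  set CE := 2 * (1 + ε) / ε with hCE
  set E := (A2 / ((1 + 1 / ε) * 24)) ^ 2 / 4 with hEd
  set cY := 9 * (9 * L + 29 + 2 / η ^ 2 + 9 * (400 + 16 * C1)) * √(8 * (|Cg| + 1))
  set CD := 8 * b ^ 2 * cY / (ε ^ 2 * A2) ^ 2 * (π / 2) with hCD
  set Lc := 4 * (-log ε) + log C'' with hLc
  have hev := ((sizes (K := K) (C := CD) (E := E) (Lc := Lc) (by positivity : 0 < E) hc₀).and
    ((tendsto_natCast_atTop_atTop (R := ℝ)).eventually_ge_atTop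
      (max (max (256 / a₀ ^ 3) (2 * (192 / kap b) ^ 2)) (2 * (kk:ℝ) + 1))))
  obtain ⟨N, hN⟩ := eventually_atTop.1 hev
  refine ⟨max ((N:ℝ) ^ 2) (C'' * 2 / c₀ ^ 2 + exp 1 * (2 * CE + 1)), fun n m τ hτ hτT hkn hmn hnm => ?_⟩
  have hn : 0 < n := by omega
  have hn' : (0:ℝ) < n := by exact_mod_cast hn
  rcases lt_or_ge n N with hlt | hge
  · refine measureReal_le_one.trans ?_
    rw [le_div_iff₀ (by positivity), one_mul]
    exact le_trans (pow_le_pow_left₀ hn'.le (by exact_mod_cast hlt.le) 2) (le_max_left _ _)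
  obtain ⟨hsz, hbig⟩ := hN n hge
  have hn1 : 256 / a₀ ^ 3 ≤ (n:ℝ) := ((le_max_left _ _).trans (le_max_left _ _)).trans hbig
  have hn2 : 2 * (192 / kap b) ^ 2 ≤ (n:ℝ) := ((le_max_right _ _).trans (le_max_left _ _)).trans hbig
  have hn3 : 2 * (kk:ℝ) + 1 ≤ n := (le_max_right _ _).trans hbig
  have hnk : 2 * kk + 1 ≤ n := by exact_mod_cast hn3
  have hm : 0 < m := by omega
  have hτ0 : 0 ≤ τ := hτ₀.le.trans hτ
  set k := ⌈K * log n⌉₊ + 1 with hkd
  have hlog : 0 ≤ log (n:ℝ) := log_natCast_nonneg n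
  have hk : ((k + 1 : ℕ):ℝ) ≤ K * log n + 3 := by
    have := Nat.ceil_lt_add_one (mul_nonneg hK hlog)
    rw [hkd]; push_cast; linarith
  obtain ⟨s1, s2, s3, s4⟩ := hsz (k + 1) hk (by omega)
  have hE : ∫ a, op (cpl (b ^ 2 / n) a) ∂gauss (Edge m) ≤ C1 := by
    rw [integral_edge_pEv (τ := τ) (F := fun J => op J)
      (tame_eulip (Real.sqrt_nonneg _) (eulip_op_cpl (by positivity))).1]
    have := hC0 n m τ hn hmn
    simp only [pow_one] at this
    exact this.trans (le_max_left _ _)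
  have h48 := dev_small hb2.le hk0 hn' hn2
  have hW : ∫ a, op (cpl (b ^ 2 / n) a) ∂gauss (Edge m) ≤ L - 3 / 2 * kap b :=
    hE.trans (by rw [hLd]; linarith [sq_nonneg b])
  have hF := fun (μ : Vec m) (hμ : ∀ i, |μ i| ≤ 1) =>
    op_moment_le hb0 hb1 hη hη1 hμ hm hmn hn1 hL hA hA0 hA2 hε hW h48 s2
  set rq := (m:ℝ) * q n m τ / n with hrq
  have hqm : cq ≤ q n m τ := hcq' n m τ hτ hτT hm hmn
  have hrqc : cq / 2 ≤ rq := rq_lower hcq hn' hqm (by omega : n ≤ 2 * m)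
  have hP : pPr b n m τ (fun J u => ε * n ≤ |sq1 (mg J u) - n * rq|) ≤
      C'' * exp (-(c₀ * n)) := by
    have e : (n:ℝ) * rq = m * q n m τ := by rw [hrq]; field_simp
    rw [e]
    have hp := hC' n m τ hτ0 hm hmn
    have hc : C' * exp (-(c₀ * n)) ≤ C'' * exp (-(c₀ * n)) :=
      mul_le_mul_of_nonneg_right (le_max_left C' 1) (exp_pos _).le
    exact le_trans hp hc
  have hPε := exp_le_pow hε hC''1 (k := k) s4
  have hρn := n_mul_pow_le hρ0 hρ1 hn (k := k) (show K * log n ≤ k by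
    rw [hkd]; push_cast; linarith [Nat.le_ceil (K * log n)])
  have hDc := deriv_small (b := b) (Y := cY) (G := (ε ^ 2 * A2) ^ 2) hn (k := k)
    (by rw [hCD] at s3; exact s3)
  have h := hess_point (m := m) (τ := τ) (Cg := Cg) (rq := rq) (ρ := ρ) hb0 hb1 hη hn hmn hL hκL
    (by positivity : 0 ≤ CE) hA20 hC11 hE (by omega : k ≠ 0) s1 hF
    (fun p hp => ⟨(hCg n m p τ hτ0 hp hn hmn).1, (hCg n m p τ hτ0 hp hn hmn).2.1⟩)
    hε (hεc.trans_le hrqc) hP hPε (hρ rq hrqc) hρn hDc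
  exact h.trans (tail_le (C := C'') (by linarith) hc₀ hn' (le_max_right _ _))

end Vale.Agent.P150.Weak.Hess
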