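import Vale.Agent.P150.Weak.Hess.Spectral

/-!
The projected Hessian `Q Z Q` as a function of the magnetisation and the coupling matrix, with its
derivative in the magnetisation, and the algebra of the projection on `μ⊥`.
-/

open Finset
open scoped Matrix

namespace Vale.Agent.P150.Weak.Hess

variable {m : ℕ}

/-- Matrices with the matrix product. -/
abbrev MM (m : ℕ) := Matrix (Fin m) (Fin m) ℝ

/-- `|μ|² / n`. -/
noncomputable def rr (n : ℕ) (μ : Vec m) : ℝ := sq1 μ / n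

/-- `Q = r - μμ'/n`, a multiple of the projection on `μ⊥`. -/
noncomputable def qm (n : ℕ) (μ : Vec m) : MM m :=
  rr n μ • (1 : MM m) - (1 / (n:ℝ)) • Matrix.vecMulVec μ μ

/-- The diagonal of `Z = L - diag(1/(w+η) + b² s) + W`. -/
noncomputable def zd (b η : ℝ) (n : ℕ) (L : ℝ) (μ : Vec m) : Vec m :=
  fun i => L - 1 / (1 - μ i ^ 2 + η) - b ^ 2 * (∑ k, (1 - μ k ^ 2)) / n

/-- `Z`. -/
noncomputable def zm (b η : ℝ) (n : ℕ) (L : ℝ) (μ : Vec m) (W : MM m) : MM m :=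
  Matrix.diagonal (zd b η n L μ) + W

/-- `N = Q Z Q`. -/
noncomputable def nm (b η : ℝ) (n : ℕ) (L : ℝ) (μ : Vec m) (W : MM m) : MM m :=
  qm n μ * zm b η n L μ W * qm n μ

/-- The derivative of `Q` along `δ`. -/
noncomputable def dqm (n : ℕ) (μ δ : Vec m) : MM m :=
  (2 * (μ ⬝ᵥ δ) / n) • (1 : MM m) -
    (1 / (n:ℝ)) • (Matrix.vecMulVec δ μ + Matrix.vecMulVec μ δ)

/-- The derivative of the diagonal of `Z` along `δ`. -/
noncomputable def dzd (b η : ℝ) (n : ℕ) (μ δ : Vec m) : Vec m :=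
  fun i => -(2 * μ i * δ i) / (1 - μ i ^ 2 + η) ^ 2 + 2 * b ^ 2 * (μ ⬝ᵥ δ) / n

/-- The derivative of `N` along `δ`. -/
noncomputable def dnm (b η : ℝ) (n : ℕ) (L : ℝ) (μ δ : Vec m) (W : MM m) : MM m :=
  dqm n μ δ * zm b η n L μ W * qm n μ + qm n μ * Matrix.diagonal (dzd b η n μ δ) * qm n μ +
    qm n μ * zm b η n L μ W * dqm n μ δ

/-- The derivative of the matrix `r² N^(q+1)` along `δ`. -/
noncomputable def dh (b η : ℝ) (n : ℕ) (L : ℝ) (μ δ : Vec m) (W : MM m) (q : ℕ) : MM m :=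
  (2 * rr n μ * (2 * (μ ⬝ᵥ δ) / n)) • nm b η n L μ W ^ (q + 1) +
    (rr n μ ^ 2) • ∑ l ∈ range (q + 1),
      nm b η n L μ W ^ l * dnm b η n L μ δ W * nm b η n L μ W ^ (q - l)

/-- The projection on `μ⊥`; the identity for `μ = 0`. -/
noncomputable def proj (μ : Vec m) : MM m :=
  1 - (1 / sq1 μ) • Matrix.vecMulVec μ μ

variable {b η L : ℝ} {n : ℕ} {μ δ : Vec m} {W : MM m}

lemma sq1_eq_dot (x : Vec m) : sq1 x = x ⬝ᵥ x := by simp [sq1, dotProduct, sq]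

lemma sq1_nonneg (x : Vec m) : 0 ≤ sq1 x := sum_nonneg fun _ _ => sq_nonneg _

lemma eq_zero_of_sq1 {x : Vec m} (h : sq1 x = 0) : x = 0 := by
  funext i
  simpa using (sum_eq_zero_iff_of_nonneg fun i _ => sq_nonneg (x i)).1 h i (mem_univ i)

lemma vecMulVec_mulVec' (a c x : Vec m) :
    Matrix.vecMulVec a c *ᵥ x = (c ⬝ᵥ x) • a := by
  funext i
  simp [Matrix.mulVec, Matrix.vecMulVec, dotProduct, sum_mul]
  exact sum_congr rfl fun j _ => by ring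

lemma proj_mulVec (μ x : Vec m) : proj μ *ᵥ x = x - ((μ ⬝ᵥ x) / sq1 μ) • μ := by
  rw [proj, Matrix.sub_mulVec, Matrix.one_mulVec, Matrix.smul_mulVec, vecMulVec_mulVec', smul_smul]
  ring_nf

lemma proj_self (μ : Vec m) : proj μ *ᵥ μ = 0 := by
  rw [proj_mulVec, ← sq1_eq_dot]
  by_cases h : sq1 μ = 0
  · simp [eq_zero_of_sq1 h]
  · rw [div_self h, one_smul, sub_self]

lemma transpose_proj (μ : Vec m) : (proj μ)ᵀ = proj μ := by
  ext i j
  simp [proj, Matrix.vecMulVec, Matrix.one_apply, eq_comm (a := i) (b := j), mul_comm (μ i)]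

lemma qm_eq (n : ℕ) (μ : Vec m) : qm n μ = rr n μ • proj μ := by
  by_cases h : sq1 μ = 0
  · simp [qm, proj, rr, eq_zero_of_sq1 h, sq1]
  · rw [qm, proj, smul_sub, smul_smul]
    congr 2
    rw [rr]; field_simp

lemma qm_mulVec_self (n : ℕ) (μ : Vec m) : qm n μ *ᵥ μ = 0 := by
  rw [qm_eq, Matrix.smul_mulVec, proj_self, smul_zero]

lemma transpose_qm (n : ℕ) (μ : Vec m) : (qm n μ)ᵀ = qm n μ := by
  rw [qm_eq, Matrix.transpose_smul, transpose_proj]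

lemma dot_proj (μ x : Vec m) : μ ⬝ᵥ (proj μ *ᵥ x) = 0 := by
  rw [Matrix.dotProduct_mulVec, ← transpose_proj μ, Matrix.vecMul_transpose, proj_self,
    zero_dotProduct]

lemma proj_of_orth {μ x : Vec m} (h : μ ⬝ᵥ x = 0) : proj μ *ᵥ x = x := by
  simp [proj_mulVec, h]

lemma qm_of_orth {μ x : Vec m} (h : μ ⬝ᵥ x = 0) : qm n μ *ᵥ x = rr n μ • x := by
  rw [qm_eq, Matrix.smul_mulVec, proj_of_orth h]

lemma sq1_proj_le (μ x : Vec m) : sq1 (proj μ *ᵥ x) ≤ sq1 x := by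
  rw [proj_mulVec]
  have e : sq1 (x - ((μ ⬝ᵥ x) / sq1 μ) • μ) =
      sq1 x - 2 * ((μ ⬝ᵥ x) / sq1 μ) * (μ ⬝ᵥ x) + ((μ ⬝ᵥ x) / sq1 μ) ^ 2 * sq1 μ := by
    generalize (μ ⬝ᵥ x) / sq1 μ = c
    simp only [sq1, Pi.sub_apply, Pi.smul_apply, smul_eq_mul, dotProduct, mul_sum,
      ← sum_sub_distrib, ← sum_add_distrib]
    exact sum_congr rfl fun i _ => by ring
  rw [e]
  by_cases h : sq1 μ = 0
  · simp [h]
  · have : ((μ ⬝ᵥ x) / sq1 μ) ^ 2 * sq1 μ = (μ ⬝ᵥ x) / sq1 μ * (μ ⬝ᵥ x) := by field_simp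
    rw [this]
    have : 0 ≤ (μ ⬝ᵥ x) / sq1 μ * (μ ⬝ᵥ x) := by
      rw [div_mul_eq_mul_div]; exact div_nonneg (mul_self_nonneg _) (sq1_nonneg μ)
    linarith

lemma transpose_zm (hW : Wᵀ = W) : (zm b η n L μ W)ᵀ = zm b η n L μ W := by
  rw [zm, Matrix.transpose_add, Matrix.diagonal_transpose, hW]

lemma transpose_nm (hW : Wᵀ = W) : (nm b η n L μ W)ᵀ = nm b η n L μ W := by
  simp [nm, Matrix.transpose_mul, transpose_qm, transpose_zm hW, mul_assoc]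

lemma isHermitian_nm (hW : Wᵀ = W) : (nm b η n L μ W).IsHermitian := by
  rw [Matrix.IsHermitian, Matrix.conjTranspose_eq_transpose_of_trivial, transpose_nm hW]

lemma nm_mulVec_self : nm b η n L μ W *ᵥ μ = 0 := by
  rw [nm, ← Matrix.mulVec_mulVec, qm_mulVec_self, Matrix.mulVec_zero]

lemma nm_pow_mulVec_self {k : ℕ} (hk : k ≠ 0) : (nm b η n L μ W ^ k) *ᵥ μ = 0 := by
  obtain ⟨j, rfl⟩ := Nat.exists_eq_succ_of_ne_zero hk
  rw [pow_succ, ← Matrix.mulVec_mulVec, nm_mulVec_self, Matrix.mulVec_zero]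

lemma vecMul_nm_pow_self (hW : Wᵀ = W) {k : ℕ} (hk : k ≠ 0) :
    μ ᵥ* (nm b η n L μ W ^ k) = 0 := by
  rw [← Matrix.mulVec_transpose, Matrix.transpose_pow, transpose_nm hW, nm_pow_mulVec_self hk]

/-- `μ' Q = 0` differentiated: `μ' dQ = - δ' Q`. -/
lemma vecMul_dqm (μ δ : Vec m) : μ ᵥ* dqm n μ δ = -(δ ᵥ* qm n μ) := by
  funext j
  simp only [Matrix.vecMul, dotProduct, Pi.neg_apply, dqm, qm, Matrix.sub_apply, Matrix.smul_apply,
    Matrix.add_apply, Matrix.vecMulVec_apply, Matrix.one_apply, smul_eq_mul, mul_sub, mul_ite,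
    mul_one, mul_zero, sum_sub_distrib, sum_ite_eq', mem_univ, if_true]
  have e : ∀ k, μ k * (1 / (n:ℝ) * (δ k * μ j + μ k * δ j)) =
      1 / (n:ℝ) * (μ j * (μ k * δ k) + δ j * μ k ^ 2) := fun k => by ring
  have e' : ∀ k, δ k * (1 / (n:ℝ) * (μ k * μ j)) = 1 / (n:ℝ) * (μ j * (μ k * δ k)) :=
    fun k => by ring
  simp only [e, e', ← mul_sum, sum_add_distrib, rr, sq1]
  ring

/-- `μ' N = 0` differentiated. -/
lemma vecMul_dnm (hW : Wᵀ = W) : μ ᵥ* dnm b η n L μ δ W = -(δ ᵥ* nm b η n L μ W) := by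
  have hq : μ ᵥ* qm n μ = 0 := by
    rw [← Matrix.mulVec_transpose, transpose_qm, qm_mulVec_self]
  have := hW
  simp only [dnm, nm, Matrix.vecMul_add, ← Matrix.vecMul_vecMul, hq, Matrix.zero_vecMul,
    vecMul_dqm, add_zero, Matrix.neg_vecMul]

lemma transpose_dqm : (dqm n μ δ)ᵀ = dqm n μ δ := by
  ext i j
  simp [dqm, Matrix.vecMulVec_apply, Matrix.one_apply, eq_comm (a := i) (b := j)]
  ring

lemma transpose_dnm (hW : Wᵀ = W) : (dnm b η n L μ δ W)ᵀ = dnm b η n L μ δ W := by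
  simp only [dnm, Matrix.transpose_add, Matrix.transpose_mul, transpose_qm, transpose_zm hW,
    transpose_dqm, Matrix.diagonal_transpose, mul_assoc]
  abel

end Vale.Agent.P150.Weak.Hess
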