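import Vale.Agent.P150.Weak.Defs

/-!
Eigen-expansions of powers of a symmetric matrix, contracting frames, and the weighted bound for
double eigen-sums.
-/

open Finset
open scoped Matrix

namespace Vale.Agent.P150.Weak.Hess

variable {m : ℕ}

/-- A family of vectors that contracts: `Σ_a ⟨ψ_a, x⟩² ≤ |x|²` and `|ψ_a| ≤ 1`. -/
structure IsFrame (ψ : Fin m → Vec m) : Prop where
  bessel : ∀ x : Vec m, ∑ a, (∑ i, ψ a i * x i) ^ 2 ≤ sq1 x
  norm_le : ∀ a, sq1 (ψ a) ≤ 1

/-- Eigenvalues and eigenvectors with the expansion of every power. -/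
lemma exists_eigen {N : Matrix (Fin m) (Fin m) ℝ} (h : N.IsHermitian) :
    ∃ (l : Fin m → ℝ) (φ : Fin m → Vec m),
      (∀ (k : ℕ) (i j : Fin m), (N ^ k) i j = ∑ a, l a ^ k * (φ a i * φ a j)) ∧
      ∀ a b, ∑ i, φ a i * φ b i = if a = b then 1 else 0 := by
  have h1 := (Matrix.mem_unitaryGroup_iff).1 (h.eigenvectorUnitary).2
  have h2 := (Matrix.mem_unitaryGroup_iff').1 (h.eigenvectorUnitary).2
  set U : Matrix (Fin m) (Fin m) ℝ := (h.eigenvectorUnitary : Matrix (Fin m) (Fin m) ℝ) with hU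
  have hs : N = U * Matrix.diagonal h.eigenvalues * star U := by
    have := h.spectral_theorem
    simpa [Unitary.conjStarAlgAut_apply] using this
  obtain ⟨l, hl⟩ : ∃ l, l = h.eigenvalues := ⟨_, rfl⟩
  rw [← hl] at hs
  have hp : ∀ k : ℕ, N ^ k = U * Matrix.diagonal (fun a => l a ^ k) * star U := by
    intro k
    induction k with
    | zero => simp [h1]
    | succ k ih =>
      rw [pow_succ, ih]
      calc U * Matrix.diagonal (fun a => l a ^ k) * star U * N
          = U * (Matrix.diagonal (fun a => l a ^ k) * (star U * U) *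
              Matrix.diagonal l) * star U := by
            rw [hs]; simp only [mul_assoc]
        _ = _ := by rw [h2, mul_one, Matrix.diagonal_mul_diagonal]; simp only [← pow_succ]
  refine ⟨l, fun a i => U i a, fun k i j => ?_, fun a b => ?_⟩
  · rw [hp k, Matrix.mul_apply]
    refine sum_congr rfl fun a _ => ?_
    rw [Matrix.mul_diagonal, Matrix.star_apply, star_trivial]
    ring
  · have := congrFun (congrFun h2 a) b
    simpa [Matrix.mul_apply, Matrix.one_apply] using this

/-- An orthonormal family of full size satisfies Parseval. -/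
lemma parseval {φ : Fin m → Vec m} (h : ∀ a b, ∑ i, φ a i * φ b i = if a = b then 1 else 0)
    (x : Vec m) : ∑ a, (∑ i, φ a i * x i) ^ 2 = sq1 x := by
  have e1 : (Matrix.of φ) * (Matrix.of φ)ᵀ = 1 := by
    ext a b; simp [Matrix.mul_apply, Matrix.one_apply, h a b]
  have e2 : (Matrix.of φ)ᵀ * (Matrix.of φ) = 1 := mul_eq_one_comm.1 e1
  have key : ∀ i j, ∑ a, φ a i * φ a j = if i = j then (1:ℝ) else 0 := fun i j => by
    have := congrFun (congrFun e2 i) j
    simpa [Matrix.mul_apply, Matrix.one_apply] using this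
  have e3 : ∀ a, (∑ i, φ a i * x i) ^ 2 = ∑ i, ∑ j, x i * x j * (φ a i * φ a j) := fun a => by
    rw [sq, sum_mul_sum]
    exact sum_congr rfl fun i _ => sum_congr rfl fun j _ => by ring
  simp only [e3]
  rw [sum_comm]
  refine sum_congr rfl fun i _ => ?_
  rw [sum_comm]
  simp only [← mul_sum, key, mul_ite, mul_one, mul_zero, sum_ite_eq, mem_univ, if_true, sq]

lemma isFrame_orth {φ : Fin m → Vec m} (h : ∀ a b, ∑ i, φ a i * φ b i = if a = b then 1 else 0) :
    IsFrame φ :=
  ⟨fun x => (parseval h x).le, fun a => by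
    have := h a a
    rw [if_pos rfl] at this
    simp only [sq1, sq]
    exact this.le⟩

/-- Absolute Cauchy–Schwarz. -/
lemma abs_sum_mul_le {α : Type*} (s : Finset α) (f g : α → ℝ) :
    |∑ i ∈ s, f i * g i| ≤ √(∑ i ∈ s, f i ^ 2) * √(∑ i ∈ s, g i ^ 2) := by
  refine (abs_sum_le_sum_abs _ _).trans ?_
  simp only [abs_mul]
  have := Real.sum_mul_le_sqrt_mul_sqrt s (fun i => |f i|) fun i => |g i|
  simpa [sq_abs] using this

/-- The same with absolute values inside the sum. -/
lemma sum_abs_mul_le {α : Type*} (s : Finset α) (f g : α → ℝ) :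
    ∑ i ∈ s, |f i| * |g i| ≤ √(∑ i ∈ s, f i ^ 2) * √(∑ i ∈ s, g i ^ 2) := by
  simpa [sq_abs] using Real.sum_mul_le_sqrt_mul_sqrt s (fun i => |f i|) fun i => |g i|

lemma abs_pow_mul_le (x y : ℝ) (k r : ℕ) :
    |x ^ k * y ^ r| ≤ |x| ^ (k + r) + |y| ^ (k + r) := by
  rw [abs_mul, abs_pow, abs_pow]
  rcases le_total |x| |y| with h | h
  · refine le_add_of_nonneg_of_le (by positivity) ?_
    rw [pow_add]
    exact mul_le_mul_of_nonneg_right (pow_le_pow_left₀ (abs_nonneg x) h k) (by positivity)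
  · refine le_add_of_le_of_nonneg ?_ (by positivity)
    rw [pow_add]
    exact mul_le_mul_of_nonneg_left (pow_le_pow_left₀ (abs_nonneg y) h r) (by positivity)

/-- A double eigen-sum is at most the row and column sums times `Σ λ^(k+r)`. -/
lemma eigen_sum_le {l : Fin m → ℝ} {S : Fin m → Fin m → ℝ} {B : ℝ}
    (h1 : ∀ a, ∑ b, |S a b| ≤ B) (h2 : ∀ b, ∑ a, |S a b| ≤ B) (k r : ℕ) :
    |∑ a, ∑ b, l a ^ k * l b ^ r * S a b| ≤ 2 * B * ∑ a, |l a| ^ (k + r) := by
  refine (abs_sum_le_sum_abs _ _).trans ?_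
  calc ∑ a, |∑ b, l a ^ k * l b ^ r * S a b|
      ≤ ∑ a, ∑ b, (|l a| ^ (k + r) * |S a b| + |l b| ^ (k + r) * |S a b|) := by
        refine sum_le_sum fun a _ => (abs_sum_le_sum_abs _ _).trans (sum_le_sum fun b _ => ?_)
        rw [abs_mul, ← add_mul]
        exact mul_le_mul_of_nonneg_right (abs_pow_mul_le _ _ _ _) (abs_nonneg _)
    _ = ∑ a, |l a| ^ (k + r) * ∑ b, |S a b| + ∑ b, |l b| ^ (k + r) * ∑ a, |S a b| := by
        simp only [sum_add_distrib, ← mul_sum]
        congr 1
        rw [sum_comm]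
        exact sum_congr rfl fun b _ => (mul_sum _ _ _).symm
    _ ≤ ∑ a, |l a| ^ (k + r) * B + ∑ b, |l b| ^ (k + r) * B :=
        add_le_add (sum_le_sum fun a _ => mul_le_mul_of_nonneg_left (h1 a) (by positivity))
          (sum_le_sum fun b _ => mul_le_mul_of_nonneg_left (h2 b) (by positivity))
    _ = _ := by rw [← sum_mul]; ring

lemma trace_pow {N : Matrix (Fin m) (Fin m) ℝ} {l : Fin m → ℝ} {φ : Fin m → Vec m}
    (hN : ∀ (k : ℕ) (i j : Fin m), (N ^ k) i j = ∑ a, l a ^ k * (φ a i * φ a j))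
    (h : ∀ a b, ∑ i, φ a i * φ b i = if a = b then 1 else 0) (k : ℕ) :
    (N ^ k).trace = ∑ a, l a ^ k := by
  simp only [Matrix.trace, Matrix.diag, hN]
  rw [sum_comm]
  refine sum_congr rfl fun a _ => ?_
  rw [← mul_sum, h a a, if_pos rfl, mul_one]

end Vale.Agent.P150.Weak.Hess
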